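import Vale.Agent.P275.H341.Gen
import Vale.Agent.P275.H341.Orb2
import Vale.Agent.P275.H633.Pair

/-!
# Row C10: the cuspidal sums for twists of any order
-/

set_option linter.style.haveILetI false
set_option linter.unusedSectionVars false

namespace Vale.Agent.P275.H452.C10

open scoped BigOperators MatrixGroups
open Module Matrix Vale.Agent.P275.H85 Vale.Agent.P275.H341

/-! ### arithmetic -/

theorem lcm_eq {p e m : ℕ} (hp : p.Prime) (hpe : ¬ p ∣ e) (hpm : p ∣ m) :
    Nat.lcm (e * p) m = Nat.lcm e m := by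
  apply Nat.dvd_antisymm
  · apply Nat.lcm_dvd
    · apply Nat.Coprime.mul_dvd_of_dvd_of_dvd
      · exact ((Nat.Prime.coprime_iff_not_dvd hp).mpr hpe).symm
      · exact Nat.dvd_lcm_left e m
      · exact hpm.trans (Nat.dvd_lcm_right e m)
    · exact Nat.dvd_lcm_right e m
  · apply Nat.lcm_dvd
    · exact (Nat.dvd_mul_right e p).trans (Nat.dvd_lcm_left _ _)
    · exact Nat.dvd_lcm_right _ _

theorem mu_mul {p e : ℕ} (hp : p.Prime) (hpe : ¬ p ∣ e) :
    ArithmeticFunction.moebius (e * p) = - ArithmeticFunction.moebius e := by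
  have hc : Nat.Coprime e p := ((Nat.Prime.coprime_iff_not_dvd hp).mpr hpe).symm
  rw [ArithmeticFunction.isMultiplicative_moebius.map_mul_of_coprime hc,
    ArithmeticFunction.moebius_apply_prime hp]
  ring

theorem T_zero {n m : ℕ} (hm : m ∣ n) (h1 : m ≠ 1) (f : ℕ → ℂ) :
    ∑ d ∈ n.divisors, ((ArithmeticFunction.moebius d : ℤ) : ℂ) * f (Nat.lcm d m) = 0 := by
  classical
  obtain ⟨p, hp, hpm⟩ := Nat.exists_prime_and_dvd h1
  have h2 : ∑ d ∈ n.divisors, ((ArithmeticFunction.moebius d : ℤ) : ℂ) * f (Nat.lcm d m) =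
      ∑ d ∈ n.divisors.filter Squarefree,
        ((ArithmeticFunction.moebius d : ℤ) : ℂ) * f (Nat.lcm d m) := by
    symm
    apply Finset.sum_filter_of_ne
    intro d _ hd
    by_contra hsq
    apply hd
    rw [ArithmeticFunction.moebius_eq_zero_of_not_squarefree hsq, Int.cast_zero, zero_mul]
  rw [h2]
  have key : ∀ e, ¬ p ∣ e → ((ArithmeticFunction.moebius (e * p) : ℤ) : ℂ) * f (Nat.lcm (e * p) m)
      = - (((ArithmeticFunction.moebius e : ℤ) : ℂ) * f (Nat.lcm e m)) := by
    intro e he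
    rw [mu_mul hp he, lcm_eq hp he hpm]
    push_cast
    ring
  have hsq : ∀ e, Squarefree (e * p) → ¬ p ∣ e := by
    rintro e he ⟨k, rfl⟩
    have := he p ⟨k, by ring⟩
    rw [Nat.isUnit_iff] at this
    exact hp.one_lt.ne' this
  refine Finset.sum_involution (fun d _ => if p ∣ d then d / p else d * p) ?_ ?_ ?_ ?_
  · intro d hd
    rw [Finset.mem_filter] at hd
    by_cases h3 : p ∣ d
    · obtain ⟨e, rfl⟩ := h3
      rw [if_pos ⟨e, rfl⟩, Nat.mul_div_cancel_left _ hp.pos]
      rw [mul_comm p e] at hd ⊢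
      rw [key e (hsq e hd.2)]
      ring
    · rw [if_neg h3, key d h3]
      ring
  · intro d hd _
    rw [Finset.mem_filter] at hd
    have hd0 : 0 < d := Nat.pos_of_mem_divisors hd.1
    by_cases h3 : p ∣ d
    · rw [if_pos h3]
      exact (Nat.div_lt_self hd0 hp.one_lt).ne
    · rw [if_neg h3]
      intro h4
      have h5 : d * p = d * 1 := by rw [h4, mul_one]
      exact hp.one_lt.ne' (Nat.eq_of_mul_eq_mul_left hd0 h5)
  · intro d hd
    rw [Finset.mem_filter] at hd ⊢
    have hd' := Nat.mem_divisors.mp hd.1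
    by_cases h3 : p ∣ d
    · rw [if_pos h3, Nat.mem_divisors]
      exact ⟨⟨(Nat.div_dvd_of_dvd h3).trans hd'.1, hd'.2⟩,
        hd.2.squarefree_of_dvd (Nat.div_dvd_of_dvd h3)⟩
    · rw [if_neg h3, Nat.mem_divisors]
      have hc : Nat.Coprime d p := ((Nat.Prime.coprime_iff_not_dvd hp).mpr h3).symm
      refine ⟨⟨Nat.Coprime.mul_dvd_of_dvd_of_dvd hc hd'.1 (hpm.trans hm), hd'.2⟩, ?_⟩
      rw [Nat.squarefree_mul hc]
      exact ⟨hd.2, hp.prime.squarefree⟩
  · intro d hd
    rw [Finset.mem_filter] at hd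
    by_cases h3 : p ∣ d
    · obtain ⟨e, rfl⟩ := h3
      have h4 : ¬ p ∣ e := hsq e (by rw [mul_comm]; exact hd.2)
      have h5 : p ∣ p * e := ⟨e, rfl⟩
      simp only [if_pos h5, Nat.mul_div_cancel_left _ hp.pos, if_neg h4]
      ring
    · have h5 : p ∣ d * p := ⟨d, mul_comm _ _⟩
      simp only [if_neg h3, if_pos h5, Nat.mul_div_cancel _ hp.pos]

/-- the sum of the divisors -/
noncomputable def sg (k : ℕ) : ℂ := ∑ d ∈ k.divisors, (d : ℂ)

theorem T_one {n : ℕ} (hn : 0 < n) :
    ∑ d ∈ n.divisors, ((ArithmeticFunction.moebius d : ℤ) : ℂ) * sg (n / d) = n := by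
  have h := (ArithmeticFunction.sum_eq_iff_sum_mul_moebius_eq (R := ℂ) (f := fun k => (k : ℂ))
    (g := sg)).mp (fun k _ => rfl) n hn
  rw [← h]
  exact (Nat.sum_divisorsAntidiagonal
    (fun a b => ((ArithmeticFunction.moebius a : ℤ) : ℂ) * sg b)).symm

theorem dvd_iff {m d j : ℕ} (hd : 0 < d) : m ∣ j * d ↔ m / Nat.gcd m d ∣ j := by
  obtain ⟨m', d', hc, h1, h2⟩ := Nat.exists_coprime m d
  have hg : 0 < Nat.gcd m d := Nat.gcd_pos_of_pos_right m hd
  have h3 : m / Nat.gcd m d = m' := Nat.div_eq_of_eq_mul_left hg h1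
  rw [h3]
  set g := Nat.gcd m d with hgdef
  rw [h1, h2]
  rw [← mul_assoc, Nat.mul_dvd_mul_iff_right hg]
  exact hc.dvd_mul_right

variable {F : Type} [Field F] [Fintype F] [DecidableEq F]

/-! ### orbits -/

theorem per_dvd {κ : Fˣ →* ℂˣ} {c : Cu F} {j : ℕ} (h : c.twist (κ ^ j) = c) : per κ c ∣ j := by
  by_contra hnd
  have hr : 0 < j % per κ c := Nat.pos_of_ne_zero (fun h0 => hnd (Nat.dvd_of_mod_eq_zero h0))
  apply per_min hr (Nat.mod_lt j (per_pos κ c))
  have h1 := twist_mul_per (per_spec κ c) (j / per κ c)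
  have h2 : per κ c * (j / per κ c) + j % per κ c = j := Nat.div_add_mod _ _
  have h3 : c.twist (κ ^ (per κ c * (j / per κ c) + j % per κ c)) = c := by rw [h2]; exact h
  rw [← twist_add, h1] at h3
  exact h3

theorem acus_es {d j : ℕ} (hj : 0 < j) (κ : Fˣ →* ℂˣ) (z : Fˣ) :
    Acus F d (κ ^ j) z = ∑ i ∈ j.divisors, ∑ c ∈ Es F d κ i, wt c.χ z := by
  classical
  rw [← Finset.sum_biUnion]
  · unfold Acus
    apply Finset.sum_congr _ (fun _ _ => rfl)
    ext c
    rw [Finset.mem_filter, mem_cuS, Finset.mem_biUnion]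
    constructor
    · rintro ⟨h1, h2⟩
      exact ⟨per κ c, Nat.mem_divisors.mpr ⟨per_dvd h2, hj.ne'⟩,
        (mem_Es_iff (per_pos κ c)).mpr ⟨h1, rfl⟩⟩
    · rintro ⟨i, hi, hc⟩
      have hi' := Nat.mem_divisors.mp hi
      rw [mem_Es_iff (Nat.pos_of_mem_divisors hi)] at hc
      obtain ⟨h1, h2⟩ := hc
      refine ⟨h1, ?_⟩
      obtain ⟨k, hk⟩ := hi'.1
      rw [hk, ← h2]
      exact twist_mul_per (per_spec κ c) k
  · intro i hi i' hi' hne
    show Disjoint _ _
    rw [Finset.disjoint_left]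
    intro c hc hc'
    rw [mem_Es_iff (Nat.pos_of_mem_divisors hi)] at hc
    rw [mem_Es_iff (Nat.pos_of_mem_divisors hi')] at hc'
    exact hne (hc.2.symm.trans hc'.2)

/-- inversion -/
theorem exact_orbits {d m : ℕ} (hd : 0 < d) (hm : 0 < m) (κ : Fˣ →* ℂˣ) (z : Fˣ) (K : ℂ)
    (hA : ∀ j, 0 < j → Acus F d (κ ^ j) z = if m ∣ j * d then K else 0) (j : ℕ) (hj : 0 < j) :
    ∑ c ∈ Es F d κ j, wt c.χ z = if j * Nat.gcd m d = m then K else 0 := by
  classical
  have hg : 0 < Nat.gcd m d := Nat.gcd_pos_of_pos_right m hd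
  set e := m / Nat.gcd m d with he
  have hem : e * Nat.gcd m d = m := Nat.div_mul_cancel (Nat.gcd_dvd_left m d)
  have hepos : 0 < e := Nat.pos_of_ne_zero (by rintro h0; rw [h0, zero_mul] at hem; omega)
  have hiff : ∀ j, j * Nat.gcd m d = m ↔ j = e := by
    intro j
    constructor
    · intro h
      exact Nat.eq_of_mul_eq_mul_right hg (h.trans hem.symm)
    · rintro rfl
      exact hem
  induction j using Nat.strong_induction_on with
  | _ j ih =>
    have h1 := hA j hj
    rw [acus_es hj] at h1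
    simp only [dvd_iff hd, ← he] at h1
    have h2 : j ∈ j.divisors := Nat.mem_divisors_self j hj.ne'
    rw [← Finset.add_sum_erase _ _ h2] at h1
    have h3 : ∀ i ∈ j.divisors.erase j, ∑ c ∈ Es F d κ i, wt c.χ z = if i = e then K else 0 := by
      intro i hi
      rw [Finset.mem_erase, Nat.mem_divisors] at hi
      have hi0 : 0 < i := Nat.pos_of_dvd_of_pos hi.2.1 hj
      have := ih i (lt_of_le_of_ne (Nat.le_of_dvd hj hi.2.1) hi.1) hi0
      rw [this]
      simp only [hiff]
    rw [Finset.sum_congr rfl h3, Finset.sum_ite_eq' (j.divisors.erase j) e (fun _ => K)] at h1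
    simp only [hiff]
    by_cases h4 : j = e
    · rw [if_pos h4]
      have h6 : e ∉ j.divisors.erase j := by rw [h4]; exact Finset.notMem_erase _ _
      have h7 : e ∣ j := by rw [h4]
      rw [if_pos h7, if_neg h6, add_zero] at h1
      exact h1
    · rw [if_neg h4]
      by_cases h5 : e ∣ j
      · rw [if_pos h5, if_pos (Finset.mem_erase.mpr ⟨Ne.symm h4,
          Nat.mem_divisors.mpr ⟨h5, hj.ne'⟩⟩)] at h1
        linear_combination h1
      · rw [if_neg h5, if_neg (fun h6 => h5 (Nat.mem_divisors.mp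
          (Finset.mem_of_mem_erase h6)).1), add_zero] at h1
        exact h1

/-- the order of a twist fixing a cuspidal character -/
theorem acus_zero {d m : ℕ} {κ : Fˣ →* ℂˣ} (hκ : orderOf κ = m) {j : ℕ} (h : ¬ m ∣ j * d)
    (z : Fˣ) : Acus F d (κ ^ j) z = 0 := by
  classical
  unfold Acus
  apply Finset.sum_eq_zero
  intro c hc
  rw [Finset.mem_filter, mem_cuS] at hc
  exfalso
  apply h
  have h1 : c.twist (κ ^ 0) = c.twist (κ ^ j) := by rw [hpow_zero, Cu.twist_one, hc.2]
  have h2 := twist_eq_dvd hκ (Nat.zero_le j) h1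
  rwa [Nat.sub_zero, hc.1] at h2

theorem acus_one (d : ℕ) (κ : Fˣ →* ℂˣ) (z : Fˣ) :
    ∑ c ∈ Es F d κ 1, wt c.χ z = Acus F d κ z := by
  have h := acus_es (F := F) (d := d) (j := 1) one_pos κ z
  rw [Nat.divisors_one, Finset.sum_singleton] at h
  rw [← h]
  congr 1
  exact pow_one κ

theorem lcm_facts {n m d : ℕ} (hn : 0 < n) (hm : m ∣ n) (hd : d ∣ n) :
    m / Nat.gcd m d * d = Nat.lcm d m ∧ m / Nat.gcd m d ∈ (n / d).divisors := by
  have hd0 : 0 < d := Nat.pos_of_dvd_of_pos hd hn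
  have h1 : m / Nat.gcd m d * d = Nat.lcm d m := by
    rw [Nat.lcm_comm, Nat.lcm, Nat.div_mul_right_comm (Nat.gcd_dvd_left m d)]
  refine ⟨h1, ?_⟩
  rw [Nat.mem_divisors]
  refine ⟨?_, (Nat.div_pos (Nat.le_of_dvd hn hd) hd0).ne'⟩
  have h2 : m / Nat.gcd m d * d ∣ n := by
    rw [h1]
    exact Nat.lcm_dvd hd hm
  have h3 : m / Nat.gcd m d * d ∣ n / d * d := by rwa [Nat.div_mul_cancel hd]
  exact Nat.dvd_of_mul_dvd_mul_right hd0 h3

/-- Row C10 -/
theorem rowC10 (C9 : RowC9) (C6 : RowC6) (A9 : RowA9) : RowC10 := by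
  classical
  intro F _ _ _ n
  induction n using Nat.strong_induction_on with
  | _ n ih =>
    intro m hn hm κ ζ hκ hneg hζ
    have hn0 : 0 < n := hn
    have hm0 : 0 < m := Nat.pos_of_dvd_of_pos hm hn0
    have hnC : (n : ℂ) ≠ 0 := by exact_mod_cast hn0.ne'
    have hom : ∀ d j, om 1 (Fintype.card F : ℂ) d j = fun t => ((Pt t).card : ℂ) := by
      intro d j
      funext t
      unfold om
      simp
    have h9 := C9 F n m hn hm κ ζ hκ hneg hζ 1
    simp only [hom, MonoidHom.one_apply, one_mul] at h9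
    -- the left side
    have hS : ∑ χ ∈ stb n κ, wt χ ζ = if m = 1 then (Fintype.card F : ℂ) - 1 else 0 := by
      by_cases h1 : m = 1
      · rw [if_pos h1]
        have h2 : κ = 1 := by
          rw [h1] at hκ
          exact orderOf_eq_one_iff.mp hκ
        rw [← C6 F n hn ζ hζ]
        apply Finset.sum_congr _ (fun _ _ => rfl)
        ext χ
        rw [mem_stb, mem_irrSet]
        constructor
        · exact fun h => h.1
        · intro h
          refine ⟨h, ?_⟩
          intro g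
          rw [h2]
          unfold tw
          simp
      · rw [if_neg h1]
        exact H633.rpair F n hn κ ζ (by
          rintro rfl
          exact h1 (by rw [← hκ, orderOf_one])) hζ
    -- the terms
    have hterm : ∀ d ∈ n.divisors.erase n, (d : ℂ) * ∑ j ∈ (n / d).divisors,
        ld (fun t => ((Pt t).card : ℂ)) (n / (j * d)) * ∑ c ∈ Es F d κ j, wt c.χ (ζ ^ (n / d)) =
        ((Fintype.card F : ℂ) - 1) * (((ArithmeticFunction.moebius d : ℤ) : ℂ) *
          sg (n / Nat.lcm d m)) := by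
      intro d hd
      rw [Finset.mem_erase, Nat.mem_divisors] at hd
      have hdn : d ∣ n := hd.2.1
      have hd0 : 0 < d := Nat.pos_of_dvd_of_pos hdn hn0
      have hlt : d < n := lt_of_le_of_ne (Nat.le_of_dvd hn0 hdn) hd.1
      have hζd : orderOf (ζ ^ (n / d)) = d := by
        rw [orderOf_pow_of_dvd (Nat.div_pos (Nat.le_of_dvd hn0 hdn) hd0).ne'
          (by rw [hζ]; exact Nat.div_dvd_of_dvd hdn), hζ]
        exact Nat.div_div_self hdn hn0.ne'
      set K : ℂ := (((Fintype.card F : ℂ) - 1) / d) * ((ArithmeticFunction.moebius d : ℤ) : ℂ)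
        with hK
      have hA : ∀ j, 0 < j → Acus F d (κ ^ j) (ζ ^ (n / d)) = if m ∣ j * d then K else 0 := by
        intro j hj
        by_cases h1 : m ∣ j * d
        · rw [if_pos h1]
          have h2 : orderOf (κ ^ j) ∣ d := by
            apply orderOf_dvd_of_pow_eq_one
            rw [← hκ] at h1
            have h3 : κ ^ (j * d) = 1 := orderOf_dvd_iff_pow_eq_one.mp h1
            exact (pow_mul κ j d).symm.trans h3
          refine ih d hlt (orderOf (κ ^ j)) hd0 h2 (κ ^ j) (ζ ^ (n / d)) rfl ?_ hζd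
          rw [MonoidHom.pow_apply, hneg, one_pow]
        · rw [if_neg h1]
          exact acus_zero hκ h1 _
      have hE := exact_orbits (F := F) hd0 hm0 κ (ζ ^ (n / d)) K hA
      obtain ⟨h3, h4⟩ := lcm_facts hn0 hm hdn
      have hg : 0 < Nat.gcd m d := Nat.gcd_pos_of_pos_right m hd0
      have hem : m / Nat.gcd m d * Nat.gcd m d = m := Nat.div_mul_cancel (Nat.gcd_dvd_left m d)
      rw [Finset.sum_eq_single (m / Nat.gcd m d)]
      · rw [hE _ (Nat.pos_of_mem_divisors h4), if_pos hem, h3]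
        have h5 : 0 < n / Nat.lcm d m :=
          Nat.div_pos (Nat.le_of_dvd hn0 (Nat.lcm_dvd hdn hm)) (Nat.lcm_pos hd0 hm0)
        rw [A9 _ h5, hK]
        have hdC : (d : ℂ) ≠ 0 := by exact_mod_cast hd0.ne'
        show (d : ℂ) * (sg (n / Nat.lcm d m) * _) = _
        field_simp
      · intro j hj hne
        rw [hE _ (Nat.pos_of_mem_divisors hj), if_neg, mul_zero]
        intro h5
        exact hne (Nat.eq_of_mul_eq_mul_right hg (h5.trans hem.symm))
      · intro h5
        exact absurd h4 h5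
    have hnd : n ∈ n.divisors := Nat.mem_divisors_self n hn0.ne'
    rw [← Finset.add_sum_erase _ _ hnd, Finset.sum_congr rfl hterm, ← Finset.mul_sum] at h9
    have htop : ∑ j ∈ (n / n).divisors,
        ld (fun t => ((Pt t).card : ℂ)) (n / (j * n)) * ∑ c ∈ Es F n κ j, wt c.χ (ζ ^ (n / n)) =
        Acus F n κ ζ := by
      rw [Nat.div_self hn0, Nat.divisors_one, Finset.sum_singleton, one_mul, Nat.div_self hn0,
        pow_one, acus_one, A9 1 one_pos, Nat.divisors_one, Finset.sum_singleton, Nat.cast_one,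
        one_mul]
    rw [htop, hS] at h9
    have hT : ∑ d ∈ n.divisors, ((ArithmeticFunction.moebius d : ℤ) : ℂ) *
        sg (n / Nat.lcm d m) = if m = 1 then (n : ℂ) else 0 := by
      by_cases h1 : m = 1
      · rw [if_pos h1, ← T_one hn0]
        apply Finset.sum_congr rfl
        intro d _
        rw [h1, Nat.lcm_one_right]
      · rw [if_neg h1]
        exact T_zero hm h1 (fun k => sg (n / k))
    rw [← Finset.add_sum_erase _ _ hnd] at hT
    have hl : Nat.lcm n m = n := Nat.lcm_eq_left hm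
    have hsg1 : sg 1 = 1 := by
      unfold sg
      rw [Nat.divisors_one, Finset.sum_singleton, Nat.cast_one]
    rw [hl, Nat.div_self hn0, hsg1, mul_one] at hT
    have hfin : (n : ℂ) * Acus F n κ ζ =
        ((Fintype.card F : ℂ) - 1) * ((ArithmeticFunction.moebius n : ℤ) : ℂ) := by
      by_cases h1 : m = 1
      · rw [if_pos h1] at h9 hT
        linear_combination -h9 - ((Fintype.card F : ℂ) - 1) * hT
      · rw [if_neg h1] at h9 hT
        linear_combination -h9 - ((Fintype.card F : ℂ) - 1) * hT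
    rw [div_mul_eq_mul_div, eq_div_iff hnC, mul_comm]
    exact hfin

end Vale.Agent.P275.H452.C10
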