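import Vale.Agent.P275.H452.E7b
import Vale.Agent.P275.H452.C10

/-!
# Row E5: the arithmetic
-/

set_option linter.unusedSectionVars false

namespace Vale.Agent.P275.H452.E5

open scoped BigOperators
open Finset
open Vale.Agent.P275.H452.E7 (mu mu_mul sum_mu dvd_iff_pf mu_zero)
open Vale.Agent.P275.H452.C10 (sg T_one)

/-- the part of the Moebius function supported on the numbers composed of the primes of `e` -/
noncomputable def vv (e : ℕ) (j : ℕ) : ℂ := if j.primeFactors ⊆ e.primeFactors then mu j else 0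

/-- the part of the Moebius function supported on the numbers coprime to `e` -/
noncomputable def uu (e : ℕ) (d : ℕ) : ℂ := if Nat.Coprime d e then mu d else 0

theorem vv_eq {e : ℕ} (he : e ≠ 0) (j : ℕ) : vv e j = if j ∣ e then mu j else 0 := by
  unfold vv
  by_cases hj : Squarefree j
  · by_cases h : j ∣ e
    · rw [if_pos h, if_pos ((dvd_iff_pf hj he).mp h)]
    · rw [if_neg h, if_neg (fun h' => h ((dvd_iff_pf hj he).mpr h'))]
  · rw [mu_zero hj, ite_self, ite_self]

theorem sum_vv {e : ℕ} (he : e ≠ 0) {j : ℕ} (hj : 0 < j) :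
    ∑ i ∈ j.divisors, vv e i = if Nat.gcd j e = 1 then 1 else 0 := by
  rw [Finset.sum_congr rfl fun i _ => vv_eq he i]
  rw [← sum_mu (Nat.gcd j e) (Nat.gcd_pos_of_pos_left e hj), ← Finset.sum_filter]
  apply Finset.sum_congr _ (fun _ _ => rfl)
  ext i
  rw [Finset.mem_filter, Nat.mem_divisors, Nat.mem_divisors]
  constructor
  · rintro ⟨⟨h1, _⟩, h2⟩
    exact ⟨Nat.dvd_gcd h1 h2, (Nat.gcd_pos_of_pos_left e hj).ne'⟩
  · rintro ⟨h1, _⟩
    exact ⟨⟨h1.trans (Nat.gcd_dvd_left _ _), hj.ne'⟩, h1.trans (Nat.gcd_dvd_right _ _)⟩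

/-- inversion -/
theorem inv_vv {e : ℕ} (he : e ≠ 0) (K : ℂ) (A : ℕ → ℂ)
    (hA : ∀ j, 0 < j → ∑ i ∈ j.divisors, A i = if Nat.gcd j e = 1 then K else 0) (j : ℕ)
    (hj : 0 < j) : A j = K * vv e j := by
  induction j using Nat.strong_induction_on with
  | _ j ih =>
    have h1 := hA j hj
    have h2 := sum_vv he hj
    have h3 : j ∈ j.divisors := Nat.mem_divisors_self j hj.ne'
    rw [← Finset.add_sum_erase _ _ h3] at h1 h2
    have h4 : ∑ i ∈ j.divisors.erase j, A i = K * ∑ i ∈ j.divisors.erase j, vv e i := by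
      rw [Finset.mul_sum]
      apply Finset.sum_congr rfl
      intro i hi
      rw [Finset.mem_erase, Nat.mem_divisors] at hi
      exact ih i (lt_of_le_of_ne (Nat.le_of_dvd hj hi.2.1) hi.1) (Nat.pos_of_dvd_of_pos hi.2.1 hj)
    rw [h4] at h1
    by_cases h5 : Nat.gcd j e = 1
    · rw [if_pos h5] at h1 h2
      linear_combination h1 - K * h2
    · rw [if_neg h5] at h1 h2
      linear_combination h1 - K * h2

theorem conv {e : ℕ} (he : e ≠ 0) {k : ℕ} (hk : 0 < k) :
    ∑ d ∈ k.divisors, uu e d * vv e (k / d) = mu k := by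
  by_cases hsq : Squarefree k
  · set g := Nat.gcd k e with hg
    have hgk : g ∣ k := Nat.gcd_dvd_left k e
    have hge : g ∣ e := Nat.gcd_dvd_right k e
    have hg0 : 0 < g := Nat.gcd_pos_of_pos_left e hk
    have hd0 : k / g ∈ k.divisors := Nat.mem_divisors.mpr ⟨Nat.div_dvd_of_dvd hgk, hk.ne'⟩
    have hkg : k / (k / g) = g := Nat.div_div_self hgk hk.ne'
    have hcop : Nat.Coprime (k / g) g := by
      apply Nat.coprime_of_squarefree_mul
      rwa [Nat.div_mul_cancel hgk]
    have hcop' : Nat.Coprime (k / g) e := by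
      rw [Nat.coprime_iff_gcd_eq_one]
      have h1 : Nat.gcd (k / g) e ∣ g :=
        Nat.dvd_gcd ((Nat.gcd_dvd_left _ _).trans (Nat.div_dvd_of_dvd hgk)) (Nat.gcd_dvd_right _ _)
      have h2 : Nat.gcd (k / g) e ∣ Nat.gcd (k / g) g := Nat.dvd_gcd (Nat.gcd_dvd_left _ _) h1
      rw [Nat.Coprime.gcd_eq_one hcop] at h2
      exact Nat.dvd_one.mp h2
    rw [Finset.sum_eq_single (k / g)]
    · rw [hkg, vv_eq he, if_pos hge]
      unfold uu
      rw [if_pos hcop', ← mu_mul hcop, Nat.div_mul_cancel hgk]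
    · intro d hd hne
      have hd' := (Nat.mem_divisors.mp hd).1
      rw [vv_eq he]
      unfold uu
      by_cases h1 : Nat.Coprime d e
      · by_cases h2 : k / d ∣ e
        · exfalso
          apply hne
          have h3 : k / d ∣ g := Nat.dvd_gcd (Nat.div_dvd_of_dvd hd') h2
          have h4 : g ∣ k / d := by
            have h5 : g ∣ d * (k / d) := by rw [Nat.mul_div_cancel' hd']; exact hgk
            exact (Nat.Coprime.dvd_mul_left
              (Nat.Coprime.coprime_dvd_left hge h1.symm)).mp h5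
          have h6 : k / d = g := Nat.dvd_antisymm h3 h4
          rw [← h6, Nat.div_div_self hd' hk.ne']
        · rw [if_neg h2, mul_zero]
      · rw [if_neg h1, zero_mul]
    · intro h
      exact absurd hd0 h
  · rw [mu_zero hsq]
    apply Finset.sum_eq_zero
    intro d hd
    have hd' := (Nat.mem_divisors.mp hd).1
    rw [vv_eq he]
    unfold uu
    by_cases h1 : Nat.Coprime d e
    · by_cases h2 : k / d ∣ e
      · rw [if_pos h1, if_pos h2]
        by_cases h3 : Squarefree d
        · by_cases h4 : Squarefree (k / d)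
          · exfalso
            apply hsq
            rw [← Nat.mul_div_cancel' hd', Nat.squarefree_mul]
            · exact ⟨h3, h4⟩
            · exact Nat.Coprime.coprime_dvd_right h2 h1
          · rw [mu_zero h4, mul_zero]
        · rw [mu_zero h3, zero_mul]
      · rw [if_neg h2, mul_zero]
    · rw [if_neg h1, zero_mul]

theorem ident {e : ℕ} (he : e ≠ 0) {n : ℕ} (hn : 0 < n) :
    ∑ d ∈ n.divisors, uu e d * ∑ j ∈ (n / d).divisors, vv e j * sg (n / (j * d)) = n := by
  let U : ArithmeticFunction ℂ := ⟨uu e, by unfold uu mu; simp⟩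
  let V : ArithmeticFunction ℂ := ⟨vv e, by unfold vv mu; simp⟩
  let S : ArithmeticFunction ℂ := ⟨sg, by unfold sg; simp⟩
  have h1 : (U * (V * S)) n
      = ∑ d ∈ n.divisors, uu e d * ∑ j ∈ (n / d).divisors, vv e j * sg (n / (j * d)) := by
    rw [ArithmeticFunction.mul_apply, Nat.sum_divisorsAntidiagonal (fun a b => U a * (V * S) b)]
    apply Finset.sum_congr rfl
    intro d _
    show uu e d * (V * S) (n / d) = _
    congr 1
    rw [ArithmeticFunction.mul_apply, Nat.sum_divisorsAntidiagonal (fun a b => V a * S b)]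
    apply Finset.sum_congr rfl
    intro j _
    show vv e j * sg (n / d / j) = _
    rw [Nat.div_div_eq_div_mul, mul_comm d j]
  rw [← h1, ← mul_assoc, ArithmeticFunction.mul_apply,
    Nat.sum_divisorsAntidiagonal (fun a b => (U * V) a * S b), ← T_one hn]
  apply Finset.sum_congr rfl
  intro k hk
  show (U * V) k * sg (n / k) = _
  congr 1
  rw [ArithmeticFunction.mul_apply, Nat.sum_divisorsAntidiagonal (fun a b => U a * V b)]
  exact conv he (Nat.pos_of_mem_divisors hk)

end Vale.Agent.P275.H452.E5
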