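import Vale.Agent.P275.H341.Rows5
import Vale.Agent.P275.H341.Wt
import Vale.Agent.P275.H452.E5a

/-!
# Row E5: the cuspidal sums for the twisted Frobenius map
-/

set_option linter.style.haveILetI false
set_option linter.unusedSectionVars false

namespace Vale.Agent.P275.H452.E5

open scoped BigOperators MatrixGroups
open Module Matrix Vale.Agent.P275.H85 Vale.Agent.P275.H341
open Vale.Agent.P275.H452.E7 (mu mu_mul sum_mu dvd_iff_pf mu_zero)
open Vale.Agent.P275.H452.C10 (sg T_one)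

section act

variable {F E : Type} [Field F] [Field E] [Algebra F E]

/-- the action on the units -/
def act (φ : E ≃ₐ[F] E) : Eˣ →* Eˣ := Units.map ((φ : E →+* E) : E →* E)

theorem act_mul (φ ψ : E ≃ₐ[F] E) (x : Eˣ) : act (φ * ψ) x = act φ (act ψ x) := Units.ext rfl

theorem act_one (x : Eˣ) : act (1 : E ≃ₐ[F] E) x = x := Units.ext rfl

theorem act_inc (φ : E ≃ₐ[F] E) (w : Fˣ) : act φ (inc E w) = inc E w := Units.ext (φ.commutes w)

theorem nrm_act (φ : E ≃ₐ[F] E) (x : Eˣ) : nrm F (act φ x) = nrm F x :=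
  Units.ext (Algebra.norm_eq_of_algEquiv φ (x : E))

theorem det_fr (φ : E ≃ₐ[F] E) (n : ℕ) (g : GL (Fin n) E) :
    Matrix.GeneralLinearGroup.det (fr φ n g) = act φ (Matrix.GeneralLinearGroup.det g) :=
  Matrix.GeneralLinearGroup.map_det (φ : E →+* E) g

theorem fr_mul (φ ψ : E ≃ₐ[F] E) (n : ℕ) (g : GL (Fin n) E) :
    fr (φ * ψ) n g = fr φ n (fr ψ n g) := by
  apply Units.ext
  rfl

theorem fr_one (n : ℕ) (g : GL (Fin n) E) : fr (1 : E ≃ₐ[F] E) n g = g := by
  apply Units.ext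
  rfl

theorem inc_injective : Function.Injective (inc (F := F) E) := by
  intro a b h
  apply Units.ext
  apply (algebraMap F E).injective
  exact congrArg Units.val h

end act

variable {F E : Type} [Field F] [Field E] [Fintype E] [DecidableEq E] [Algebra F E]

theorem TF_add {φ : E ≃ₐ[F] E} {κ : Fˣ →* ℂˣ} {i j : ℕ} {c : Cu E} (h : TF φ κ i c) :
    TF φ κ (i + j) c ↔ TF φ κ j c := by
  have key : ∀ g, c.χ (fr (φ ^ (i + j)) c.s g)
      = (((κ ^ i) (nrm F (Matrix.GeneralLinearGroup.det g)) : ℂˣ) : ℂ) *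
        c.χ (fr (φ ^ j) c.s g) := by
    intro g
    have h1 := h (fr (φ ^ j) c.s g)
    rw [det_fr, nrm_act, ← fr_mul, ← pow_add] at h1
    exact h1
  have hk : ∀ u : Fˣ, (((κ ^ (i + j)) u : ℂˣ) : ℂ)
      = (((κ ^ i) u : ℂˣ) : ℂ) * (((κ ^ j) u : ℂˣ) : ℂ) := by
    intro u
    rw [MonoidHom.pow_apply, MonoidHom.pow_apply, MonoidHom.pow_apply, pow_add, Units.val_mul]
  constructor
  · intro h2 g
    have h3 := h2 g
    rw [key g, hk, mul_assoc] at h3
    exact mul_left_cancel₀ (Units.ne_zero _) h3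
  · intro h2 g
    rw [key g, hk, mul_assoc, h2 g]

theorem TF_zero (φ : E ≃ₐ[F] E) (κ : Fˣ →* ℂˣ) (c : Cu E) : TF φ κ 0 c := by
  intro g
  rw [pow_zero, fr_one, MonoidHom.pow_apply, pow_zero, Units.val_one, one_mul]

theorem TF_mul {φ : E ≃ₐ[F] E} {κ : Fˣ →* ℂˣ} {i : ℕ} {c : Cu E} (h : TF φ κ i c) (k : ℕ) :
    TF φ κ (i * k) c := by
  induction k with
  | zero => exact TF_zero φ κ c
  | succ k ih =>
    rw [Nat.mul_succ, add_comm]
    exact (TF_add h).mpr ih

theorem TF_top {φ : E ≃ₐ[F] E} {κ : Fˣ →* ℂˣ} {e : ℕ} (h1 : φ ^ e = 1) (h2 : κ ^ e = 1)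
    (c : Cu E) : TF φ κ e c := by
  intro g
  rw [h1, h2, fr_one]
  show _ = ((1 : ℂˣ) : ℂ) * _
  rw [Units.val_one, one_mul]

/-- the exact length of the orbit of a cuspidal character -/
noncomputable def pT {φ : E ≃ₐ[F] E} {κ : Fˣ →* ℂˣ} {c : Cu E} (h : ∃ j, 0 < j ∧ TF φ κ j c) : ℕ :=
  @Nat.find (fun j => 0 < j ∧ TF φ κ j c) (Classical.decPred _) h

theorem pT_spec {φ : E ≃ₐ[F] E} {κ : Fˣ →* ℂˣ} {c : Cu E} (h : ∃ j, 0 < j ∧ TF φ κ j c) :
    0 < pT h ∧ TF φ κ (pT h) c :=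
  @Nat.find_spec (fun j => 0 < j ∧ TF φ κ j c) (Classical.decPred _) h

theorem pT_min {φ : E ≃ₐ[F] E} {κ : Fˣ →* ℂˣ} {c : Cu E} (h : ∃ j, 0 < j ∧ TF φ κ j c) {i : ℕ}
    (h0 : 0 < i) (hi : i < pT h) : ¬ TF φ κ i c := fun h1 =>
  @Nat.find_min (fun j => 0 < j ∧ TF φ κ j c) (Classical.decPred _) h i hi ⟨h0, h1⟩

theorem pT_dvd {φ : E ≃ₐ[F] E} {κ : Fˣ →* ℂˣ} {c : Cu E} (h : ∃ j, 0 < j ∧ TF φ κ j c) {j : ℕ} :
    TF φ κ j c ↔ pT h ∣ j := by
  obtain ⟨h0, h1⟩ := pT_spec h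
  constructor
  · intro h2
    by_contra hnd
    have hr : 0 < j % pT h := Nat.pos_of_ne_zero (fun h0 => hnd (Nat.dvd_of_mod_eq_zero h0))
    refine pT_min h hr (Nat.mod_lt j h0) ?_
    have h3 : pT h * (j / pT h) + j % pT h = j := Nat.div_add_mod _ _
    rw [← h3] at h2
    exact (TF_add (TF_mul h1 _)).mp h2
  · rintro ⟨k, hk⟩
    rw [hk]
    exact TF_mul h1 k

open scoped Classical in
theorem mem_cuT {φ : E ≃ₐ[F] E} {κ : Fˣ →* ℂˣ} {d j : ℕ} {c : Cu E} :
    c ∈ cuT φ κ d j ↔ c.s = d ∧ TF φ κ j c ∧ ∀ i, 0 < i → i < j → ¬ TF φ κ i c := by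
  unfold cuT
  rw [Finset.mem_filter, mem_cuS]

theorem mem_cuT_iff {φ : E ≃ₐ[F] E} {κ : Fˣ →* ℂˣ} {d j : ℕ} {c : Cu E}
    (h : ∃ j, 0 < j ∧ TF φ κ j c) (hj : 0 < j) :
    c ∈ cuT φ κ d j ↔ c.s = d ∧ pT h = j := by
  rw [mem_cuT]
  obtain ⟨h0, h1⟩ := pT_spec h
  constructor
  · rintro ⟨h2, h3, h4⟩
    refine ⟨h2, ?_⟩
    rw [pT_dvd h] at h3
    by_contra hne
    exact h4 (pT h) h0 (lt_of_le_of_ne (Nat.le_of_dvd hj h3) hne) h1
  · rintro ⟨h2, rfl⟩
    exact ⟨h2, h1, fun i hi hlt => pT_min h hi hlt⟩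

open scoped Classical in
/-- the sum over the fixed cuspidal characters -/
noncomputable def BB (φ : E ≃ₐ[F] E) (κ : Fˣ →* ℂˣ) (d j : ℕ) (y : Eˣ) : ℂ :=
  ∑ c ∈ (cuS E d).filter (fun c => TF φ κ j c), wt c.χ y

theorem BB_eq {φ : E ≃ₐ[F] E} {κ : Fˣ →* ℂˣ} (hex : ∀ c : Cu E, ∃ j, 0 < j ∧ TF φ κ j c)
    {d j : ℕ} (hj : 0 < j) (y : Eˣ) :
    ∑ i ∈ j.divisors, ∑ c ∈ cuT φ κ d i, wt c.χ y = BB φ κ d j y := by
  classical
  rw [← Finset.sum_biUnion]
  · unfold BB
    apply Finset.sum_congr _ (fun _ _ => rfl)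
    ext c
    rw [Finset.mem_filter, mem_cuS, Finset.mem_biUnion]
    constructor
    · rintro ⟨i, hi, hc⟩
      rw [mem_cuT_iff (hex c) (Nat.pos_of_mem_divisors hi)] at hc
      obtain ⟨h1, h2⟩ := hc
      exact ⟨h1, (pT_dvd (hex c)).mpr (h2 ▸ (Nat.mem_divisors.mp hi).1)⟩
    · rintro ⟨h1, h2⟩
      exact ⟨pT (hex c), Nat.mem_divisors.mpr ⟨(pT_dvd (hex c)).mp h2, hj.ne'⟩,
        (mem_cuT_iff (hex c) (pT_spec (hex c)).1).mpr ⟨h1, rfl⟩⟩
  · intro i hi i' hi' hne
    show Disjoint _ _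
    rw [Finset.disjoint_left]
    intro c hc hc'
    rw [mem_cuT_iff (hex c) (Nat.pos_of_mem_divisors hi)] at hc
    rw [mem_cuT_iff (hex c) (Nat.pos_of_mem_divisors hi')] at hc'
    exact hne (hc.2.symm.trans hc'.2)

theorem BB_one (φ : E ≃ₐ[F] E) (κ : Fˣ →* ℂˣ) (d j : ℕ) (y : Eˣ) :
    BB φ κ d j y = ∑ c ∈ cuT (φ ^ j) (κ ^ j) d 1, wt c.χ y := by
  classical
  unfold BB
  apply Finset.sum_congr _ (fun _ _ => rfl)
  ext c
  rw [Finset.mem_filter, mem_cuS, mem_cuT]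
  unfold TF
  have h0 : ∀ u, ((κ ^ j) ^ 1) u = (κ ^ j) u := fun u => by rw [MonoidHom.pow_apply, pow_one]
  rw [pow_one]
  simp only [h0]
  constructor
  · rintro ⟨h1, h2⟩
    exact ⟨h1, h2, fun i h3 h4 => absurd h4 (by omega)⟩
  · rintro ⟨h1, h2, _⟩
    exact ⟨h1, h2⟩

/-- a twist fixed by the map kills the sum -/
theorem BB_kill {φ : E ≃ₐ[F] E} {κ : Fˣ →* ℂˣ} {d j : ℕ} {y : Eˣ} (η : Eˣ →* ℂˣ)
    (h1 : ∀ x, η (act (φ ^ j) x) = η x) (h2 : η (y ^ d) ≠ 1) : BB φ κ d j y = 0 := by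
  classical
  have hT : ∀ (η : Eˣ →* ℂˣ) (c : Cu E), (∀ x, η (act (φ ^ j) x) = η x) → TF φ κ j c →
      TF φ κ j (c.twist η) := by
    intro η c h1 h (g : GL (Fin c.s) E)
    show tw η (fr (φ ^ j) c.s g) * c.χ (fr (φ ^ j) c.s g) = _ * (tw η g * c.χ g)
    unfold tw
    rw [det_fr, h1, h g]
    exact mul_left_comm _ _ _
  have h1' : ∀ x, η⁻¹ (act (φ ^ j) x) = η⁻¹ x := by
    intro x
    rw [MonoidHom.inv_apply, MonoidHom.inv_apply, h1]
  have h3 : BB φ κ d j y = BB φ κ d j y * (((η y : ℂˣ) : ℂ)⁻¹) ^ d := by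
    unfold BB
    rw [Finset.sum_mul]
    symm
    refine Finset.sum_bij' (fun c _ => c.twist η) (fun c _ => c.twist η⁻¹) ?_ ?_ ?_ ?_ ?_
    · intro c hc
      rw [Finset.mem_filter, mem_cuS] at hc ⊢
      exact ⟨hc.1, hT η c h1 hc.2⟩
    · intro c hc
      rw [Finset.mem_filter, mem_cuS] at hc ⊢
      exact ⟨hc.1, hT η⁻¹ c h1' hc.2⟩
    · intro c _
      show (c.twist η).twist η⁻¹ = c
      have h5 : η * η⁻¹ = 1 := by
        apply MonoidHom.ext
        intro x
        rw [MonoidHom.mul_apply, MonoidHom.inv_apply, mul_inv_cancel, MonoidHom.one_apply]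
      rw [Cu.twist_twist, h5, Cu.twist_one]
    · intro c _
      show (c.twist η⁻¹).twist η = c
      have h5 : η⁻¹ * η = 1 := by
        apply MonoidHom.ext
        intro x
        rw [MonoidHom.mul_apply, MonoidHom.inv_apply, inv_mul_cancel, MonoidHom.one_apply]
      rw [Cu.twist_twist, h5, Cu.twist_one]
    · intro c hc
      rw [Finset.mem_filter, mem_cuS] at hc
      have := Sys.wt_twist η (emb c) y
      have h4 : (emb c).1 = d := hc.1
      have h5 : (((η y : ℂˣ) : ℂ)⁻¹) ^ (emb c).1 = (((η y : ℂˣ) : ℂ)⁻¹) ^ d := by rw [h4]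
      rw [h5] at this
      exact this.symm
  have h4 : (((η y : ℂˣ) : ℂ)⁻¹) ^ d ≠ 1 := by
    intro h
    apply h2
    apply Units.ext
    rw [map_pow, Units.val_pow_eq_pow_val, Units.val_one]
    rw [inv_pow] at h
    exact inv_eq_one.mp h
  have h5 : BB φ κ d j y * ((((η y : ℂˣ) : ℂ)⁻¹) ^ d - 1) = 0 := by
    linear_combination -h3
  exact (mul_eq_zero.mp h5).resolve_right (sub_ne_zero.mpr h4)

/-- the case of a common factor -/
theorem BB_gcd {φ : E ≃ₐ[F] E} {κ : Fˣ →* ℂˣ} {n d j e : ℕ} {z : Fˣ} (he : 0 < e) (hd : d ∣ n)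
    (hn : 0 < n) (hφ : orderOf φ = e) (hz : orderOf z = n * e) (hg : Nat.gcd j e ≠ 1) :
    BB φ κ d j (inc E z ^ (n / d)) = 0 := by
  set L := e / Nat.gcd e j with hL
  have hge : Nat.gcd e j ∣ e := Nat.gcd_dvd_left e j
  have hg0 : 0 < Nat.gcd e j := Nat.gcd_pos_of_pos_left j he
  have hL0 : 0 < L := Nat.div_pos (Nat.le_of_dvd he hge) hg0
  have hLe : L < e := by
    apply Nat.div_lt_self he
    rw [Nat.gcd_comm] at hg
    omega
  have hpow : (φ ^ j) ^ L = 1 := by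
    rw [← pow_mul]
    apply orderOf_dvd_iff_pow_eq_one.mp
    rw [hφ, hL]
    obtain ⟨a, ha⟩ := Nat.gcd_dvd_right e j
    refine ⟨a, ?_⟩
    calc j * (e / Nat.gcd e j) = (Nat.gcd e j * a) * (e / Nat.gcd e j) := by rw [← ha]
      _ = (Nat.gcd e j * (e / Nat.gcd e j)) * a := by ring
      _ = e * a := by rw [Nat.mul_div_cancel' hge]
  let N : Eˣ →* Eˣ := ∏ i ∈ Finset.range L, act ((φ ^ j) ^ i)
  have hN : ∀ x, N x = ∏ i ∈ Finset.range L, act ((φ ^ j) ^ i) x := by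
    intro x
    exact MonoidHom.finsetProd_apply _ _ _
  have hNact : ∀ x, N (act (φ ^ j) x) = N x := by
    intro x
    rw [hN, hN]
    have h1 : ∀ i ∈ Finset.range L, act ((φ ^ j) ^ i) (act (φ ^ j) x)
        = act ((φ ^ j) ^ (i + 1)) x := by
      intro i _
      rw [pow_succ, act_mul]
    rw [Finset.prod_congr rfl h1]
    have h2 := Finset.prod_range_succ (fun i => act ((φ ^ j) ^ i) x) L
    have h3 := Finset.prod_range_succ' (fun i => act ((φ ^ j) ^ i) x) L
    rw [h2, hpow, pow_zero] at h3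
    exact (mul_right_cancel h3).symm
  have hNinc : ∀ w : Fˣ, N (inc E w) = inc E w ^ L := by
    intro w
    rw [hN, Finset.prod_congr rfl fun i _ => act_inc ((φ ^ j) ^ i) w, Finset.prod_const,
      Finset.card_range]
  have hρ : inc E (z ^ (n * L)) ≠ 1 := by
    intro h
    have h1 : z ^ (n * L) = 1 := inc_injective (by rw [h, map_one])
    have h2 := orderOf_dvd_of_pow_eq_one h1
    rw [hz] at h2
    have h3 := Nat.le_of_dvd (Nat.mul_pos hn hL0) h2
    exact absurd (Nat.le_of_mul_le_mul_left h3 hn) (by omega)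
  obtain ⟨χ, hχ⟩ := CommGroup.exists_apply_ne_one_of_hasEnoughRootsOfUnity Eˣ ℂ hρ
  refine BB_kill (χ.comp N) ?_ ?_
  · intro x
    rw [MonoidHom.comp_apply, MonoidHom.comp_apply, hNact]
  · intro h
    apply hχ
    rw [← pow_mul, Nat.div_mul_cancel hd, ← map_pow, MonoidHom.comp_apply, hNinc] at h
    rw [← h, pow_mul, map_pow (inc E)]

/-- the statement for the fixed cuspidal characters of size `d` -/
def SS (F E : Type) [Field F] [Fintype F] [DecidableEq F] [Field E] [Fintype E]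
    [DecidableEq E] [Algebra F E] (d : ℕ) : Prop :=
  ∀ (φ : E ≃ₐ[F] E) (κ : Fˣ →* ℂˣ) (z : Fˣ) (b : Eˣ),
    orderOf φ = finrank F E → orderOf κ = finrank F E → κ (-1) = 1 →
    orderOf z = d * finrank F E → φ b = algebraMap F E ((z : F) ^ d) * b →
    ∑ c ∈ cuT φ κ d 1, wt c.χ (inc E z)
      = ((Fintype.card F : ℂ) - 1) * ((κ (nrm F b) : ℂˣ) : ℂ)⁻¹ * (uu (finrank F E) d / d)

/-- one size -/
theorem step {F E : Type} [Field F] [Fintype F] [DecidableEq F] [Field E] [Fintype E]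
    [DecidableEq E] [Algebra F E] {n d : ℕ} (hS : SS F E d) (hn : 0 < n) (hd : d ∣ n)
    {φ : E ≃ₐ[F] E} {κ : Fˣ →* ℂˣ} {z : Fˣ} {b : Eˣ} (hφ : orderOf φ = finrank F E)
    (hκ : orderOf κ = finrank F E) (hneg : κ (-1) = 1) (hz : orderOf z = n * finrank F E)
    (hb : φ b = algebraMap F E ((z : F) ^ n) * b) {j : ℕ} (hj : 0 < j) :
    ∑ c ∈ cuT φ κ d j, wt c.χ (inc E z ^ (n / d))
      = ((Fintype.card F : ℂ) - 1) * ((κ (nrm F b) : ℂˣ) : ℂ)⁻¹ * (uu (finrank F E) d / d) *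
        vv (finrank F E) j := by
  haveI : Module.Finite F E := Module.Finite.of_finite
  have he : 0 < finrank F E := Module.finrank_pos
  set e := finrank F E with hedef
  have hφe : φ ^ e = 1 := by rw [← hφ]; exact pow_orderOf_eq_one φ
  have hκe : κ ^ e = 1 := by rw [← hκ]; exact pow_orderOf_eq_one κ
  have hex : ∀ c : Cu E, ∃ j, 0 < j ∧ TF φ κ j c := fun c => ⟨e, he, TF_top hφe hκe c⟩
  have hd0 : 0 < d := Nat.pos_of_dvd_of_pos hd hn
  have hnd : 0 < n / d := Nat.div_pos (Nat.le_of_dvd hn hd) hd0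
  have hnd' : d * (n / d) = n := Nat.mul_div_cancel' hd
  apply inv_vv he.ne' _ (fun i => ∑ c ∈ cuT φ κ d i, wt c.χ (inc E z ^ (n / d))) _ j hj
  clear hj j
  intro j hj
  rw [BB_eq hex hj]
  by_cases hg : Nat.gcd j e = 1
  · rw [if_pos hg, BB_one, ← map_pow]
    obtain ⟨k, hk⟩ : ∃ k : ℕ, j * k ≡ 1 [MOD e] := by
      rcases Nat.lt_or_ge 1 e with h1 | h1
      · obtain ⟨k, _, hk⟩ := Nat.exists_mul_mod_eq_one_of_coprime (show Nat.Coprime j e from hg) h1
        exact ⟨k, by rw [Nat.ModEq, hk, Nat.mod_eq_of_lt h1]⟩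
      · have h2 : e = 1 := by omega
        rw [h2]
        exact ⟨1, Nat.modEq_one⟩
    have hκ1 : ∀ u, (κ ^ j) u ^ k = κ u := by
      intro u
      have h1 : κ u ^ e = 1 := by
        rw [← MonoidHom.pow_apply]
        have := DFunLike.congr_fun hκe u
        exact this
      rw [MonoidHom.pow_apply, ← pow_mul]
      have h2 : orderOf (κ u) ∣ e := orderOf_dvd_of_pow_eq_one h1
      have h3 := (pow_eq_pow_iff_modEq (x := κ u)).mpr (hk.of_dvd h2)
      rw [h3, pow_one]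
    have hz' : orderOf (z ^ (n / d)) = d * e := by
      have h1 : n * e = d * e * (n / d) := by
        calc n * e = (d * (n / d)) * e := by rw [hnd']
          _ = d * e * (n / d) := by ring
      rw [orderOf_pow_of_dvd hnd.ne', hz]
      · exact Nat.div_eq_of_eq_mul_left hnd h1
      · rw [hz, h1]
        exact Dvd.intro_left _ rfl
    have hcop : Nat.Coprime e j := (show Nat.Coprime j e from hg).symm
    have h5 := hS (φ ^ j) (κ ^ j) (z ^ (n / d)) (b ^ k) ?_ ?_ ?_ hz' ?_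
    · rw [h5, map_pow, map_pow, hκ1]
    · rw [Nat.Coprime.orderOf_pow (hφ ▸ hcop), hφ]
    · rw [Nat.Coprime.orderOf_pow (hκ ▸ hcop), hκ]
    · rw [MonoidHom.pow_apply, hneg, one_pow]
    · have h6 : ∀ i : ℕ, (φ ^ i) (b : E) = algebraMap F E ((z : F) ^ n) ^ i * b := by
        intro i
        induction i with
        | zero => rw [pow_zero, pow_zero, one_mul]; rfl
        | succ i ih =>
          rw [pow_succ', AlgEquiv.mul_apply, ih, map_mul, map_pow, φ.commutes, hb]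
          ring
      have h7 : algebraMap F E ((z : F) ^ n) ^ (j * k) = algebraMap F E ((z : F) ^ n) := by
        rw [← map_pow]
        congr 1
        have h8 : (z ^ n) ^ e = 1 := by
          rw [← pow_mul, ← hz]
          exact pow_orderOf_eq_one z
        have h9 : orderOf (z ^ n) ∣ e := orderOf_dvd_of_pow_eq_one h8
        have h10 := (pow_eq_pow_iff_modEq (x := z ^ n)).mpr (hk.of_dvd h9)
        rw [pow_one] at h10
        have h11 := congrArg Units.val h10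
        rwa [Units.val_pow_eq_pow_val, Units.val_pow_eq_pow_val] at h11
      rw [Units.val_pow_eq_pow_val, Units.val_pow_eq_pow_val, map_pow, h6, mul_pow, ← pow_mul, h7,
        ← pow_mul, Nat.div_mul_cancel hd]
  · rw [if_neg hg]
    exact BB_gcd he hd hn hφ hz hg

theorem main (E2 : RowE2) (E4 : RowE4) (A9 : RowA9) (F E : Type) [Field F] [Fintype F]
    [DecidableEq F] [Field E] [Fintype E] [DecidableEq E] [Algebra F E] (n : ℕ) (hn : 0 < n) :
    SS F E n := by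
  classical
  induction n using Nat.strong_induction_on with
  | _ n ih =>
    intro φ κ z b hφ hκ hneg hz hb
    haveI : Module.Finite F E := Module.Finite.of_finite
    have he : 0 < finrank F E := Module.finrank_pos
    have hnC : (n : ℂ) ≠ 0 := by exact_mod_cast hn.ne'
    have hom : ∀ d j, om 1 (Fintype.card E : ℂ) d j = fun t => ((Pt t).card : ℂ) := by
      intro d j
      funext t
      unfold om
      simp
    have h9 := E2 F E φ κ n z hn hφ hκ hneg hz 1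
    simp only [hom, MonoidHom.one_apply, one_mul] at h9
    rw [E4 F E φ κ n z b hn hφ hκ hneg hz hb] at h9
    set Q : ℂ := ((Fintype.card F : ℂ) - 1) * ((κ (nrm F b) : ℂˣ) : ℂ)⁻¹ with hQ
    have hld : ∀ d ∈ n.divisors, ∀ j ∈ (n / d).divisors,
        ld (fun t => ((Pt t).card : ℂ)) (n / (j * d)) = sg (n / (j * d)) := by
      intro d hd j hj
      have hdn := (Nat.mem_divisors.mp hd).1
      have hd0 : 0 < d := Nat.pos_of_dvd_of_pos hdn hn
      have hj0 : 0 < j := Nat.pos_of_mem_divisors hj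
      apply A9
      rw [mul_comm, ← Nat.div_div_eq_div_mul]
      exact Nat.div_pos (Nat.le_of_dvd (Nat.div_pos (Nat.le_of_dvd hn hdn) hd0)
        (Nat.mem_divisors.mp hj).1) hj0
    have hterm : ∀ d ∈ n.divisors.erase n, (d : ℂ) * ∑ j ∈ (n / d).divisors,
        ld (fun t => ((Pt t).card : ℂ)) (n / (j * d)) *
          ∑ c ∈ cuT φ κ d j, wt c.χ (inc E z ^ (n / d)) =
        Q * (uu (finrank F E) d * ∑ j ∈ (n / d).divisors,
          vv (finrank F E) j * sg (n / (j * d))) := by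
      intro d hd
      have hd1 := Finset.mem_of_mem_erase hd
      rw [Finset.mem_erase, Nat.mem_divisors] at hd
      have hdn : d ∣ n := hd.2.1
      have hd0 : 0 < d := Nat.pos_of_dvd_of_pos hdn hn
      have hlt : d < n := lt_of_le_of_ne (Nat.le_of_dvd hn hdn) hd.1
      have hdC : (d : ℂ) ≠ 0 := by exact_mod_cast hd0.ne'
      have h1 : ∀ j ∈ (n / d).divisors, ld (fun t => ((Pt t).card : ℂ)) (n / (j * d)) *
          ∑ c ∈ cuT φ κ d j, wt c.χ (inc E z ^ (n / d)) =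
          (Q * (uu (finrank F E) d / d)) * (vv (finrank F E) j * sg (n / (j * d))) := by
        intro j hj
        rw [step (ih d hlt hd0) hn hdn hφ hκ hneg hz hb (Nat.pos_of_mem_divisors hj),
          hld d hd1 j hj]
        ring
      rw [Finset.sum_congr rfl h1, ← Finset.mul_sum]
      field_simp
    have hnd : n ∈ n.divisors := Nat.mem_divisors_self n hn.ne'
    have hid := ident he.ne' hn
    rw [← Finset.add_sum_erase _ _ hnd] at hid
    rw [← Finset.add_sum_erase _ _ hnd, Finset.sum_congr rfl hterm, ← Finset.mul_sum] at h9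
    have hsg1 : sg 1 = 1 := by
      unfold sg
      rw [Nat.divisors_one, Finset.sum_singleton, Nat.cast_one]
    have hv1 : vv (finrank F E) 1 = 1 := by
      rw [vv_eq he.ne', if_pos (one_dvd _)]
      unfold mu
      simp
    have hl1 := A9 1 one_pos
    rw [Nat.divisors_one, Finset.sum_singleton, Nat.cast_one] at hl1
    rw [Nat.div_self hn, Nat.divisors_one, Finset.sum_singleton, one_mul, Nat.div_self hn,
      pow_one, hl1, one_mul] at h9
    rw [Nat.div_self hn, Nat.divisors_one, Finset.sum_singleton, one_mul, Nat.div_self hn,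
      hsg1, hv1, mul_one, mul_one] at hid
    rw [← mul_div_assoc, eq_div_iff hnC]
    linear_combination -h9 - Q * hid

/-- Row E5 -/
theorem rowE5 (E2 : RowE2) (E4 : RowE4) (A9 : RowA9) : RowE5 := by
  classical
  intro F E _ _ _ _ _ _ _ φ κ n d j z b hn hd hj hφ hκ hneg hz hb
  have hn0 : 0 < n := hn
  have hd0 : 0 < d := Nat.pos_of_dvd_of_pos hd hn0
  have hj0 : 0 < j := Nat.pos_of_dvd_of_pos hj (Nat.div_pos (Nat.le_of_dvd hn0 hd) hd0)
  rw [step (main E2 E4 A9 F E d hd0) hn0 hd hφ hκ hneg hz hb hj0]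
  unfold uu vv
  by_cases h1 : Nat.Coprime d (finrank F E)
  · by_cases h2 : j.primeFactors ⊆ (finrank F E).primeFactors
    · rw [if_pos h1, if_pos h2, if_pos ⟨h1, h2⟩]
      unfold mu
      ring
    · have h3 : ¬ (Nat.Coprime d (finrank F E) ∧
          j.primeFactors ⊆ (finrank F E).primeFactors) := fun h => h2 h.2
      rw [if_neg h2, if_neg h3, mul_zero]
  · have h3 : ¬ (Nat.Coprime d (finrank F E) ∧
        j.primeFactors ⊆ (finrank F E).primeFactors) := fun h => h1 h.1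
    rw [if_neg h1, if_neg h3, zero_div, mul_zero, zero_mul]

end Vale.Agent.P275.H452.E5
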