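import Vale.Agent.P275.H452.E7
import Vale.Agent.P275.H341.Rows5

/-!
# Row E7
-/

namespace Vale.Agent.P275.H452.E7

open scoped BigOperators
open Vale.Agent.P275.H341

theorem dvd_iff_pf {j e : ℕ} (hj : Squarefree j) (he : e ≠ 0) :
    j ∣ e ↔ j.primeFactors ⊆ e.primeFactors := by
  constructor
  · intro h
    exact Nat.primeFactors_mono h he
  · intro h
    rw [← Nat.prod_primeFactors_of_squarefree hj]
    exact (Finset.prod_dvd_prod_of_subset _ _ _ h).trans (Nat.prod_primeFactors_dvd e)

theorem mu_zero {j : ℕ} (hj : ¬ Squarefree j) : mu j = 0 := by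
  unfold mu
  rw [ArithmeticFunction.moebius_eq_zero_of_not_squarefree hj, Int.cast_zero]

/-- Row E7 -/
theorem rowE7 : RowE7 := by
  classical
  intro m r P hm hr
  have h := e7 (mul_comm r m) hr hm (fun x e k => P k x e)
  rw [← h]
  apply Finset.sum_congr rfl
  intro e he
  have he0 : e ≠ 0 := (Nat.pos_of_mem_divisors he).ne'
  congr 1
  rw [Finset.sum_filter]
  apply Finset.sum_congr rfl
  intro d hd
  by_cases hc : Nat.Coprime d e
  · rw [if_pos hc, Finset.sum_filter, Finset.mul_sum]
    apply Finset.sum_congr rfl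
    intro j _
    by_cases hj : Squarefree j
    · by_cases h1 : j.primeFactors ⊆ e.primeFactors
      · rw [if_pos ⟨hc, h1⟩, if_pos ((dvd_iff_pf hj he0).mpr h1)]
        ring
      · rw [if_neg (fun h2 => h1 h2.2), if_neg (fun h2 => h1 ((dvd_iff_pf hj he0).mp h2)),
          mul_zero]
    · have h1 := mu_zero hj
      have h2 : ((ArithmeticFunction.moebius j : ℤ) : ℂ) = 0 := h1
      have h3 : (if j ∣ e then mu j * P (r / (j * d)) (e * d) (m / e * j) else 0) = 0 := by
        split_ifs
        · rw [h1, zero_mul]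
        · rfl
      rw [h3, mul_zero]
      split_ifs
      · rw [h2, mul_zero, zero_mul]
      · rfl
  · rw [if_neg hc]
    apply Finset.sum_eq_zero
    intro j _
    rw [if_neg (fun h2 => hc h2.1)]

end Vale.Agent.P275.H452.E7
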