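import Vale.Agent.P275.H347.M1

/-!
# Row M2: cuspidal characters stable under a twist of exact order
-/

set_option linter.style.haveILetI false
set_option linter.unusedSectionVars false

namespace Vale.Agent.P275.H452

open scoped BigOperators MatrixGroups
open Module Matrix Vale.Agent.P275.H85 Vale.Agent.P275.H341

/-- the order of the central character of a stable cuspidal character -/
theorem order_of_cusp {F : Type} [Field F] [Fintype F] [DecidableEq F] {κ ω : Fˣ →* ℂˣ} (c : Cu F)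
    (hκ : orderOf κ = c.s) (hneg : κ (-1) = 1) {ε : Fˣ}
    (hε : orderOf ε = c.s) (hst : Stab κ ω c.χ) : orderOf (ω ε) = c.s := by
  obtain ⟨c', j, hj, hjs, hs, htw, hnd, hχ⟩ := exists_orb_order c.pos hκ hneg hε hst
  have h1 : pair [c] (orb c' κ j) ≠ 0 := by
    have hsz : size [c] = c.s := by
      show 0 + c.s = c.s
      rw [zero_add]
    have hp : prodC [c] = c.f := CF_mul_one c.inv
    unfold pair
    rw [hsz, hp, c.rs_f, ← hχ, ip_irr c.irr c.irr, if_pos rfl]
    exact one_ne_zero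
  have h2 := (perm_of_pair _ _ h1).length_eq
  rw [orb_length] at h2
  have h3 : j = 1 := by simpa using h2.symm
  rw [← hs]
  rw [h3, one_mul] at hjs
  exact hjs

/-- row M2 -/
theorem rmtwo : RMtwo := by
  intro F _ _ _ n hn κ ε hκ hε hneg
  classical
  have hεn : ε ^ n = 1 := by
    rw [← hε]
    exact pow_orderOf_eq_one ε
  have hex : ∀ ω : Fˣ →* ℂˣ, ∃ χ : GL (Fin n) F → ℂ, Stab κ ω χ := fun ω =>
    (pkgD1 F n hn κ ω hκ).exists
  choose X hX using hex
  have hcusp : ∀ ω, orderOf (ω ε) = n → CuspB (toCF (X ω)) := fun ω h =>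
    cusp_of_order hn hκ hneg hεn h (hX ω)
  have key : Acus F n κ ε = ∑ ω ∈ (Finset.univ : Finset (Fˣ →* ℂˣ)).filter
      (fun ω => orderOf (ω ε) = n), ((ω ε : ℂˣ) : ℂ)⁻¹ := by
    unfold Acus
    symm
    refine Finset.sum_bij (fun ω hω => (⟨n, X ω, hn, (hX ω).1,
      hcusp ω (Finset.mem_filter.mp hω).2⟩ : Cu F)) ?_ ?_ ?_ ?_
    · intro ω hω
      rw [Finset.mem_filter, mem_cuS]
      exact ⟨rfl, Cu.mk_eq (funext fun g => (hX ω).2.1 g) _ _ _ _ _ _⟩
    · intro ω hω ω' hω' h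
      have h1 : X ω = X ω' := Cu.mk_inj h
      ext c
      have e1 := (hX ω).2.2 c 1
      have e2 := (hX ω').2.2 c 1
      rw [← h1, e1] at e2
      exact mul_right_cancel₀ (irr_one_ne (hX ω).1) e2
    · rintro ⟨s, χ, hs, h1, h2⟩ hc
      rw [Finset.mem_filter, mem_cuS] at hc
      obtain ⟨hc1, hc2⟩ := hc
      have hc1' : s = n := hc1
      subst hc1'
      obtain ⟨ω, hω⟩ := exists_cent h1
      have hst : Stab κ ω χ := ⟨h1, fun g => congrFun (Cu.mk_inj hc2) g, hω⟩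
      have ho := order_of_cusp ⟨s, χ, hs, h1, h2⟩ hκ hneg hε hst
      refine ⟨ω, Finset.mem_filter.mpr ⟨Finset.mem_univ _, ho⟩, ?_⟩
      exact Cu.mk_eq ((pkgD1 F s hn κ ω hκ).unique (hX ω) hst) _ _ _ _ _ _
    · intro ω hω
      exact (wt_eq (irr_one_ne (hX ω).1) (hX ω).2.2 ε).symm
  rw [key, Finset.sum_filter]
  have h3 := H347.rmone F n hn ε hε (fun s => if s = n then 1 else 0)
  have h4 : ∑ ω : Fˣ →* ℂˣ, (if orderOf (ω ε) = n then ((ω ε : ℂˣ) : ℂ)⁻¹ else 0)
      = ∑ ω : Fˣ →* ℂˣ, (fun s => if s = n then (1 : ℂ) else 0) (orderOf (ω ε)) *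
        ((ω ε : ℂˣ) : ℂ)⁻¹ := by
    apply Finset.sum_congr rfl
    intro ω _
    simp only [ite_mul, one_mul, zero_mul]
  rw [h4, h3]
  congr 1
  rw [Finset.sum_eq_single n]
  · rw [if_pos rfl, mul_one]
  · intro s _ hne
    rw [if_neg hne, mul_zero]
  · intro h
    exact absurd (Nat.mem_divisors.mpr ⟨dvd_rfl, hn.ne'⟩) h

end Vale.Agent.P275.H452
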