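import Vale.Agent.P275.H677.A1

/-!
# Rows A5 and A7: the Whittaker functional and the degrees of the chain
-/

set_option linter.unusedSectionVars false

namespace Vale.Agent.P275.H452.A57

open scoped BigOperators
open Vale.Agent.P275.H341 Vale.Agent.P275.H677.A1

variable {I : Type} (H : PSH I)

theorem sum_P_mul {n k l : ℕ} (f g : I → ℂ) (hf : ∀ x, f x ≠ 0 → H.deg x = k)
    (hg : ∀ x, g x ≠ 0 → H.deg x = l) (hn : k + l = n) :
    ∑ s ∈ P H n, f s.1 * g s.2 = (∑ x ∈ H.lvl k, f x) * ∑ y ∈ H.lvl l, g y := by
  classical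
  rw [Finset.sum_mul_sum, ← Finset.sum_product']
  symm
  apply Finset.sum_subset
  · intro s hs
    rw [Finset.mem_product, H.mem_lvl, H.mem_lvl] at hs
    rw [mem_P]
    omega
  · intro s _ hs
    by_contra h0
    apply hs
    rw [Finset.mem_product, H.mem_lvl, H.mem_lvl]
    exact ⟨hf _ (left_ne_zero_of_mul h0), hg _ (right_ne_zero_of_mul h0)⟩

/-- the convolution hypothesis -/
def Conv (D w : I → ℂ) (q : ℂ) : Prop :=
  ∀ a, D a * q ^ H.deg a = ∑ i ∈ Finset.range (H.deg a + 1),
    ∑ b ∈ H.lvl (H.deg a - i), ∑ d ∈ H.lvl i, (H.c b d a : ℂ) * (D b * w d)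

variable {H}

theorem conv_P {D w : I → ℂ} {q : ℂ} (h : Conv H D w q) (a : I) :
    D a * q ^ H.deg a = ∑ s ∈ P H (H.deg a), (H.c s.1 s.2 a : ℂ) * (w s.1 * D s.2) := by
  rw [h a, sum_P H (H.deg a) (fun s1 s2 => (H.c s1 s2 a : ℂ) * (w s1 * D s2))]
  apply Finset.sum_congr rfl
  intro i _
  rw [Finset.sum_comm]
  apply Finset.sum_congr rfl
  intro d _
  apply Finset.sum_congr rfl
  intro b _
  rw [H.c_comm, mul_comm (w d)]

theorem w_one {D w : I → ℂ} {q : ℂ} (hD : H.Mult D) (h : Conv H D w q) : w H.one = 1 := by
  have h1 := h H.one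
  rw [deg_one, pow_zero, mul_one, hD.1, zero_add, Finset.sum_range_one, Nat.sub_zero,
    H.lvl_zero, Finset.sum_singleton, Finset.sum_singleton, H.c_one_self, hD.1] at h1
  rw [h1]
  push_cast
  ring

theorem mult_w {D w : I → ℂ} {q : ℂ} (hD : H.Mult D) (h : Conv H D w q) : H.Mult w := by
  classical
  refine ⟨w_one hD h, ?_⟩
  have main : ∀ n : ℕ, ∀ a b : I, H.deg a + H.deg b = n →
      w a * w b = ∑ x ∈ H.lvl (H.deg a + H.deg b), (H.c a b x : ℂ) * w x := by
    intro n
    induction n using Nat.strong_induction_on with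
    | _ n ih =>
      intro a b hn
      set W : I → I → ℂ := fun a b => ∑ x ∈ H.lvl (H.deg a + H.deg b), (H.c a b x : ℂ) * w x
        with hW
      have e1 : ∑ x ∈ H.lvl (H.deg a + H.deg b), (H.c a b x : ℂ) * (D x * q ^ H.deg x) =
          ∑ u ∈ P H (H.deg a), ∑ v ∈ P H (H.deg b),
            ((H.c u.1 u.2 a : ℂ) * H.c v.1 v.2 b) * (W u.1 v.1 * (D u.2 * D v.2)) := by
        have f1 : ∀ x ∈ H.lvl (H.deg a + H.deg b), (H.c a b x : ℂ) * (D x * q ^ H.deg x) =
            ∑ s ∈ P H (H.deg a + H.deg b), (w s.1 * D s.2) *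
              ((H.c a b x : ℂ) * H.c s.1 s.2 x) := by
          intro x hx
          rw [conv_P h x, (H.mem_lvl _ _).mp hx, Finset.mul_sum]
          apply Finset.sum_congr rfl
          intro s _
          ring
        rw [Finset.sum_congr rfl f1, Finset.sum_comm]
        have f2 : ∀ s ∈ P H (H.deg a + H.deg b), ∑ x ∈ H.lvl (H.deg a + H.deg b),
            (w s.1 * D s.2) * ((H.c a b x : ℂ) * H.c s.1 s.2 x) =
            ∑ u ∈ P H (H.deg a), ∑ v ∈ P H (H.deg b), ((H.c u.1 u.2 a : ℂ) * H.c v.1 v.2 b) *
              (((H.c u.1 v.1 s.1 : ℂ) * w s.1) * ((H.c u.2 v.2 s.2 : ℂ) * D s.2)) := by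
          intro s _
          rw [← Finset.mul_sum]
          have f3 := congrArg (Nat.cast : ℕ → ℂ) (hopf_P H a b s.1 s.2)
          push_cast at f3
          rw [f3, Finset.mul_sum]
          apply Finset.sum_congr rfl
          intro u _
          rw [Finset.mul_sum]
          apply Finset.sum_congr rfl
          intro v _
          ring
        rw [Finset.sum_congr rfl f2, Finset.sum_comm]
        apply Finset.sum_congr rfl
        intro u hu
        rw [Finset.sum_comm]
        apply Finset.sum_congr rfl
        intro v hv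
        rw [← Finset.mul_sum]
        rw [mem_P] at hu hv
        rw [sum_P_mul H (k := H.deg u.1 + H.deg v.1) (l := H.deg u.2 + H.deg v.2)
          (fun x => (H.c u.1 v.1 x : ℂ) * w x) (fun x => (H.c u.2 v.2 x : ℂ) * D x)
          (fun x hx => H.c_deg _ _ _ (by
            have := left_ne_zero_of_mul hx
            exact_mod_cast this))
          (fun x hx => H.c_deg _ _ _ (by
            have := left_ne_zero_of_mul hx
            exact_mod_cast this)) (by omega)]
        rw [hD.2 u.2 v.2]
      have e2 : ∑ x ∈ H.lvl (H.deg a + H.deg b), (H.c a b x : ℂ) * (D x * q ^ H.deg x) =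
          ∑ u ∈ P H (H.deg a), ∑ v ∈ P H (H.deg b),
            ((H.c u.1 u.2 a : ℂ) * H.c v.1 v.2 b) * ((w u.1 * w v.1) * (D u.2 * D v.2)) := by
        have f1 : ∀ x ∈ H.lvl (H.deg a + H.deg b), (H.c a b x : ℂ) * (D x * q ^ H.deg x) =
            q ^ (H.deg a + H.deg b) * ((H.c a b x : ℂ) * D x) := by
          intro x hx
          rw [(H.mem_lvl _ _).mp hx]
          ring
        rw [Finset.sum_congr rfl f1, ← Finset.mul_sum, ← hD.2, pow_add]
        have f2 : q ^ H.deg a * q ^ H.deg b * (D a * D b) =
            (D a * q ^ H.deg a) * (D b * q ^ H.deg b) := by ring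
        rw [f2, conv_P h a, conv_P h b, Finset.sum_mul_sum]
        apply Finset.sum_congr rfl
        intro u _
        apply Finset.sum_congr rfl
        intro v _
        ring
      have e3 : ∑ u ∈ P H (H.deg a), ∑ v ∈ P H (H.deg b),
            ((H.c u.1 u.2 a : ℂ) * H.c v.1 v.2 b) *
              ((W u.1 v.1 - w u.1 * w v.1) * (D u.2 * D v.2)) = 0 := by
        rw [← sub_eq_zero.mpr (e1.symm.trans e2), ← Finset.sum_sub_distrib]
        apply Finset.sum_congr rfl
        intro u _
        rw [← Finset.sum_sub_distrib]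
        apply Finset.sum_congr rfl
        intro v _
        ring
      rw [Finset.sum_eq_single (a, H.one), Finset.sum_eq_single (b, H.one)] at e3
      · simp only [c_right_one, hD.1, Nat.cast_one, mul_one, one_mul] at e3
        exact (sub_eq_zero.mp e3).symm
      · rintro ⟨v1, v2⟩ hv hne
        rw [mem_P] at hv
        by_contra h0
        have h1 := right_ne_zero_of_mul (left_ne_zero_of_mul h0)
        have h2 : H.c v1 v2 b ≠ 0 := by exact_mod_cast h1
        by_cases hd : H.deg v1 + H.deg a < n
        · apply h0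
          have h3 := ih _ (by omega) a v1 rfl
          show _ * ((W a v1 - w a * w v1) * _) = 0
          rw [h3, sub_self, zero_mul, mul_zero]
        · have h4 : v2 = H.one := eq_one H (by
            have hv' : H.deg v1 + H.deg v2 = H.deg b := hv
            omega)
          subst h4
          have h5 := c_one_right H h2
          subst h5
          exact hne rfl
      · intro hn'
        exact absurd ((mem_P H).2 (by simp [deg_one])) hn'
      · rintro ⟨u1, u2⟩ hu hne
        rw [mem_P] at hu
        apply Finset.sum_eq_zero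
        rintro ⟨v1, v2⟩ hv
        rw [mem_P] at hv
        by_contra h0
        have h1 := left_ne_zero_of_mul (left_ne_zero_of_mul h0)
        have h2 : H.c u1 u2 a ≠ 0 := by exact_mod_cast h1
        by_cases hd : H.deg u1 + H.deg v1 < n
        · apply h0
          have h3 := ih _ hd u1 v1 rfl
          show _ * ((W u1 v1 - w u1 * w v1) * _) = 0
          rw [h3, sub_self, zero_mul, mul_zero]
        · have h4 : u2 = H.one := eq_one H (by
            have hv' : H.deg v1 + H.deg v2 = H.deg b := hv
            have hu' : H.deg u1 + H.deg u2 = H.deg a := hu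
            omega)
          subst h4
          have h5 := c_one_right H h2
          subst h5
          exact hne rfl
      · intro hn'
        exact absurd ((mem_P H).2 (by simp [deg_one])) hn'
  intro a b
  exact main _ a b rfl

/-- Row A5 -/
theorem rowA5 : RowA5 := fun _ _ _ _ _ hD h => mult_w hD h

/-- Row A7 -/
theorem rowA7 : RowA7 := by
  classical
  intro I H D w q hD h hq p hp hwp
  have hw : H.Mult (fun a => (w a : ℂ)) := mult_w hD h
  have hwN : ∀ a b, w a * w b = ∑ x ∈ H.lvl (H.deg a + H.deg b), H.c a b x * w x := by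
    intro a b
    have : (w a : ℂ) * w b = ∑ x ∈ H.lvl (H.deg a + H.deg b), (H.c a b x : ℂ) * w x := hw.2 a b
    exact_mod_cast this
  have hw1 : w H.one = 1 := by
    have : (w H.one : ℂ) = 1 := hw.1
    exact_mod_cast this
  refine ⟨?_, ?_⟩
  · have h1 : ∀ s, H.c s p p ≠ 0 → s = H.one := by
      intro s hs
      rcases pr_split H hp hs with h2 | h2
      · exact h2.1
      · exact absurd h2.2 (pr_ne H hp)
    have h2 := norm_v H hp h1 (H.c_one_self p)
    obtain ⟨z, hz, hfz⟩ : ∃ z ∈ H.lvl (H.deg p + H.deg p), H.c p p z ≠ 0 := by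
      by_contra hcon
      push Not at hcon
      rw [Finset.sum_eq_zero (fun x hx => by rw [hcon x hx, zero_mul])] at h2
      exact absurd h2 (by norm_num)
    obtain ⟨hz1, z', hz', hne, hz'1, hall⟩ := norm_two h2 hz hfz
    have h3 := hwN p p
    rw [hwp, mul_one] at h3
    have h4 : ∑ x ∈ H.lvl (H.deg p + H.deg p), H.c p p x * w x = w z + w z' := by
      have : ∑ x ∈ ({z, z'} : Finset I), H.c p p x * w x = w z + w z' := by
        rw [Finset.sum_pair hne.symm, hz1, hz'1, one_mul, one_mul]
      rw [← this]
      symm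
      apply Finset.sum_subset
      · intro x hx
        rcases Finset.mem_insert.1 hx with h9 | h9
        · rw [h9]; exact hz
        · rw [Finset.mem_singleton.1 h9]; exact hz'
      · intro x hx hx'
        by_contra h0
        rcases hall x hx (left_ne_zero_of_mul h0) with h9 | h9
        · exact hx' (by rw [h9]; exact Finset.mem_insert_self _ _)
        · exact hx' (by rw [h9]; exact Finset.mem_insert_of_mem (Finset.mem_singleton_self _))
    rw [h4] at h3
    have h5 : (w z = 0 ∧ w z' = 1) ∨ (w z = 1 ∧ w z' = 0) := by omega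
    rcases h5 with h5 | h5
    · refine ⟨z, ⟨hfz, h5.1⟩, ?_⟩
      rintro y ⟨hy1, hy2⟩
      rcases hall y ((H.mem_lvl _ _).2 (H.c_deg _ _ _ hy1)) hy1 with h9 | h9
      · exact h9
      · rw [h9, h5.2] at hy2
        exact absurd hy2 one_ne_zero
    · refine ⟨z', ⟨by rw [hz'1]; exact one_ne_zero, h5.2⟩, ?_⟩
      rintro y ⟨hy1, hy2⟩
      rcases hall y ((H.mem_lvl _ _).2 (H.c_deg _ _ _ hy1)) hy1 with h9 | h9
      · rw [h9, h5.1] at hy2
        exact absurd hy2 one_ne_zero
      · exact h9
  · intro x hx hx2
    have hdeg : ∀ k, H.deg (x k) = k * H.deg p := by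
      intro k
      induction k with
      | zero => rw [hx.zero, deg_one, zero_mul]
      | succ k ih =>
        have h1 := H.c_deg _ _ _ (by rw [hx.cself k 1]; exact one_ne_zero)
        rw [h1, ih, hx.first]
        ring
    have hwk : ∀ k, 2 ≤ k → w (x k) = 0 := by
      intro k hk
      obtain ⟨m, rfl⟩ : ∃ m, k = 2 + m := ⟨k - 2, by omega⟩
      have h1 := hwN (x 2) (x m)
      rw [hx2, zero_mul] at h1
      have h2 := (Finset.sum_eq_zero_iff.mp h1.symm) (x (2 + m)) ((H.mem_lvl _ _).2
        (H.c_deg _ _ _ (by rw [hx.cself 2 m]; exact one_ne_zero)))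
      rw [hx.cself, one_mul] at h2
      exact h2
    refine ⟨hwk, ?_⟩
    have hstep : ∀ k, D (x (k + 1)) * (q ^ (H.deg p * (k + 1)) - 1) = D (x k) := by
      intro k
      have h1 := conv_P (w := fun a => (w a : ℂ)) h (x (k + 1))
      have h2 : ∑ s ∈ P H (H.deg (x (k + 1))), (H.c s.1 s.2 (x (k + 1)) : ℂ) *
          ((w s.1 : ℂ) * D s.2) = D (x (k + 1)) + D (x k) := by
        have hne : ((H.one, x (k + 1)) : I × I) ≠ (p, x k) := by
          intro he
          exact pr_ne H hp (congrArg Prod.fst he).symm
        have h3 : ∑ s ∈ ({(H.one, x (k + 1)), (p, x k)} : Finset (I × I)),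
            (H.c s.1 s.2 (x (k + 1)) : ℂ) * ((w s.1 : ℂ) * D s.2) =
            D (x (k + 1)) + D (x k) := by
          rw [Finset.sum_pair hne]
          have h4 : H.c p (x k) (x (k + 1)) = 1 := by
            have := hx.cself k 1
            rw [hx.first, H.c_comm] at this
            exact this
          simp only [H.c_one_self, hw1, h4, hwp, Nat.cast_one, one_mul]
        rw [← h3]
        symm
        apply Finset.sum_subset
        · intro s hs
          rcases Finset.mem_insert.1 hs with h9 | h9
          · rw [h9, mem_P]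
            simp only [deg_one, zero_add]
          · rw [Finset.mem_singleton.1 h9, mem_P]
            simp only [hdeg]
            ring
        · rintro ⟨s1, s2⟩ _ hs'
          by_contra h0
          have h5 := left_ne_zero_of_mul h0
          have h6 := left_ne_zero_of_mul (right_ne_zero_of_mul h0)
          have h7 : H.c s1 s2 (x (k + 1)) ≠ 0 := by exact_mod_cast h5
          have h8 : w s1 ≠ 0 := by exact_mod_cast h6
          obtain ⟨i, j, hij, hi, hj⟩ := hx.cne _ _ _ h7
          have h9 : i < 2 := by
            by_contra hi2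
            exact h8 (by rw [hi]; exact hwk i (by omega))
          apply hs'
          have h10 : i = 0 ∨ i = 1 := by omega
          rcases h10 with h10 | h10
          · subst h10
            have : j = k + 1 := by omega
            subst this
            rw [hi, hj, hx.zero]
            exact Finset.mem_insert_self _ _
          · subst h10
            have : j = k := by omega
            subst this
            rw [hi, hj, hx.first]
            exact Finset.mem_insert_of_mem (Finset.mem_singleton_self _)
      rw [h2, hdeg, mul_comm (k + 1)] at h1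
      rw [mul_sub, mul_one, h1]
      ring
    intro k
    induction k with
    | zero => rw [hx.zero, hD.1, Finset.prod_range_zero]
    | succ k ih =>
      have h1 := hstep k
      have h2 : q ^ (H.deg p * (k + 1)) - 1 ≠ 0 :=
        sub_ne_zero.mpr (hq _ (Nat.mul_pos hp.1 (Nat.succ_pos k)))
      rw [Finset.prod_range_succ, ← ih, ← h1, mul_assoc, mul_inv_cancel₀ h2, mul_one]

end Vale.Agent.P275.H452.A57
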