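import Vale.Agent.P275.H452.Ring

/-!
# The form and the adjoint operators
-/

set_option linter.style.haveILetI false
set_option linter.unusedSectionVars false
set_option linter.unusedVariables false

namespace Vale.Agent.P275.H452

open scoped BigOperators MatrixGroups
open Module Matrix Vale.Agent.P275.H85

variable {F : Type} [Field F] [Fintype F] [DecidableEq F]

section del

variable {V E : Type} [AddCommGroup V] [Module F V] [FiniteDimensional F V]
  [AddCommGroup E] [Module F E] [FiniteDimensional F E]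

theorem isUnit_blk {a : E →ₗ[F] E} {X : V →ₗ[F] E} {x : V →ₗ[F] V} (hu : IsUnit (blk a X x)) :
    IsUnit a ∧ IsUnit x := by
  constructor
  · rw [isUnit_iff_inj] at hu ⊢
    intro p q hpq
    have := @hu ((0 : V), p) (0, q) (by simp [hpq])
    exact congrArg Prod.snd this
  · rw [isUnit_iff_surj] at hu ⊢
    intro v
    obtain ⟨w, hw⟩ := hu (v, 0)
    exact ⟨w.1, congrArg Prod.fst hw⟩

theorem del_uz {f : CF F} (hf : ∀ (V : Type) [AddCommGroup V] [Module F V]
    [FiniteDimensional F V] (φ : V →ₗ[F] V), ¬ IsUnit φ → f V φ = 0)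
    {a : E →ₗ[F] E} {x : V →ₗ[F] V} (h : ¬ IsUnit a ∨ ¬ IsUnit x) : del f a x = 0 := by
  unfold del
  rw [Finset.sum_eq_zero, mul_zero]
  intro X _
  apply hf
  intro hu
  have h1 := isUnit_blk hu
  rcases h with h | h
  · exact h h1.1
  · exact h h1.2

theorem del_dl (f : CF F) {a a' : E →ₗ[F] E} {x x' : V →ₗ[F] V}
    (ha1 : a ∘ₗ a' = LinearMap.id) (ha2 : a' ∘ₗ a = LinearMap.id)
    (hx1 : x ∘ₗ x' = LinearMap.id) (hx2 : x' ∘ₗ x = LinearMap.id) :
    del (dl f) a x = del f a' x' := by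
  have ha1' : ∀ v, a (a' v) = v := fun v => LinearMap.congr_fun ha1 v
  have ha2' : ∀ v, a' (a v) = v := fun v => LinearMap.congr_fun ha2 v
  have hx1' : ∀ v, x (x' v) = v := fun v => LinearMap.congr_fun hx1 v
  have hx2' : ∀ v, x' (x v) = v := fun v => LinearMap.congr_fun hx2 v
  unfold del
  congr 1
  let eX : (V →ₗ[F] E) ≃ (V →ₗ[F] E) :=
    { toFun := fun X => - (a' ∘ₗ X ∘ₗ x')
      invFun := fun X => - (a ∘ₗ X ∘ₗ x)
      left_inv := fun X => by
        apply LinearMap.ext
        intro v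
        simp [ha1', hx2']
      right_inv := fun X => by
        apply LinearMap.ext
        intro v
        simp [ha2', hx1'] }
  rw [← Equiv.sum_comp eX (fun X => f (V × E) (blk a' X x'))]
  apply Finset.sum_congr rfl
  intro X _
  apply dl_of
  · apply LinearMap.ext
    intro v
    apply Prod.ext
    · simp [hx1']
    · simp [eX, ha1']
  · apply LinearMap.ext
    intro v
    apply Prod.ext
    · simp [hx2']
    · simp [eX, hx2', ha2']

end del

theorem del_add (f g : CF F) {V E : Type} [AddCommGroup V] [Module F V] [FiniteDimensional F V]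
    [AddCommGroup E] [Module F E] [FiniteDimensional F E] (a : E →ₗ[F] E) (x : V →ₗ[F] V) :
    del (f + g) a x = del f a x + del g a x := by
  unfold del
  rw [← mul_add, ← Finset.sum_add_distrib]
  rfl

theorem del_smul (c : ℂ) (f : CF F) {V E : Type} [AddCommGroup V] [Module F V]
    [FiniteDimensional F V] [AddCommGroup E] [Module F E] [FiniteDimensional F E]
    (a : E →ₗ[F] E) (x : V →ₗ[F] V) : del (c • f) a x = c * del f a x := by
  unfold del
  rw [mul_left_comm]
  congr 1
  rw [Finset.mul_sum]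
  rfl

theorem Dop_add (E : Type) [AddCommGroup E] [Module F E] [FiniteDimensional F E] (r f g : CF F) :
    Dop E r (f + g) = Dop E r f + Dop E r g := by
  apply CF_ext0
  intro V _ _ _ x
  rw [CF_add]
  unfold Dop
  rw [← Finset.sum_add_distrib]
  apply Finset.sum_congr rfl
  intro a _
  rw [del_add, mul_add]

theorem Dop_smul (E : Type) [AddCommGroup E] [Module F E] [FiniteDimensional F E] (c : ℂ)
    (r f : CF F) : Dop E r (c • f) = c • Dop E r f := by
  apply CF_ext0
  intro V _ _ _ x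
  rw [CF_smul]
  unfold Dop
  rw [Finset.mul_sum]
  apply Finset.sum_congr rfl
  intro a _
  rw [del_smul, mul_left_comm]

theorem good_D (e : ℕ) (h : CF F) (P : RF F) :
    (Fintype.card (GL (Fin e) F) : ℂ)⁻¹ • Dop (Fin e → F) (dl h) P.v ∈ RFs F := by
  apply Submodule.smul_mem
  rw [mem_RFs]
  refine ⟨inv_Dop P.inv, ?_, ?_⟩
  · intro V _ _ _ φ hφ
    unfold Dop
    apply Finset.sum_eq_zero
    intro a _
    rw [del_uz P.uz (Or.inr hφ), mul_zero]
  · obtain ⟨N, hN⟩ := P.bd
    refine ⟨N, ?_⟩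
    intro V _ _ _ φ hφ
    unfold Dop
    apply Finset.sum_eq_zero
    intro a _
    have : del P.v a φ = 0 := by
      unfold del
      rw [Finset.sum_eq_zero, mul_zero]
      intro X _
      apply hN
      rw [Module.finrank_prod]
      omega
    rw [this, mul_zero]

/-- the adjoint of the multiplication by a family of degree `e` -/
noncomputable def Dh (e : ℕ) (h : CF F) : RF F →ₗ[ℂ] RF F where
  toFun P := ⟨(Fintype.card (GL (Fin e) F) : ℂ)⁻¹ • Dop (Fin e → F) (dl h) P.v, good_D e h P⟩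
  map_add' P Q := RF.ext (by
    show (Fintype.card (GL (Fin e) F) : ℂ)⁻¹ • Dop (Fin e → F) (dl h) (P.v + Q.v) =
      (Fintype.card (GL (Fin e) F) : ℂ)⁻¹ • Dop (Fin e → F) (dl h) P.v +
      (Fintype.card (GL (Fin e) F) : ℂ)⁻¹ • Dop (Fin e → F) (dl h) Q.v
    rw [Dop_add, smul_add])
  map_smul' c P := RF.ext (by
    show (Fintype.card (GL (Fin e) F) : ℂ)⁻¹ • Dop (Fin e → F) (dl h) (c • P.v) =
      c • ((Fintype.card (GL (Fin e) F) : ℂ)⁻¹ • Dop (Fin e → F) (dl h) P.v)
    rw [Dop_smul, smul_comm])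

theorem v_Dh (e : ℕ) (h : CF F) (P : RF F) (V : Type) [AddCommGroup V] [Module F V]
    [FiniteDimensional F V] (x : V →ₗ[F] V) : (Dh e h P).v V x =
      (Fintype.card (GL (Fin e) F) : ℂ)⁻¹ * ∑ a : (Fin e → F) →ₗ[F] (Fin e → F),
        dl h _ a * del P.v a x := rfl

theorem supp_Dh {e m n : ℕ} {h : CF F} {P : RF F} (hP : Supp n P.v) (hn : m + e = n) :
    Supp m (Dh e h P).v := by
  intro V _ _ _ φ hφ
  rw [v_Dh, Finset.sum_eq_zero, mul_zero]
  intro a _
  rcases hφ with hφ | hφ
  · have : del P.v a φ = 0 := by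
      unfold del
      rw [Finset.sum_eq_zero, mul_zero]
      intro X _
      apply hP
      left
      rw [Module.finrank_prod, Module.finrank_fin_fun]
      omega
    rw [this, mul_zero]
  · rw [del_uz P.uz (Or.inr hφ), mul_zero]

theorem Dh_zero_of_lt {e n : ℕ} {h : CF F} {P : RF F} (hP : Supp n P.v) (hn : n < e) :
    Dh e h P = 0 := by
  apply RF.ext'
  intro V _ _ _ φ
  rw [v_Dh, Finset.sum_eq_zero, mul_zero]
  · rfl
  intro a _
  have : del P.v a φ = 0 := by
    unfold del
    rw [Finset.sum_eq_zero, mul_zero]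
    intro X _
    apply hP
    left
    rw [Module.finrank_prod, Module.finrank_fin_fun]
    omega
  rw [this, mul_zero]

theorem fin_supp (f g : RF F) : (Function.support fun n => ip (rs n f.v) (rs n g.v)).Finite := by
  obtain ⟨N, hN⟩ := f.bd
  apply (Finset.range (N + 1)).finite_toSet.subset
  intro n hn
  rw [Function.mem_support] at hn
  rw [Finset.mem_coe, Finset.mem_range]
  by_contra hlt
  apply hn
  have h0 : rs n f.v = 0 := by
    funext x
    exact hN _ _ (by rw [Module.finrank_fin_fun]; omega)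
  unfold ip
  rw [h0]
  simp

/-- the form -/
noncomputable def B : RF F →ₗ[ℂ] RF F →ₗ[ℂ] ℂ :=
  LinearMap.mk₂ ℂ (fun f g => ∑ᶠ n, ip (rs n f.v) (rs n g.v))
    (fun f f' g => by
      rw [← finsum_add_distrib (fin_supp f g) (fin_supp f' g)]
      apply finsum_congr
      intro n
      exact ip_add_left (rs n f.v) (rs n f'.v) (rs n g.v))
    (fun c f g => by
      rw [smul_eq_mul, mul_finsum]
      apply finsum_congr
      intro n
      exact ip_smul_left c (rs n f.v) (rs n g.v))
    (fun f g g' => by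
      rw [← finsum_add_distrib (fin_supp f g) (fin_supp f g')]
      apply finsum_congr
      intro n
      rw [ip_comm (rs n f.v) (rs n g.v), ip_comm (rs n f.v) (rs n g'.v), ip_comm]
      exact ip_add_left (rs n g.v) (rs n g'.v) (rs n f.v))
    (fun c f g => by
      rw [smul_eq_mul, mul_finsum]
      apply finsum_congr
      intro n
      rw [ip_comm (rs n f.v) (rs n g.v), ip_comm]
      exact ip_smul_left c (rs n g.v) (rs n f.v))

theorem B_def (f g : RF F) : B f g = ∑ᶠ n, ip (rs n f.v) (rs n g.v) := rfl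

theorem B_comm (f g : RF F) : B f g = B g f := by
  rw [B_def, B_def]
  exact finsum_congr fun n => ip_comm _ _

theorem rs_zero_of_ne {f : CF F} {n m : ℕ} (hf : Supp n f) (h : m ≠ n) : rs m f = 0 := by
  funext x
  exact hf _ _ (Or.inl (by rw [Module.finrank_fin_fun]; exact h))

theorem B_supp {f : RF F} {n : ℕ} (hf : Supp n f.v) (g : RF F) :
    B f g = ip (rs n f.v) (rs n g.v) := by
  rw [B_def]
  apply finsum_eq_single
  intro m hm
  rw [rs_zero_of_ne hf hm]
  unfold ip
  simp

theorem B_ne {f g : RF F} {n m : ℕ} (hf : Supp n f.v) (hg : Supp m g.v) (h : n ≠ m) :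
    B f g = 0 := by
  rw [B_supp hf, rs_zero_of_ne hg h]
  unfold ip
  simp

theorem rs_Dh (e m : ℕ) {h : CF F} (hs : Supp e h) (b : RF F) (x : GL (Fin m) F) :
    rs m (Dh e h b).v x⁻¹ =
      (Fintype.card (GL (Fin e) F) : ℂ)⁻¹ * rs m (Dop (Fin e → F) h (dl b.v)) x := by
  have h0 : rs m (Dh e h b).v x⁻¹ = (Fintype.card (GL (Fin e) F) : ℂ)⁻¹ *
      ∑ a : (Fin e → F) →ₗ[F] (Fin e → F), dl h _ a * del b.v a (Par.tl x⁻¹) := rfl
  have h1 : rs m (Dop (Fin e → F) h (dl b.v)) x =
      ∑ a : (Fin e → F) →ₗ[F] (Fin e → F), h _ a * del (dl b.v) a (Par.tl x) := rfl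
  rw [h0, h1]
  congr 1
  rw [sum_end _ (fun φ hφ => by rw [dl_not h hφ, zero_mul]),
    sum_end _ (fun φ hφ => by rw [hs _ _ (Or.inr hφ), zero_mul]),
    ← Equiv.sum_comp (Equiv.inv _)]
  apply Finset.sum_congr rfl
  intro A _
  show dl h _ (Par.tl A⁻¹) * del b.v (Par.tl A⁻¹) (Par.tl x⁻¹) =
    h _ (Par.tl A) * del (dl b.v) (Par.tl A) (Par.tl x)
  have e1 : ∀ {k : ℕ} (A : GL (Fin k) F), Par.tl A ∘ₗ Par.tl A⁻¹ = LinearMap.id := by
    intro k A
    rw [← Par.tl_mul, mul_inv_cancel, Par.tl_one]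
  have e2 : ∀ {k : ℕ} (A : GL (Fin k) F), Par.tl A⁻¹ ∘ₗ Par.tl A = LinearMap.id := by
    intro k A
    rw [← Par.tl_mul, inv_mul_cancel, Par.tl_one]
  rw [dl_of h (e2 A) (e1 A), del_dl b.v (e1 A) (e2 A) (e1 x) (e2 x)]

/-- adjointness -/
theorem adj {e : ℕ} {h : RF F} (hs : Supp e h.v) (a b : RF F) :
    B (h * a) b = B a (Dh e h.v b) := by
  refine RF.induction (p := fun a => B (h * a) b = B a (Dh e h.v b)) ?_ ?_ ?_ a
  · rw [mul_zero, map_zero, LinearMap.zero_apply, LinearMap.zero_apply]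
  · intro x y hx hy
    rw [mul_add, map_add, map_add, LinearMap.add_apply, LinearMap.add_apply, hx, hy]
  · intro m x hx
    rw [B_supp (supp_mulR hs hx rfl), B_supp hx, v_mul,
      ip_mul h.inv x.inv b.inv hs hx rfl]
    unfold ip
    rw [mul_left_comm]
    congr 1
    rw [Finset.mul_sum]
    apply Finset.sum_congr rfl
    intro g _
    rw [rs_Dh e m hs]
    ring

end Vale.Agent.P275.H452
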