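import Mathlib

/-!
# Row E7: the arithmetic identity of the Betti endoscopic decomposition
-/

set_option linter.unusedSectionVars false

namespace Vale.Agent.P275.H452.E7

open scoped BigOperators
open Finset

/-- the Moebius function as a complex number -/
noncomputable abbrev mu (n : ℕ) : ℂ := ((ArithmeticFunction.moebius n : ℤ) : ℂ)

theorem mu_mul {a b : ℕ} (h : Nat.Coprime a b) : mu (a * b) = mu a * mu b := by
  unfold mu
  rw [ArithmeticFunction.isMultiplicative_moebius.map_mul_of_coprime h]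
  push_cast
  ring

theorem sum_mu (n : ℕ) (hn : 0 < n) : ∑ d ∈ n.divisors, mu d = if n = 1 then 1 else 0 := by
  have h := (ArithmeticFunction.sum_eq_iff_sum_mul_moebius_eq (R := ℂ)
    (f := fun k => if k = 1 then (1 : ℂ) else 0) (g := fun _ => 1)).mp (fun k hk => by
      rw [Finset.sum_ite_eq' k.divisors 1, if_pos (Nat.one_mem_divisors.mpr hk.ne')]) n hn
  rw [← h]
  rw [Nat.sum_divisorsAntidiagonal (fun a b => ((ArithmeticFunction.moebius a : ℤ) : ℂ) * 1)]
  apply Finset.sum_congr rfl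
  intro d _
  rw [mul_one]

/-- the left triples `(δ, d, j)` -/
def S1 (r m : ℕ) : Finset (ℕ × ℕ × ℕ) :=
  (m.divisors ×ˢ (r.divisors ×ˢ r.divisors)).filter fun p =>
    Nat.Coprime p.2.1 p.1 ∧ p.2.2 ∣ p.1 ∧ p.2.2 * p.2.1 ∣ r

/-- the right triples `(x, f, j)` -/
def S2 (r m : ℕ) : Finset (ℕ × ℕ × ℕ) :=
  ((r * m).divisors ×ˢ (m.divisors ×ˢ m.divisors)).filter fun p =>
    p.2.1 * p.2.2 ∣ m ∧ p.2.1 * p.2.2 ∣ p.1 ∧
      Nat.Coprime (p.1 / (p.2.1 * p.2.2)) (p.2.1 * p.2.2) ∧ p.1 / p.2.1 ∣ r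

theorem sum_S1 {r m : ℕ} (hr : 0 < r) (K : ℕ → ℕ → ℕ → ℂ) :
    ∑ δ ∈ m.divisors, mu δ * ∑ d ∈ r.divisors.filter (fun d => Nat.Coprime d δ),
      mu d * ∑ j ∈ (r / d).divisors.filter (fun j => j ∣ δ), mu j * K δ d j =
    ∑ p ∈ S1 r m, mu p.1 * mu p.2.1 * mu p.2.2 * K p.1 p.2.1 p.2.2 := by
  unfold S1
  rw [Finset.sum_filter, Finset.sum_product]
  apply Finset.sum_congr rfl
  intro δ hδ
  rw [Finset.sum_filter, Finset.mul_sum, Finset.sum_product]
  apply Finset.sum_congr rfl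
  intro d hd
  have hd' := (Nat.mem_divisors.mp hd).1
  have hd0 : 0 < d := Nat.pos_of_mem_divisors hd
  by_cases hc : Nat.Coprime d δ
  · rw [if_pos hc]
    have h1 : ∑ j ∈ (r / d).divisors.filter (fun j => j ∣ δ), mu j * K δ d j =
        ∑ j ∈ r.divisors, if j ∣ δ ∧ j * d ∣ r then mu j * K δ d j else 0 := by
      rw [← Finset.sum_filter]
      apply Finset.sum_congr _ (fun _ _ => rfl)
      ext j
      rw [Finset.mem_filter, Finset.mem_filter, Nat.mem_divisors, Nat.mem_divisors]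
      constructor
      · rintro ⟨⟨h2, _⟩, h3⟩
        have h4 : j * d ∣ r := by
          have := Nat.mul_dvd_mul_right h2 d
          rwa [Nat.div_mul_cancel hd'] at this
        exact ⟨⟨(Dvd.intro _ rfl : j ∣ j * d).trans h4, hr.ne'⟩, h3, h4⟩
      · rintro ⟨_, h3, h4⟩
        refine ⟨⟨?_, (Nat.div_pos (Nat.le_of_dvd hr hd') hd0).ne'⟩, h3⟩
        rw [← Nat.div_mul_cancel hd'] at h4
        exact Nat.dvd_of_mul_dvd_mul_right hd0 h4
    rw [h1, Finset.mul_sum, Finset.mul_sum]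
    apply Finset.sum_congr rfl
    intro j _
    by_cases h2 : j ∣ δ ∧ j * d ∣ r
    · rw [if_pos h2, if_pos ⟨hc, h2⟩]
      ring
    · rw [if_neg h2, if_neg (fun h => h2 h.2)]
      ring
  · rw [if_neg hc, mul_zero]
    symm
    apply Finset.sum_eq_zero
    intro j _
    rw [if_neg (fun h => hc h.1)]

/-- the arithmetic identity -/
theorem e7 {n r m : ℕ} (hn : r * m = n) (hr : 0 < r) (hm : 0 < m) (G : ℕ → ℕ → ℕ → ℂ) :
    ∑ δ ∈ m.divisors, mu δ * ∑ d ∈ r.divisors.filter (fun d => Nat.Coprime d δ),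
      mu d * ∑ j ∈ (r / d).divisors.filter (fun j => j ∣ δ),
        mu j * G (δ * d) (m / δ * j) (r / (j * d)) =
    ∑ x ∈ n.divisors, mu x * G x (m / Nat.gcd m x) (n / Nat.lcm m x) := by
  subst hn
  have hn0 : 0 < r * m := Nat.mul_pos hr hm
  rw [sum_S1 hr (fun δ d j => G (δ * d) (m / δ * j) (r / (j * d)))]
  -- change of variables
  have h1 : ∑ p ∈ S1 r m, mu p.1 * mu p.2.1 * mu p.2.2 *
        G (p.1 * p.2.1) (m / p.1 * p.2.2) (r / (p.2.2 * p.2.1)) =
      ∑ p ∈ S2 r m, mu p.1 * mu p.2.2 * G p.1 (m / p.2.1) (r / (p.1 / p.2.1)) := by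
    refine Finset.sum_nbij' (fun p => (p.1 * p.2.1, p.1 / p.2.2, p.2.2))
      (fun p => (p.2.1 * p.2.2, p.1 / (p.2.1 * p.2.2), p.2.2)) ?_ ?_ ?_ ?_ ?_
    · rintro ⟨δ, d, j⟩ hp
      unfold S1 at hp
      simp only [Finset.mem_filter, Finset.mem_product, Nat.mem_divisors] at hp
      obtain ⟨⟨⟨h1, _⟩, ⟨h2, _⟩, ⟨h3, _⟩⟩, h4, h5, h6⟩ := hp
      have hj0 : 0 < j := Nat.pos_of_dvd_of_pos h3 hr
      have hδ0 : 0 < δ := Nat.pos_of_dvd_of_pos h1 hm
      have e1 : δ / j * j = δ := Nat.div_mul_cancel h5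
      unfold S2
      simp only [Finset.mem_filter, Finset.mem_product, Nat.mem_divisors]
      refine ⟨⟨⟨?_, hn0.ne'⟩, ⟨(Nat.div_dvd_of_dvd h5).trans h1, hm.ne'⟩, h5.trans h1, hm.ne'⟩,
        ?_, ?_, ?_, ?_⟩
      · rw [mul_comm r m]
        exact Nat.mul_dvd_mul h1 h2
      · rw [e1]; exact h1
      · rw [e1]; exact Dvd.intro _ rfl
      · rw [e1, Nat.mul_div_cancel_left _ hδ0]; exact h4
      · have e2 : δ * d / (δ / j) = j * d := by
          apply Nat.div_eq_of_eq_mul_right (Nat.div_pos (Nat.le_of_dvd hδ0 h5) hj0)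
          rw [← mul_assoc, e1]
        rw [e2]
        exact h6
    · rintro ⟨x, f, j⟩ hp
      unfold S2 at hp
      simp only [Finset.mem_filter, Finset.mem_product, Nat.mem_divisors] at hp
      obtain ⟨⟨⟨h1, _⟩, ⟨h2, _⟩, ⟨h3, _⟩⟩, h4, h5, h6, h7⟩ := hp
      have hf0 : 0 < f := Nat.pos_of_dvd_of_pos h2 hm
      have hj0 : 0 < j := Nat.pos_of_dvd_of_pos h3 hm
      have e1 : j * (x / (f * j)) = x / f := by
        obtain ⟨t, rfl⟩ := h5
        rw [Nat.mul_div_cancel_left _ (Nat.mul_pos hf0 hj0), mul_assoc,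
          Nat.mul_div_cancel_left _ hf0]
      unfold S1
      simp only [Finset.mem_filter, Finset.mem_product, Nat.mem_divisors]
      refine ⟨⟨⟨h4, hm.ne'⟩, ⟨?_, hr.ne'⟩, ?_, hr.ne'⟩, h6, Dvd.intro_left _ rfl, ?_⟩
      · exact (Dvd.intro_left j e1 : x / (f * j) ∣ x / f).trans h7
      · exact (Dvd.intro _ e1 : j ∣ x / f).trans h7
      · rw [e1]; exact h7
    · rintro ⟨δ, d, j⟩ hp
      unfold S1 at hp
      simp only [Finset.mem_filter, Finset.mem_product, Nat.mem_divisors] at hp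
      obtain ⟨⟨⟨h1, _⟩, ⟨h2, _⟩, ⟨h3, _⟩⟩, h4, h5, h6⟩ := hp
      have hδ0 : 0 < δ := Nat.pos_of_dvd_of_pos h1 hm
      have e1 : δ / j * j = δ := Nat.div_mul_cancel h5
      simp only [e1, Nat.mul_div_cancel_left _ hδ0]
    · rintro ⟨x, f, j⟩ hp
      unfold S2 at hp
      simp only [Finset.mem_filter, Finset.mem_product, Nat.mem_divisors] at hp
      obtain ⟨⟨⟨h1, _⟩, ⟨h2, _⟩, ⟨h3, _⟩⟩, h4, h5, h6, h7⟩ := hp
      have hj0 : 0 < j := Nat.pos_of_dvd_of_pos h3 hm
      simp only [Nat.mul_div_cancel' h5, Nat.mul_div_cancel _ hj0]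
    · rintro ⟨δ, d, j⟩ hp
      unfold S1 at hp
      simp only [Finset.mem_filter, Finset.mem_product, Nat.mem_divisors] at hp
      obtain ⟨⟨⟨h1, _⟩, ⟨h2, _⟩, ⟨h3, _⟩⟩, h4, h5, h6⟩ := hp
      have hj0 : 0 < j := Nat.pos_of_dvd_of_pos h3 hr
      have hδ0 : 0 < δ := Nat.pos_of_dvd_of_pos h1 hm
      have e1 : δ / j * j = δ := Nat.div_mul_cancel h5
      have hf0 : 0 < δ / j := Nat.div_pos (Nat.le_of_dvd hδ0 h5) hj0
      have e2 : δ * d / (δ / j) = j * d := by
        apply Nat.div_eq_of_eq_mul_right hf0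
        rw [← mul_assoc, e1]
      have e3 : m / (δ / j) = m / δ * j := by
        obtain ⟨t, rfl⟩ := h1
        rw [Nat.mul_div_cancel_left _ hδ0]
        apply Nat.div_eq_of_eq_mul_right hf0
        calc δ * t = (δ / j * j) * t := by rw [e1]
          _ = δ / j * (t * j) := by ring
      simp only [e2, e3]
      rw [mu_mul h4.symm]
  rw [h1]
  -- summation over the right triples
  unfold S2
  rw [Finset.sum_filter, Finset.sum_product]
  apply Finset.sum_congr rfl
  intro x hx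
  have hx' := (Nat.mem_divisors.mp hx).1
  have hx0 : 0 < x := Nat.pos_of_mem_divisors hx
  by_cases hmu : mu x = 0
  · rw [hmu, zero_mul]
    apply Finset.sum_eq_zero
    intro p _
    split_ifs
    · show mu x * _ * _ = 0
      rw [hmu, zero_mul, zero_mul]
    · rfl
  have hsq : Squarefree x := by
    by_contra h
    apply hmu
    unfold mu
    rw [ArithmeticFunction.moebius_eq_zero_of_not_squarefree h, Int.cast_zero]
  rw [Finset.sum_product]
  have hg0 : 0 < Nat.gcd m x := Nat.gcd_pos_of_pos_left _ hm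
  have h2 : ∀ f ∈ m.divisors, ∑ j ∈ m.divisors,
      (if f * j ∣ m ∧ f * j ∣ x ∧ Nat.Coprime (x / (f * j)) (f * j) ∧ x / f ∣ r then
        mu x * mu j * G x (m / f) (r / (x / f)) else 0) =
      if f = Nat.gcd m x then mu x * G x (m / f) (r / (x / f)) else 0 := by
    intro f hf
    have hf' := (Nat.mem_divisors.mp hf).1
    have hf0 : 0 < f := Nat.pos_of_mem_divisors hf
    by_cases hfg : f ∣ Nat.gcd m x ∧ x / f ∣ r
    · obtain ⟨hfg1, hfg2⟩ := hfg
      obtain ⟨t, ht⟩ := hfg1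
      have ht0 : 0 < t := Nat.pos_of_ne_zero (by rintro rfl; omega)
      have h3 : ∑ j ∈ m.divisors,
          (if f * j ∣ m ∧ f * j ∣ x ∧ Nat.Coprime (x / (f * j)) (f * j) ∧ x / f ∣ r then
            mu x * mu j * G x (m / f) (r / (x / f)) else 0) =
          (∑ j ∈ t.divisors, mu j) * (mu x * G x (m / f) (r / (x / f))) := by
        rw [Finset.sum_mul, ← Finset.sum_filter]
        have h4 : m.divisors.filter (fun j => f * j ∣ m ∧ f * j ∣ x ∧
            Nat.Coprime (x / (f * j)) (f * j) ∧ x / f ∣ r) = t.divisors := by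
          ext j
          rw [Finset.mem_filter, Nat.mem_divisors, Nat.mem_divisors]
          constructor
          · rintro ⟨_, h5, h6, _, _⟩
            refine ⟨?_, ht0.ne'⟩
            have h7 := Nat.dvd_gcd h5 h6
            rw [ht] at h7
            exact Nat.dvd_of_mul_dvd_mul_left hf0 h7
          · rintro ⟨h5, _⟩
            have h6 : f * j ∣ Nat.gcd m x := by
              rw [ht]
              exact Nat.mul_dvd_mul_left f h5
            have h7 := h6.trans (Nat.gcd_dvd_left m x)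
            have h8 := h6.trans (Nat.gcd_dvd_right m x)
            refine ⟨⟨(Dvd.intro_left _ rfl : j ∣ f * j).trans h7, hm.ne'⟩, h7, h8, ?_, hfg2⟩
            obtain ⟨u, hu⟩ := h8
            have hfj : 0 < f * j := Nat.pos_of_dvd_of_pos ⟨u, hu⟩ hx0
            rw [hu, Nat.mul_div_cancel_left _ hfj]
            rw [hu] at hsq
            exact (Nat.coprime_of_squarefree_mul hsq).symm
        rw [h4]
        apply Finset.sum_congr rfl
        intro j _
        ring
      rw [h3, sum_mu t ht0]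
      by_cases ht1 : t = 1
      · rw [if_pos ht1, if_pos (by rw [ht, ht1, mul_one]), one_mul]
      · rw [if_neg ht1, zero_mul, if_neg]
        intro h
        apply ht1
        have : f * t = f * 1 := by rw [← ht, ← h, mul_one]
        exact Nat.eq_of_mul_eq_mul_left hf0 this
    · rw [if_neg]
      · apply Finset.sum_eq_zero
        intro j _
        rw [if_neg]
        rintro ⟨h5, h6, _, h8⟩
        exact hfg ⟨(Dvd.intro _ rfl : f ∣ f * j).trans (Nat.dvd_gcd h5 h6), h8⟩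
      · intro h
        apply hfg
        refine ⟨by rw [h], ?_⟩
        rw [h]
        have h9 : Nat.Coprime (x / Nat.gcd m x) (m / Nat.gcd m x) :=
          (Nat.coprime_div_gcd_div_gcd hg0).symm
        have h10 : x / Nat.gcd m x ∣ r * (m / Nat.gcd m x) := by
          rw [← Nat.mul_div_assoc _ (Nat.gcd_dvd_left m x)]
          exact Nat.div_dvd_div (Nat.gcd_dvd_right m x) hx'
        exact h9.dvd_of_dvd_mul_right h10
  rw [Finset.sum_congr rfl h2, Finset.sum_ite_eq' m.divisors (Nat.gcd m x), if_pos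
    (Nat.mem_divisors.mpr ⟨Nat.gcd_dvd_left m x, hm.ne'⟩)]
  congr 2
  -- the last index
  have hgx := Nat.gcd_dvd_right m x
  have hxg0 : 0 < x / Nat.gcd m x := Nat.div_pos (Nat.le_of_dvd hx0 hgx) hg0
  have e1 : Nat.lcm m x = m * (x / Nat.gcd m x) := by
    rw [Nat.lcm, Nat.mul_div_assoc _ hgx]
  rw [e1, mul_comm r m, Nat.mul_div_mul_left _ _ hm]

end Vale.Agent.P275.H452.E7
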