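import Vale.Agent.P275.H452.HkAs
import Vale.Agent.P275.H452.C10
import Vale.Agent.P275.H341.Cnt

/-!
# Asymptotics of the point count
-/

set_option linter.unusedSectionVars false

namespace Vale.Agent.P275.H452

open scoped BigOperators Topology
open Filter Vale.Agent.P275.H341 Vale.Agent.P275.H677.A9

theorem lam0_mem {k : ℕ} : lam0 k ∈ Pt k := by
  rw [mem_Pt]
  refine ⟨?_, anti_lam0 k⟩
  rcases k with _ | k
  · rfl
  · rw [Fin.sum_univ_succ]
    unfold lam0
    simp

theorem eq_lam0 {k : ℕ} {lam : Fin (k + 1) → ℕ} (h : lam ∈ Pt (k + 1)) (h0 : k + 1 ≤ lam 0) :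
    lam = lam0 (k + 1) := by
  rw [mem_Pt, Fin.sum_univ_succ] at h
  have h1 : ∑ i : Fin k, lam i.succ = 0 := by omega
  rw [Finset.sum_eq_zero_iff] at h1
  funext i
  refine Fin.cases ?_ (fun j => ?_) i
  · have := h.1
    unfold lam0
    simp only [Fin.val_zero, if_true]
    have h2 : ∑ i : Fin k, lam i.succ = 0 := Finset.sum_eq_zero h1
    omega
  · rw [h1 j (Finset.mem_univ _)]
    unfold lam0
    rw [if_neg (by simp)]

/-- the quadratic bound -/
theorem sq_le {k : ℕ} {lam : Fin k → ℕ} (h : lam ∈ Pt k) (hne : lam ≠ lam0 k) :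
    ∑ i, ((lam i : ℤ) * (lam i + 1)) ≤ (k : ℤ) ^ 2 := by
  rcases k with _ | k
  · simp
  · have h0 : lam 0 ≤ k := by
      by_contra hcon
      exact hne (eq_lam0 h (by omega))
    have h' := mem_Pt.mp h
    have h1 : ∀ i, (lam i : ℤ) * (lam i + 1) ≤ (lam i : ℤ) * (k + 1) := by
      intro i
      have h2 : lam i ≤ k := (h'.2 (Fin.zero_le i)).trans h0
      have h3 : (lam i : ℤ) ≤ k := by exact_mod_cast h2
      have h4 : (0 : ℤ) ≤ lam i := by positivity
      nlinarith
    have h5 : ∑ i, ((lam i : ℤ)) = (k : ℤ) + 1 := by exact_mod_cast h'.1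
    calc ∑ i, ((lam i : ℤ) * (lam i + 1)) ≤ ∑ i, (lam i : ℤ) * (k + 1) :=
          Finset.sum_le_sum fun i _ => h1 i
      _ = ((k + 1 : ℕ) : ℤ) ^ 2 := by
          rw [← Finset.sum_mul, h5]
          push_cast
          ring

theorem Nl_lam0 (d k : ℕ) : Nl d (lam0 k) = d * tr k := by
  have h1 := two_Nl d (lam0 k)
  have h2 : ∑ i, ((lam0 k i : ℤ) * (lam0 k i + 1)) = k * (k + 1) := by
    rcases k with _ | k
    · simp
    · rw [Fin.sum_univ_succ]
      unfold lam0
      simp
  rw [h2, ← two_tr] at h1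
  have h3 : 2 * Nl d (lam0 k) = 2 * (d * tr k) := by rw [h1]; ring
  omega

theorem Nl_lt {d k : ℕ} (hd : 0 < d) (hk : 0 < k) {lam : Fin k → ℕ} (h : lam ∈ Pt k)
    (hne : lam ≠ lam0 k) : Nl d lam + 1 ≤ d * tr k := by
  have h1 := two_Nl d lam
  have h2 := sq_le h hne
  have h3 : (0 : ℤ) < d := by exact_mod_cast hd
  have h4 : (0 : ℤ) < k := by exact_mod_cast hk
  have h5 : 2 * Nl d lam ≤ d * (k : ℤ) ^ 2 := by
    rw [h1]
    exact mul_le_mul_of_nonneg_left h2 h3.le
  have h6 : 2 * (d * tr k) = d * ((k : ℤ) ^ 2 + k) := by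
    rw [show 2 * ((d : ℤ) * tr k) = d * (2 * tr k) by ring, two_tr]
    ring
  have h7 : (d : ℤ) * ((k : ℤ) ^ 2 + k) = d * (k : ℤ) ^ 2 + d * k := by ring
  have h8 : (0 : ℤ) < d * k := mul_pos h3 h4
  omega

/-- the first-order coefficient -/
noncomputable def bt (G d e : ℕ) : ℂ := (e : ℂ) * ((G : ℂ) * if d = 1 then -1 else 0)

theorem as_om {G d e k : ℕ} (hG : 2 ≤ G) (hd : 0 < d) (he : 0 < e) (hk0 : 0 < k) :
    As (fun q => om (powMonoidHom G) q d e k) (((e * (G * d) : ℕ) : ℤ) * tr k) 1 (bt G d e) := by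
  classical
  have h1 : ∀ lam ∈ Pt k, As (fun q => (powMonoidHom G (hk (q ^ d) lam) : ℂ) ^ e)
      (((e * (G * d) : ℕ) : ℤ) * tr k) (if lam = lam0 k then 1 else 0)
      (if lam = lam0 k then bt G d e else 0) := by
    intro lam hlam
    have h2 := ((as_hk hd (mem_Pt.mp hlam).2).pow G).pow e
    by_cases h3 : lam = lam0 k
    · rw [if_pos h3, if_pos h3]
      subst h3
      have h4 : ((e * (G * d) : ℕ) : ℤ) * tr k = e * (G * Nl d (lam0 k)) := by
        rw [Nl_lam0]
        push_cast
        ring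
      rw [h4]
      have h5 : bt G d e = e * (G * Bl d (lam0 k)) := by
        unfold bt
        congr 2
        by_cases h6 : d = 1
        · rw [if_pos h6, h6, Bl_lam0 hk0]
        · rw [if_neg h6, Bl_ne h6]
      rw [h5]
      exact h2
    · rw [if_neg h3, if_neg h3]
      refine As.lower h2 ?_
      have h4 := Nl_lt hd hk0 hlam h3
      have h5 : ((e * (G * d) : ℕ) : ℤ) * tr k = ((e * G : ℕ) : ℤ) * (d * tr k) := by
        push_cast
        ring
      have h6 : (e : ℤ) * (G * Nl d lam) = ((e * G : ℕ) : ℤ) * Nl d lam := by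
        push_cast
        ring
      have h7 : (2 : ℤ) ≤ ((e * G : ℕ) : ℤ) := by
        have : 1 * 2 ≤ e * G := Nat.mul_le_mul he hG
        exact_mod_cast (by omega : 2 ≤ e * G)
      rw [h5, h6]
      have h8 := mul_le_mul_of_nonneg_left h4 (show (0 : ℤ) ≤ ((e * G : ℕ) : ℤ) by linarith)
      rw [mul_add, mul_one] at h8
      linarith
  have h2 := As.sum (Pt k) h1
  rw [Finset.sum_ite_eq', Finset.sum_ite_eq', if_pos lam0_mem, if_pos lam0_mem] at h2
  exact h2

theorem ld_step {a : ℕ → ℂ} (h0 : a 0 = 1) (k : ℕ) :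
    ld a k = k * a k - ∑ i ∈ Finset.range k, ld a i * a (k - i) := by
  have h1 := ld_rec h0 k
  have h2 := Finset.Nat.sum_antidiagonal_eq_sum_range_succ (fun i j => ld a i * a j) k
  have h3 : ∑ p ∈ Finset.HasAntidiagonal.antidiagonal k, ld a p.1 * a p.2 =
    ∑ i ∈ Finset.range k.succ, ld a i * a (k - i) := h2
  rw [h3, Finset.sum_range_succ, Nat.sub_self, h0, mul_one] at h1
  rw [← h1]
  ring

theorem tr_zero : tr 0 = 0 := by
  unfold tr
  simp

theorem as_ld {G d e : ℕ} (hG : 2 ≤ G) (hd : 0 < d) (he : 0 < e) (k : ℕ) :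
    As (fun q => ld (om (powMonoidHom G) q d e) k) (((e * (G * d) : ℕ) : ℤ) * tr k) k
      (k * bt G d e) := by
  classical
  have h0 : ∀ q : ℂ, om (powMonoidHom G) q d e 0 = 1 := fun q => om_zero _ _ _ _
  have hM : (2 : ℤ) ≤ ((e * (G * d) : ℕ) : ℤ) := by
    have h1 : 1 * (2 * 1) ≤ e * (G * d) := Nat.mul_le_mul he (Nat.mul_le_mul hG hd)
    exact_mod_cast (by omega : 2 ≤ e * (G * d))
  induction k using Nat.strong_induction_on with
  | _ k ih =>
    rcases Nat.eq_zero_or_pos k with hk | hk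
    · subst hk
      have h1 : (fun q : ℂ => ld (om (powMonoidHom G) q d e) 0) = fun _ => 0 := by
        funext q
        exact ld_zero (h0 q)
      rw [h1]
      simpa using As.zero _
    · have h1 : ∀ i ∈ Finset.range k, As (fun q => ld (om (powMonoidHom G) q d e) i *
          om (powMonoidHom G) q d e (k - i)) (((e * (G * d) : ℕ) : ℤ) * tr k) 0 0 := by
        intro i hi
        rw [Finset.mem_range] at hi
        have h2 := (ih i hi).mul (as_om hG hd he (show 0 < k - i by omega))
        rcases Nat.eq_zero_or_pos i with hi0 | hi0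
        · subst hi0
          rw [tr_zero, mul_zero, zero_add, Nat.sub_zero] at h2
          simpa using h2
        · refine h2.lower ?_
          have h3 := two_tr i
          have h4 := two_tr (k - i)
          have h5 := two_tr k
          obtain ⟨j, rfl⟩ : ∃ j, k = i + j := ⟨k - i, by omega⟩
          have h6 : i + j - i = j := by omega
          rw [h6] at h4 ⊢
          have hi1 : (1 : ℤ) ≤ i := by exact_mod_cast hi0
          have hj1 : (1 : ℤ) ≤ j := by exact_mod_cast (by omega : 1 ≤ j)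
          have h7 : tr i + tr j + i * j = tr (i + j) := by
            push_cast at h5
            have h8 : 2 * (tr i + tr j + i * j) = 2 * tr (i + j) := by
              rw [h5, mul_add, mul_add, h3, h4]
              ring
            omega
          have h9 : (1 : ℤ) ≤ (i : ℤ) * j := by nlinarith
          rw [← h7]
          have h10 := mul_le_mul_of_nonneg_left h9
            (show (0 : ℤ) ≤ ((e * (G * d) : ℕ) : ℤ) by linarith)
          rw [mul_add, mul_add]
          linarith
      have h2 := (as_om hG hd he hk).const_mul (k : ℂ)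
      have h3 := (As.sum (Finset.range k) h1).const_mul (-1)
      have h4 := h2.add h3
      rw [Finset.sum_const_zero, mul_zero, add_zero, add_zero, mul_one] at h4
      refine h4.congr (Filter.Eventually.of_forall fun x => ?_)
      rw [ld_step (h0 _) k]
      ring

/-- the point count has the expansion `q ^ T (0 - (2 g - 2) / q + ..)` -/
theorem as_eG {n m g : ℕ} (hn : 1 ≤ n) (hm : m ∣ n) (hm2 : 2 ≤ m) (hg : 2 ≤ g) :
    As (fun q => eG n m g q)
      (((n * (n - 1) * (g - 1) : ℕ) : ℤ) + ((g - 1 : ℕ) : ℤ) * n * (((n / m : ℕ) : ℤ) + 1)) 0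
      (-((2 * g - 2 : ℕ) : ℂ)) := by
  classical
  have hn0 : 0 < n := hn
  have hm0 : 0 < m := by omega
  have hnC : (n : ℂ) ≠ 0 := by exact_mod_cast hn0.ne'
  set G := 2 * g - 2 with hGdef
  have hG : 2 ≤ G := by omega
  have hGg : G = 2 * (g - 1) := by omega
  set r := n / m with hr
  have hrm : r * m = n := Nat.div_mul_cancel hm
  have hr0 : 0 < r := Nat.div_pos (Nat.le_of_dvd hn0 hm) hm0
  have hterm : ∀ d ∈ n.divisors, As (fun q => ((ArithmeticFunction.moebius d : ℤ) : ℂ) *
      ld (om (powMonoidHom G) q d (m / Nat.gcd m d)) (n / Nat.lcm m d))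
      (((g - 1 : ℕ) : ℤ) * n * ((r : ℤ) + 1))
      (if d ∣ m then ((ArithmeticFunction.moebius d : ℤ) : ℂ) * r else 0)
      (if d = 1 then -((G : ℂ) * n) else 0) := by
    intro d hd
    have hdn : d ∣ n := (Nat.mem_divisors.mp hd).1
    have hd0 : 0 < d := Nat.pos_of_mem_divisors hd
    have hg0 : 0 < Nat.gcd m d := Nat.gcd_pos_of_pos_right m hd0
    have he0 : 0 < m / Nat.gcd m d :=
      Nat.div_pos (Nat.le_of_dvd hm0 (Nat.gcd_dvd_left m d)) hg0
    have hL0 : 0 < Nat.lcm m d := Nat.lcm_pos hm0 hd0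
    have hLn : Nat.lcm m d ∣ n := Nat.lcm_dvd hm hdn
    have heL : m / Nat.gcd m d * d = Nat.lcm m d := by
      rw [Nat.lcm_comm]
      exact (C10.lcm_facts hn0 hm hdn).1
    set e := m / Nat.gcd m d with he
    set L := Nat.lcm m d with hL
    set k := n / L with hk
    have hkL : k * L = n := Nat.div_mul_cancel hLn
    have hk0 : 0 < k := Nat.div_pos (Nat.le_of_dvd hn0 hLn) hL0
    have h1 := (as_ld hG hd0 he0 k).const_mul ((ArithmeticFunction.moebius d : ℤ) : ℂ)
    have hM : ((e * (G * d) : ℕ) : ℤ) * tr k = ((g - 1 : ℕ) : ℤ) * n * ((k : ℤ) + 1) := by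
      have h2 : e * (G * d) = 2 * ((g - 1) * L) := by
        rw [hGg, ← heL]
        ring
      rw [h2]
      have h3 := two_tr k
      have h4 : ((2 * ((g - 1) * L) : ℕ) : ℤ) * tr k = ((g - 1) * L : ℕ) * (2 * tr k) := by
        push_cast
        ring
      rw [h4, h3, ← hkL]
      push_cast
      ring
    rw [hM] at h1
    by_cases hdm : d ∣ m
    · have hLm : L = m := Nat.lcm_eq_left hdm
      have hkr : k = r := by rw [hk, hLm]
      rw [if_pos hdm]
      have hb : ((ArithmeticFunction.moebius d : ℤ) : ℂ) * ((k : ℂ) * bt G d e) =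
          if d = 1 then -((G : ℂ) * n) else 0 := by
        unfold bt
        by_cases h5 : d = 1
        · rw [if_pos h5, if_pos h5]
          have h6 : e = m := by rw [he, h5, Nat.gcd_one_right, Nat.div_one]
          rw [h6, h5, ArithmeticFunction.moebius_apply_one, ← hkL, hLm]
          push_cast
          ring
        · rw [if_neg h5, if_neg h5]
          ring
      rw [hb, hkr] at h1
      rw [hkr]
      exact h1
    · rw [if_neg hdm]
      have h5 : d ≠ 1 := fun h => hdm (by rw [h]; exact one_dvd m)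
      rw [if_neg h5]
      refine h1.lower ?_
      have h6 : k < r := by
        have h7 : m ∣ L := Nat.dvd_lcm_left m d
        obtain ⟨t, ht⟩ := h7
        have h8 : t ≠ 1 := by
          rintro rfl
          rw [mul_one] at ht
          exact hdm (by rw [← ht]; exact Nat.dvd_lcm_right m d)
        have h9 : 2 ≤ t := by
          rcases t with _ | _ | t
          · omega
          · omega
          · omega
        have h10 : k * (m * t) = r * m := by rw [← ht, hkL, hrm]
        have h11 : k * t = r := by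
          apply Nat.eq_of_mul_eq_mul_right hm0
          rw [← h10]
          ring
        nlinarith
      have h7 : (k : ℤ) + 1 ≤ r := by exact_mod_cast h6
      have h8 : (2 : ℤ) ≤ ((g - 1 : ℕ) : ℤ) * n := by
        have h9 : 1 * 2 ≤ (g - 1) * n :=
          Nat.mul_le_mul (by omega) (hm2.trans (Nat.le_of_dvd hn0 hm))
        exact_mod_cast (by omega : 2 ≤ (g - 1) * n)
      have h10 := mul_le_mul_of_nonneg_left h7
        (show (0 : ℤ) ≤ ((g - 1 : ℕ) : ℤ) * n by linarith)
      have h11 : ((g - 1 : ℕ) : ℤ) * n * ((r : ℤ) + 1) = ((g - 1 : ℕ) : ℤ) * n * r +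
        ((g - 1 : ℕ) : ℤ) * n := by ring
      rw [h11]
      linarith
  have h1 := As.sum n.divisors hterm
  have ha : ∑ d ∈ n.divisors, (if d ∣ m then ((ArithmeticFunction.moebius d : ℤ) : ℂ) * r else 0)
      = 0 := by
    rw [← Finset.sum_filter]
    have h2 : n.divisors.filter (fun d => d ∣ m) = m.divisors := by
      ext d
      rw [Finset.mem_filter, Nat.mem_divisors, Nat.mem_divisors]
      constructor
      · rintro ⟨_, h⟩
        exact ⟨h, hm0.ne'⟩
      · rintro ⟨h, _⟩
        exact ⟨⟨h.trans hm, hn0.ne'⟩, h⟩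
    rw [h2]
    exact C10.T_zero (dvd_refl m) (by omega) (fun _ => (r : ℂ))
  rw [ha, Finset.sum_ite_eq' n.divisors 1, if_pos (Nat.one_mem_divisors.mpr hn0.ne')] at h1
  have h2 := (As.id_pow (n * (n - 1) * (g - 1))).mul (h1.const_mul ((1 : ℂ) / n))
  have h3 : (0 : ℂ) * (1 / n * 0) + 1 * (1 / n * -((G : ℂ) * n)) = -((G : ℕ) : ℂ) := by
    field_simp
    ring
  rw [h3, mul_zero, mul_zero] at h2
  exact h2

end Vale.Agent.P275.H452
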