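import Vale.Agent.P275.H341.All
import Vale.Agent.P275.H341.E2
import Vale.Agent.P275.H93.E1
import Vale.Agent.P275.H93.E4c
import Vale.Agent.P275.H85G.E6
import Vale.Agent.P275.H677.E8
import Vale.Agent.P275.H633.Endo
import Vale.Agent.P275.H452.E5
import Vale.Agent.P275.H452.E7b

/-!
# The endoscopic identity, all rows together
-/

namespace Vale.Agent.P275.H452

open scoped BigOperators MatrixGroups
open Module Matrix Vale.Agent.P275.H85 Vale.Agent.P275.H341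

theorem allE2 : RowE2 :=
  rowE2 H677.rowA1 H93.rowA2 (H677.rowA4 H85G.rowA3) H510.rowA6 H452.A57.rowA7 H633.rowA8
    H633.rowC1 H633.rowC2 H85G.rowC3 H85G.rowC4 H510.rowC5 H93.rowE1

theorem allE5 : RowE5 := E5.rowE5 allE2 (H93.rowE4 H677.E8.rowE8) H677.rowA9

theorem endo_all {F : Type} [Field F] [Fintype F] [DecidableEq F] {n m g : ℕ} (hn : 1 ≤ n)
    (hm : m ∣ n) (hg : 1 ≤ g) (ζ : Fˣ) (hζ : orderOf ζ = n) (κ κ' : Fin g → (Fˣ →* ℂˣ))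
    (hκ : orderOf (fun i => (κ i, κ' i)) = m) (hneg : ∀ i, κ i (-1) = 1 ∧ κ' i (-1) = 1)
    (κ₀ : Fˣ →* ℂˣ) (hκ₀ : orderOf κ₀ = m) (hneg₀ : κ₀ (-1) = 1)
    (E : ℕ → Type) [∀ δ, Field (E δ)] [∀ δ, Fintype (E δ)] [∀ δ, DecidableEq (E δ)]
    [∀ δ, Algebra F (E δ)] (hE : ∀ δ ∈ m.divisors, finrank F (E δ) = δ) :
    commSum F n g ζ κ κ' / (Fintype.card (GL (Fin n) F) : ℂ)
      = (Fintype.card F : ℂ) ^ (n * (n - n / m) * (g - 1)) * ((1 / m) *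
        ∑ δ ∈ m.divisors, ∑ φ : E δ ≃ₐ[F] E δ, (if orderOf φ = δ then
          twSum φ (m / δ) (n / m) g ζ κ₀ /
            (Fintype.card (GL (Fin (n / m)) (E δ)) : ℂ) ^ (m / δ) else 0)) :=
  H633.endo allE2 allE5 H85G.rowE6 H452.E7.rowE7 H677.E8.rowE8 allC9 allC10 H85G.rowC11 hn hm hg
    ζ hζ κ κ' hκ hneg κ₀ hκ₀ hneg₀ E hE

end Vale.Agent.P275.H452
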