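import Vale.Agent.P275.H452.LdAs
import Vale.Agent.P275.H341.Rows4
import Vale.Agent.P275.H677.A9

/-!
# Asymptotics of the hook polynomials and of the logarithmic derivatives
-/

set_option linter.unusedSectionVars false

namespace Vale.Agent.P275.H452

open scoped BigOperators Topology
open Filter Vale.Agent.P275.H341

/-- triangular numbers -/
def tr (k : ℕ) : ℤ := ∑ t ∈ Finset.range k, ((t : ℤ) + 1)

theorem two_tr (k : ℕ) : 2 * tr k = k * (k + 1) := by
  unfold tr
  induction k with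
  | zero => simp
  | succ k ih =>
    rw [Finset.sum_range_succ, mul_add, ih]
    push_cast
    ring

theorem two_ch (k : ℕ) : 2 * (Nat.choose k 2 : ℤ) = (k : ℤ) ^ 2 - k := by
  induction k with
  | zero => simp
  | succ k ih =>
    rw [Nat.choose_succ_succ' k 1, Nat.choose_one_right]
    push_cast
    linear_combination ih

theorem sum_sq (k : ℕ) : ∑ i ∈ Finset.range k, ((i : ℤ) ^ 2 - i) = 2 * (Nat.choose k 3 : ℤ) := by
  induction k with
  | zero => simp
  | succ k ih =>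
    rw [Finset.sum_range_succ, ih, Nat.choose_succ_succ' k 2]
    push_cast
    linear_combination -two_ch k

theorem sum_sq' (k : ℕ) : ∑ i : Fin k, (((k - 1 - (i : ℕ) : ℕ) : ℤ) ^ 2 - (k - 1 - (i : ℕ) : ℕ))
    = 2 * (Nat.choose k 3 : ℤ) := by
  rw [← sum_sq k, ← Finset.sum_range_reflect,
    Fin.sum_univ_eq_sum_range (fun i => ((k - 1 - i : ℕ) : ℤ) ^ 2 - (k - 1 - i : ℕ)) k]

/-- the exponent -/
def Nl (d : ℕ) {k : ℕ} (lam : Fin k → ℕ) : ℤ :=
  ((d * Nat.choose k 3 : ℕ) : ℤ) +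
    (∑ i : Fin k, ∑ t ∈ Finset.range (lam i + (k - 1 - i)), ((d * (t + 1) : ℕ) : ℤ)) -
    ∑ i : Fin k, ∑ _j ∈ Finset.Ioi i, ((d * (lam i + (k - 1 - i)) : ℕ) : ℤ)

theorem two_Nl (d : ℕ) {k : ℕ} (lam : Fin k → ℕ) :
    2 * Nl d lam = d * ∑ i, ((lam i : ℤ) * (lam i + 1)) := by
  unfold Nl
  have h1 : ∀ i : Fin k, ∑ t ∈ Finset.range (lam i + (k - 1 - (i : ℕ))), ((d * (t + 1) : ℕ) : ℤ) =
      d * tr (lam i + (k - 1 - (i : ℕ))) := by
    intro i
    unfold tr
    rw [Finset.mul_sum]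
    apply Finset.sum_congr rfl
    intro t _
    push_cast
    ring
  have h2 : ∀ i : Fin k, ∑ _j ∈ Finset.Ioi i, ((d * (lam i + (k - 1 - (i : ℕ))) : ℕ) : ℤ) =
      d * (((k - 1 - (i : ℕ) : ℕ) : ℤ) * (lam i + (k - 1 - (i : ℕ) : ℕ))) := by
    intro i
    rw [Finset.sum_const, Fin.card_Ioi, nsmul_eq_mul]
    push_cast
    ring
  rw [Finset.sum_congr rfl fun i _ => h1 i, Finset.sum_congr rfl fun i _ => h2 i,
    ← Finset.mul_sum, ← Finset.mul_sum]
  have h3 := sum_sq' k
  have h4 : ∀ i : Fin k, (lam i : ℤ) * (lam i + 1) =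
      (2 * tr (lam i + (k - 1 - (i : ℕ))) -
        2 * (((k - 1 - (i : ℕ) : ℕ) : ℤ) * (lam i + (k - 1 - (i : ℕ) : ℕ)))) +
      (((k - 1 - (i : ℕ) : ℕ) : ℤ) ^ 2 - (k - 1 - (i : ℕ) : ℕ)) := by
    intro i
    rw [two_tr]
    push_cast
    ring
  rw [Finset.sum_congr rfl fun i _ => h4 i, Finset.sum_add_distrib, h3, Finset.sum_sub_distrib,
    ← Finset.mul_sum, ← Finset.mul_sum]
  push_cast
  ring

/-- the first-order coefficient -/
def Bl (d : ℕ) {k : ℕ} (lam : Fin k → ℕ) : ℂ :=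
  (∑ i : Fin k, ∑ t ∈ Finset.range (lam i + (k - 1 - i)), if d * (t + 1) = 0 + 1 then (-1 : ℂ) else 0) -
    ∑ i : Fin k, ∑ j ∈ Finset.Ioi i,
      if d * (lam i + (k - 1 - i)) = d * (lam j + (k - 1 - j)) + 1 then (-1 : ℂ) else 0

theorem as_hk {d : ℕ} (hd : 0 < d) {k : ℕ} {lam : Fin k → ℕ} (hl : Antitone lam) :
    As (fun q => hk (q ^ d) lam) (Nl d lam) 1 (Bl d lam) := by
  have h1 : As (fun q => ∏ i : Fin k, ∏ t ∈ Finset.range (lam i + (k - 1 - i)),
      (q ^ (d * (t + 1)) - q ^ 0))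
      (∑ i : Fin k, ∑ t ∈ Finset.range (lam i + (k - 1 - i)), ((d * (t + 1) : ℕ) : ℤ)) 1
      (∑ i : Fin k, ∑ t ∈ Finset.range (lam i + (k - 1 - i)),
        if d * (t + 1) = 0 + 1 then (-1 : ℂ) else 0) := by
    apply As.prod
    intro i _
    apply As.prod
    intro t _
    exact As.sub_pow (Nat.mul_pos hd (Nat.succ_pos t))
  have h2 : As (fun q => ∏ i : Fin k, ∏ j ∈ Finset.Ioi i,
      (q ^ (d * (lam i + (k - 1 - i))) - q ^ (d * (lam j + (k - 1 - j)))))
      (∑ i : Fin k, ∑ _j ∈ Finset.Ioi i, ((d * (lam i + (k - 1 - i)) : ℕ) : ℤ)) 1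
      (∑ i : Fin k, ∑ j ∈ Finset.Ioi i,
        if d * (lam i + (k - 1 - i)) = d * (lam j + (k - 1 - j)) + 1 then (-1 : ℂ) else 0) := by
    apply As.prod
    intro i _
    apply As.prod
    intro j hj
    rw [Finset.mem_Ioi] at hj
    apply As.sub_pow
    apply Nat.mul_lt_mul_of_pos_left _ hd
    have h3 : lam j ≤ lam i := hl hj.le
    have h4 : (i : ℕ) < j := hj
    have h5 := j.2
    omega
  have h3 := (((As.id_pow (d * Nat.choose k 3)).mul h1).congr (g := fun q =>
    q ^ (d * Nat.choose k 3) * ∏ i : Fin k, ∏ t ∈ Finset.range (lam i + (k - 1 - i)),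
      (q ^ (d * (t + 1)) - q ^ 0)) (Filter.Eventually.of_forall fun _ => rfl))
  rw [mul_one, zero_mul, zero_add, one_mul] at h3
  refine (h3.div h2).congr (Filter.Eventually.of_forall fun x => ?_)
  unfold hk
  simp only [← pow_mul, pow_zero]

theorem Bl_ne {d : ℕ} (hd : d ≠ 1) {k : ℕ} (lam : Fin k → ℕ) : Bl d lam = 0 := by
  unfold Bl
  rw [Finset.sum_eq_zero, Finset.sum_eq_zero, sub_zero]
  · intro i _
    apply Finset.sum_eq_zero
    intro j _
    rw [if_neg]
    intro h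
    apply hd
    have h1 : d ∣ 1 := by
      have h2 : d ∣ d * (lam j + (k - 1 - j)) + 1 := by rw [← h]; exact Dvd.intro _ rfl
      exact (Nat.dvd_add_right (Dvd.intro _ rfl)).mp h2
    exact Nat.dvd_one.mp h1
  · intro i _
    apply Finset.sum_eq_zero
    intro t _
    rw [if_neg]
    intro h
    apply hd
    rw [zero_add] at h
    exact Nat.dvd_one.mp (Dvd.intro _ h)

/-- the partition with one part -/
def lam0 (k : ℕ) : Fin k → ℕ := fun i => if (i : ℕ) = 0 then k else 0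

theorem anti_lam0 (k : ℕ) : Antitone (lam0 k) := by
  intro i j hij
  unfold lam0
  have : (i : ℕ) ≤ j := hij
  split_ifs <;> omega

theorem Bl_lam0 {k : ℕ} (hk : 0 < k) : Bl 1 (lam0 k) = -1 := by
  classical
  unfold Bl
  rw [← Finset.sum_sub_distrib]
  have h1 : ∀ i : Fin k, (∑ t ∈ Finset.range (lam0 k i + (k - 1 - (i : ℕ))),
      if 1 * (t + 1) = 0 + 1 then (-1 : ℂ) else 0) -
      (∑ j ∈ Finset.Ioi i, if 1 * (lam0 k i + (k - 1 - (i : ℕ))) =
        1 * (lam0 k j + (k - 1 - (j : ℕ))) + 1 then (-1 : ℂ) else 0) =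
      if i = ⟨0, hk⟩ then -1 else 0 := by
    intro i
    have h2 : (∑ t ∈ Finset.range (lam0 k i + (k - 1 - (i : ℕ))),
        if 1 * (t + 1) = 0 + 1 then (-1 : ℂ) else 0) =
        if 0 < lam0 k i + (k - 1 - (i : ℕ)) then -1 else 0 := by
      have h3 : ∀ t : ℕ, (1 * (t + 1) = 0 + 1) ↔ t = 0 := by intro t; omega
      simp only [h3]
      rw [Finset.sum_ite_eq']
      simp only [Finset.mem_range]
    have h4 : (∑ j ∈ Finset.Ioi i, if 1 * (lam0 k i + (k - 1 - (i : ℕ))) =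
        1 * (lam0 k j + (k - 1 - (j : ℕ))) + 1 then (-1 : ℂ) else 0) =
        if (0 < (i : ℕ) ∧ (i : ℕ) + 1 < k) then -1 else 0 := by
      by_cases h5 : 0 < (i : ℕ) ∧ (i : ℕ) + 1 < k
      · rw [if_pos h5]
        rw [Finset.sum_eq_single (⟨(i : ℕ) + 1, h5.2⟩ : Fin k)]
        · rw [if_pos]
          unfold lam0
          rw [if_neg h5.1.ne', if_neg (Nat.succ_ne_zero _)]
          dsimp only
          omega
        · intro j hj hne
          rw [Finset.mem_Ioi] at hj
          have hj' : (i : ℕ) < j := hj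
          have hne' : (j : ℕ) ≠ i + 1 := fun h => hne (Fin.ext h)
          have := j.2
          rw [if_neg]
          unfold lam0
          rw [if_neg h5.1.ne', if_neg (by omega)]
          omega
        · intro h
          exfalso
          apply h
          rw [Finset.mem_Ioi]
          show (i : ℕ) < i + 1
          omega
      · rw [if_neg h5]
        apply Finset.sum_eq_zero
        intro j hj
        rw [Finset.mem_Ioi] at hj
        have hj' : (i : ℕ) < j := hj
        have := j.2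
        rw [if_neg]
        unfold lam0
        rw [if_neg (show ¬ (j : ℕ) = 0 by omega)]
        split_ifs with h6
        · omega
        · omega
    rw [h2, h4]
    by_cases h5 : i = ⟨0, hk⟩
    · rw [if_pos h5, h5]
      rw [if_pos (by unfold lam0; rw [if_pos rfl]; omega), if_neg (by rintro ⟨h, _⟩; exact lt_irrefl _ h),
        sub_zero]
    · have h6 : (i : ℕ) ≠ 0 := fun h => h5 (Fin.ext h)
      rw [if_neg h5]
      unfold lam0
      rw [if_neg h6]
      by_cases h7 : (i : ℕ) + 1 < k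
      · rw [if_pos (by omega), if_pos ⟨by omega, h7⟩, sub_self]
      · rw [if_neg (by omega), if_neg (fun h => h7 h.2), sub_self]
  rw [Finset.sum_congr rfl fun i _ => h1 i, Finset.sum_ite_eq' Finset.univ (⟨0, hk⟩ : Fin k),
    if_pos (Finset.mem_univ _)]

end Vale.Agent.P275.H452
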