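import Vale.Agent.P275.H85.B9

/-!
# The Hopf axiom for families of class functions
-/

set_option linter.style.haveILetI false
set_option linter.unusedSectionVars false

namespace Vale.Agent.P275.H452

open scoped BigOperators
open Module Vale.Agent.P275.H85

variable {F : Type} [Field F] [Fintype F]

section hopf

variable {V E : Type} [AddCommGroup V] [Module F V] [FiniteDimensional F V]
  [AddCommGroup E] [Module F E] [FiniteDimensional F E]

/-- subspaces of `V × E` containing `E₁` -/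
def wsub (E₁ : Submodule F E) (W' : Submodule F (V × (E ⧸ E₁))) : Submodule F (V × E) :=
  W'.comap (LinearMap.prodMap LinearMap.id E₁.mkQ)

theorem mem_wsub {E₁ : Submodule F E} {W' : Submodule F (V × (E ⧸ E₁))} {v : V} {e : E} :
    (v, e) ∈ wsub E₁ W' ↔ (v, E₁.mkQ e) ∈ W' := Iff.rfl

theorem wsub_comap (E₁ : Submodule F E) (W' : Submodule F (V × (E ⧸ E₁)))
    (h : W'.comap (LinearMap.inr F V (E ⧸ E₁)) = ⊥) :
    (wsub E₁ W').comap (LinearMap.inr F V E) = E₁ := by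
  ext e
  rw [Submodule.mem_comap, LinearMap.inr_apply, mem_wsub]
  have h1 : ((0 : V), E₁.mkQ e) ∈ W' ↔ E₁.mkQ e ∈ W'.comap (LinearMap.inr F V (E ⧸ E₁)) :=
    Iff.rfl
  rw [h1, h, Submodule.mem_bot, Submodule.mkQ_apply, Submodule.Quotient.mk_eq_zero]

open scoped Classical in
/-- the subspaces with given intersection with `E` -/
theorem sum_wsub (E₁ : Submodule F E) (G : Submodule F (V × E) → ℂ) :
    ∑ W ∈ Finset.univ.filter
      (fun W : Submodule F (V × E) => W.comap (LinearMap.inr F V E) = E₁), G W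
      = ∑ V₁ : Submodule F V, ∑ φ : V₁ →ₗ[F] (E ⧸ E₁), G (wsub E₁ (gr V₁ φ)) := by
  have hsur : Function.Surjective (LinearMap.prodMap (LinearMap.id : V →ₗ[F] V) E₁.mkQ) :=
    Function.Surjective.prodMap Function.surjective_id E₁.mkQ_surjective
  rw [← sum_gr (fun W' => G (wsub E₁ W'))]
  symm
  apply Finset.sum_bij (fun W' _ => wsub E₁ W')
  · intro W' hW'
    rw [Finset.mem_filter] at hW' ⊢
    exact ⟨Finset.mem_univ _, wsub_comap E₁ W' hW'.2⟩
  · intro W' _ W'' _ h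
    exact Submodule.comap_injective_of_surjective hsur h
  · intro W hW
    have hW2 := (Finset.mem_filter.mp hW).2
    refine ⟨W.map (LinearMap.prodMap LinearMap.id E₁.mkQ), ?_, ?_⟩
    · rw [Finset.mem_filter]
      refine ⟨Finset.mem_univ _, ?_⟩
      rw [eq_bot_iff]
      intro q hq
      obtain ⟨⟨v, e'⟩, hw, hwe⟩ := hq
      have h1 : v = 0 := congrArg Prod.fst hwe
      have h2 : E₁.mkQ e' = q := congrArg Prod.snd hwe
      subst h1
      have h3 : e' ∈ W.comap (LinearMap.inr F V E) := hw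
      rw [hW2] at h3
      rw [Submodule.mem_bot, ← h2]
      exact (Submodule.Quotient.mk_eq_zero _).mpr h3
    · unfold wsub
      rw [Submodule.comap_map_eq, sup_eq_left]
      rintro ⟨v, e⟩ hk
      have h1 : v = 0 := congrArg Prod.fst (LinearMap.mem_ker.mp hk)
      have h2 : E₁.mkQ e = 0 := congrArg Prod.snd (LinearMap.mem_ker.mp hk)
      subst h1
      have h3 : e ∈ E₁ := (Submodule.Quotient.mk_eq_zero _).mp h2
      rw [← hW2] at h3
      exact h3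
  · intro _ _
    rfl

/-- the shear -/
theorem sum_shear {f g : CF F} (hf : IsoInv f) (hg : IsoInv g) (a : E →ₗ[F] E)
    (x : V →ₗ[F] V) (E₁ : Submodule F E) (V₁ : Submodule F V) (φ : V₁ →ₗ[F] (E ⧸ E₁)) :
    ∑ X : V →ₗ[F] E, term f g (blk a X x) (wsub E₁ (gr V₁ φ))
      = ∑ X : V →ₗ[F] E, term f g (blk a X x) (V₁.prod E₁) := by
  obtain ⟨ψ', hψ'⟩ := LinearMap.exists_extend φ
  obtain ⟨s, hs⟩ := E₁.mkQ.exists_rightInverse_of_surjective (Submodule.range_mkQ _)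
  have hs' : ∀ q, E₁.mkQ (s q) = q := fun q => LinearMap.congr_fun hs q
  set ψ : V →ₗ[F] E := s ∘ₗ ψ' with hψdef
  have hψ : ∀ v : V₁, E₁.mkQ (ψ v) = φ v := by
    intro v
    rw [hψdef, LinearMap.comp_apply, hs']
    exact LinearMap.congr_fun hψ' v
  rw [← Equiv.sum_comp (Equiv.addRight (a ∘ₗ ψ - ψ ∘ₗ x))
    (fun X => term f g (blk a X x) (V₁.prod E₁))]
  apply Finset.sum_congr rfl
  intro X _
  rw [Equiv.coe_addRight]
  rw [term_congr hf hg (nsh ψ) (blk a (X + (a ∘ₗ ψ - ψ ∘ₗ x)) x) (blk a X x) (by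
    intro v
    simp only [nsh_apply, blk_apply, LinearMap.add_apply, LinearMap.sub_apply,
      LinearMap.comp_apply, map_add]
    congr 1
    abel) (V₁.prod E₁)]
  congr 1
  ext ⟨v, e⟩
  rw [mem_wsub]
  constructor
  · rintro ⟨u, hu⟩
    have h1 : (u : V) = v := congrArg Prod.fst hu
    have h2 : φ u = E₁.mkQ e := congrArg Prod.snd hu
    refine ⟨((u : V), e - ψ u), ⟨u.2, ?_⟩, ?_⟩
    · show e - ψ u ∈ E₁
      rw [← Submodule.Quotient.mk_eq_zero, Submodule.Quotient.mk_sub, sub_eq_zero]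
      exact h2.symm.trans (hψ u).symm
    · show nsh ψ ((u : V), e - ψ u) = (v, e)
      rw [nsh_apply, ← h1]
      simp
  · rintro ⟨⟨w, z⟩, ⟨hw, hz⟩, hwz⟩
    refine ⟨⟨w, hw⟩, ?_⟩
    have h1 : nsh ψ (w, z) = (v, e) := hwz
    rw [nsh_apply] at h1
    have h2 : w = v := congrArg Prod.fst h1
    have h3 : ψ w + z = e := congrArg Prod.snd h1
    have hz' : E₁.mkQ z = 0 := (Submodule.Quotient.mk_eq_zero _).mpr hz
    apply Prod.ext
    · exact h2
    · show φ ⟨w, hw⟩ = E₁.mkQ e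
      rw [← h3, map_add, hz', add_zero]
      exact (hψ ⟨w, hw⟩).symm

/-- the sum over the product of two stable subspaces -/
theorem sum_prod {f g : CF F} (hf : IsoInv f) (hg : IsoInv g) (a : E →ₗ[F] E)
    (x : V →ₗ[F] V) (E₁ : Submodule F E) (V₁ : Submodule F V) (h1 : E₁ ≤ E₁.comap a)
    (h2 : V₁ ≤ V₁.comap x) :
    ∑ X : V →ₗ[F] E, term f g (blk a X x) (V₁.prod E₁)
      = (Fintype.card ((V ⧸ V₁) →ₗ[F] E₁) : ℂ) *
        ((∑ X₁ : V₁ →ₗ[F] E₁, f (V₁ × E₁) (blk (a.restrict h1) X₁ (x.restrict h2))) *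
          ∑ X₂ : (V ⧸ V₁) →ₗ[F] (E ⧸ E₁), g ((V ⧸ V₁) × (E ⧸ E₁))
            (blk (E₁.mapQ E₁ a h1) X₂ (V₁.mapQ V₁ x h2))) := by
  obtain ⟨r, hr⟩ := V₁.subtype.exists_leftInverse_of_injective (by rw [Submodule.ker_subtype])
  have hr' : ∀ w : V₁, r w = w := fun w => LinearMap.congr_fun hr w
  obtain ⟨s, hs⟩ := E₁.mkQ.exists_rightInverse_of_surjective (Submodule.range_mkQ _)
  have hs' : ∀ q, E₁.mkQ (s q) = q := fun q => LinearMap.congr_fun hs q
  have hV : ∀ v : V₁, V₁.mkQ (v : V) = 0 := fun v => (Submodule.Quotient.mk_eq_zero _).mpr v.2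
  have hE : ∀ v : E₁, E₁.mkQ (v : E) = 0 := fun v => (Submodule.Quotient.mk_eq_zero _).mpr v.2
  let mk : (V₁ →ₗ[F] E₁) × ((V ⧸ V₁) →ₗ[F] (E ⧸ E₁)) × ((V ⧸ V₁) →ₗ[F] E₁) → (V →ₗ[F] E) :=
    fun t => E₁.subtype ∘ₗ t.1 ∘ₗ r + s ∘ₗ t.2.1 ∘ₗ V₁.mkQ + E₁.subtype ∘ₗ t.2.2 ∘ₗ V₁.mkQ
  have P0 : ∀ t v, mk t v = (t.1 (r v) : E) + s (t.2.1 (V₁.mkQ v)) + (t.2.2 (V₁.mkQ v) : E) :=
    fun t v => rfl
  have P1 : ∀ t (v : V₁), mk t (v : V) = (t.1 v : E) := by
    intro t v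
    rw [P0, hV, hr', map_zero, map_zero, map_zero]
    simp
  have P2 : ∀ t (v : V), E₁.mkQ (mk t v) = t.2.1 (V₁.mkQ v) := by
    intro t v
    rw [P0, map_add, map_add, hE, hE, hs', zero_add, add_zero]
  have e1 : (Fintype.card ((V ⧸ V₁) →ₗ[F] E₁) : ℂ) *
        ((∑ X₁ : V₁ →ₗ[F] E₁, f (V₁ × E₁) (blk (a.restrict h1) X₁ (x.restrict h2))) *
          ∑ X₂ : (V ⧸ V₁) →ₗ[F] (E ⧸ E₁), g ((V ⧸ V₁) × (E ⧸ E₁))
            (blk (E₁.mapQ E₁ a h1) X₂ (V₁.mapQ V₁ x h2)))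
      = ∑ t : (V₁ →ₗ[F] E₁) × ((V ⧸ V₁) →ₗ[F] (E ⧸ E₁)) × ((V ⧸ V₁) →ₗ[F] E₁),
        f (V₁ × E₁) (blk (a.restrict h1) t.1 (x.restrict h2)) *
          g ((V ⧸ V₁) × (E ⧸ E₁)) (blk (E₁.mapQ E₁ a h1) t.2.1 (V₁.mapQ V₁ x h2)) := by
    rw [Fintype.sum_prod_type, Finset.sum_mul_sum, Finset.mul_sum]
    apply Finset.sum_congr rfl
    intro X₁ _
    rw [Fintype.sum_prod_type, Finset.mul_sum]
    apply Finset.sum_congr rfl
    intro X₂ _
    simp only [Finset.sum_const, Finset.card_univ, nsmul_eq_mul]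
  rw [e1]
  symm
  refine Finset.sum_of_injOn mk ?_ (fun _ _ => Finset.mem_coe.mpr (Finset.mem_univ _)) ?_ ?_
  · rintro t _ t' _ htt
    have q1 : t.1 = t'.1 := by
      apply LinearMap.ext
      intro v
      apply Subtype.ext
      rw [← P1, ← P1, htt]
    have q2 : t.2.1 = t'.2.1 := by
      apply LinearMap.ext
      intro q
      obtain ⟨v, rfl⟩ := V₁.mkQ_surjective q
      rw [← P2, ← P2, htt]
    have q3 : t.2.2 = t'.2.2 := by
      apply LinearMap.ext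
      intro q
      obtain ⟨v, rfl⟩ := V₁.mkQ_surjective q
      apply Subtype.ext
      have h3 := LinearMap.congr_fun htt v
      rw [P0, P0, q1, q2] at h3
      exact add_left_cancel h3
    exact Prod.ext q1 (Prod.ext q2 q3)
  · intro X _ hX
    apply term_of_not
    intro hst
    apply hX
    have hXV : V₁ ≤ E₁.comap X := by
      intro v hv
      have h3 : (v, (0 : E)) ∈ V₁.prod E₁ := ⟨hv, E₁.zero_mem⟩
      have h4 := (hst h3).2
      rw [blk_apply] at h4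
      rw [Submodule.mem_comap]
      simpa using h4
    let X₁ : V₁ →ₗ[F] E₁ := X.restrict hXV
    let X₂ : (V ⧸ V₁) →ₗ[F] (E ⧸ E₁) := V₁.mapQ E₁ X hXV
    have hZ : ∀ v, X v - (X₁ (r v) : E) - s (X₂ (V₁.mkQ v)) ∈ E₁ := by
      intro v
      rw [← Submodule.Quotient.mk_eq_zero]
      show E₁.mkQ _ = 0
      rw [map_sub, map_sub, hE, hs', sub_zero]
      exact sub_self _
    let Z : V →ₗ[F] E₁ := (X - E₁.subtype ∘ₗ X₁ ∘ₗ r - s ∘ₗ X₂ ∘ₗ V₁.mkQ).codRestrict E₁ hZ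
    have hZV : V₁ ≤ LinearMap.ker Z := by
      intro v hv
      rw [LinearMap.mem_ker]
      apply Subtype.ext
      show X v - (X₁ (r v) : E) - s (X₂ (V₁.mkQ v)) = 0
      have h5 : V₁.mkQ v = 0 := hV ⟨v, hv⟩
      have h6 : r v = ⟨v, hv⟩ := hr' ⟨v, hv⟩
      rw [h5, h6, map_zero, map_zero, sub_zero]
      exact sub_self _
    refine ⟨(X₁, X₂, V₁.liftQ Z hZV), Finset.mem_coe.mpr (Finset.mem_univ _), ?_⟩
    apply LinearMap.ext
    intro v
    rw [P0]
    have h7 : ((V₁.liftQ Z hZV (V₁.mkQ v) : E₁) : E) = X v - (X₁ (r v) : E) - s (X₂ (V₁.mkQ v)) := rfl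
    show (X₁ (r v) : E) + s (X₂ (V₁.mkQ v)) + ((V₁.liftQ Z hZV (V₁.mkQ v) : E₁) : E) = X v
    rw [h7]
    abel
  · intro t _
    symm
    apply term_exact hf hg (V₁.subtype.prodMap E₁.subtype)
      (Function.Injective.prodMap V₁.injective_subtype E₁.injective_subtype)
      (V₁.mkQ.prodMap E₁.mkQ)
      (Function.Surjective.prodMap V₁.mkQ_surjective E₁.mkQ_surjective)
    · rw [LinearMap.range_prodMap, Submodule.range_subtype, Submodule.range_subtype]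
    · rw [LinearMap.ker_prodMap, Submodule.ker_mkQ, Submodule.ker_mkQ]
    · intro u
      apply Prod.ext
      · rfl
      · show ((t.1 u.1 + (a.restrict h1) u.2 : E₁) : E) = mk t (u.1 : V) + a (u.2 : E)
        rw [P1]
        rfl
    · intro v
      apply Prod.ext
      · rfl
      · show E₁.mkQ (mk t v.1 + a v.2) = t.2.1 (V₁.mkQ v.1) + (E₁.mapQ E₁ a h1) (E₁.mkQ v.2)
        rw [map_add, P2]
        rfl

theorem sum_prod_not {f g : CF F} (a : E →ₗ[F] E)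
    (x : V →ₗ[F] V) (E₁ : Submodule F E) (V₁ : Submodule F V)
    (h : ¬ (E₁ ≤ E₁.comap a ∧ V₁ ≤ V₁.comap x)) :
    ∑ X : V →ₗ[F] E, term f g (blk a X x) (V₁.prod E₁) = 0 := by
  apply Finset.sum_eq_zero
  intro X _
  apply term_of_not
  intro hst
  apply h
  constructor
  · intro e he
    have h3 : ((0 : V), e) ∈ V₁.prod E₁ := ⟨V₁.zero_mem, he⟩
    have h4 := (hst h3).2
    rw [blk_apply] at h4
    rw [Submodule.mem_comap]
    simpa using h4
  · intro v hv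
    have h3 : (v, (0 : E)) ∈ V₁.prod E₁ := ⟨hv, E₁.zero_mem⟩
    exact (hst h3).1

theorem card_hom_four (E₁ : Submodule F E) (V₁ : Submodule F V) :
    Fintype.card (V →ₗ[F] E) = Fintype.card (V₁ →ₗ[F] E₁) * Fintype.card ((V ⧸ V₁) →ₗ[F] E₁) *
      (Fintype.card (V₁ →ₗ[F] (E ⧸ E₁)) * Fintype.card ((V ⧸ V₁) →ₗ[F] (E ⧸ E₁))) := by
  have h1 : ∀ (A B : Type) [AddCommGroup A] [Module F A] [FiniteDimensional F A]
      [AddCommGroup B] [Module F B] [FiniteDimensional F B],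
      Fintype.card (A →ₗ[F] B) = Fintype.card F ^ (finrank F A * finrank F B) := by
    intro A B _ _ _ _ _ _
    rw [Module.card_eq_pow_finrank (K := F), Module.finrank_linearMap]
  rw [h1, h1, h1, h1, h1, ← pow_add, ← pow_add, ← pow_add]
  congr 1
  rw [← Submodule.finrank_quotient_add_finrank V₁, ← Submodule.finrank_quotient_add_finrank E₁]
  ring

open scoped Classical in
/-- the Hopf axiom: the constant term of a product -/
theorem hopf {f g : CF F} (hf : IsoInv f) (hg : IsoInv g) (a : E →ₗ[F] E) (x : V →ₗ[F] V) :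
    del (mul f g) a x = ∑ E₁ : Submodule F E, ∑ V₁ : Submodule F V,
      if h : E₁ ≤ E₁.comap a ∧ V₁ ≤ V₁.comap x then
        del f (a.restrict h.1) (x.restrict h.2) *
          del g (E₁.mapQ E₁ a h.1) (V₁.mapQ V₁ x h.2) else 0 := by
  have e0 : del (mul f g) a x = (Fintype.card (V →ₗ[F] E) : ℂ)⁻¹ *
      ∑ E₁ : Submodule F E, ∑ V₁ : Submodule F V, ∑ φ : V₁ →ₗ[F] (E ⧸ E₁),
        ∑ X : V →ₗ[F] E, term f g (blk a X x) (wsub E₁ (gr V₁ φ)) := by
    unfold del mul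
    congr 1
    rw [Finset.sum_comm]
    rw [← Finset.sum_fiberwise_of_maps_to (s := Finset.univ) (t := Finset.univ)
      (g := fun W : Submodule F (V × E) => W.comap (LinearMap.inr F V E))
      (fun _ _ => Finset.mem_univ _)]
    apply Finset.sum_congr rfl
    intro E₁ _
    exact sum_wsub E₁ (fun W => ∑ X : V →ₗ[F] E, term f g (blk a X x) W)
  rw [e0, Finset.mul_sum]
  apply Finset.sum_congr rfl
  intro E₁ _
  rw [Finset.mul_sum]
  apply Finset.sum_congr rfl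
  intro V₁ _
  simp only [sum_shear hf hg, Finset.sum_const, Finset.card_univ, nsmul_eq_mul]
  split_ifs with h
  · rw [sum_prod hf hg a x E₁ V₁ h.1 h.2, card_hom_four E₁ V₁]
    have c1 : (Fintype.card (V₁ →ₗ[F] E₁) : ℂ) ≠ 0 := by
      exact_mod_cast (Fintype.card_ne_zero : Fintype.card (V₁ →ₗ[F] E₁) ≠ 0)
    have c2 : (Fintype.card ((V ⧸ V₁) →ₗ[F] E₁) : ℂ) ≠ 0 := by
      exact_mod_cast (Fintype.card_ne_zero : Fintype.card ((V ⧸ V₁) →ₗ[F] E₁) ≠ 0)
    have c3 : (Fintype.card (V₁ →ₗ[F] (E ⧸ E₁)) : ℂ) ≠ 0 := by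
      exact_mod_cast (Fintype.card_ne_zero : Fintype.card (V₁ →ₗ[F] (E ⧸ E₁)) ≠ 0)
    have c4 : (Fintype.card ((V ⧸ V₁) →ₗ[F] (E ⧸ E₁)) : ℂ) ≠ 0 := by
      exact_mod_cast (Fintype.card_ne_zero : Fintype.card ((V ⧸ V₁) →ₗ[F] (E ⧸ E₁)) ≠ 0)
    unfold del
    push_cast
    field_simp
  · rw [sum_prod_not a x E₁ V₁ h, mul_zero, mul_zero]

end hopf

end Vale.Agent.P275.H452
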