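import Vale.Agent.P275.H341.Ps

/-!
# Two-term asymptotic expansions
-/

set_option linter.unusedSectionVars false

namespace Vale.Agent.P275.H452

open scoped BigOperators Topology
open Filter

/-- `f q = q ^ N (a + b / q + o(1 / q))` along the natural numbers -/
def As (f : ℂ → ℂ) (N : ℤ) (a b : ℂ) : Prop :=
  Tendsto (fun x : ℕ => (x : ℂ) * (f x * (x : ℂ) ^ (-N) - a)) atTop (𝓝 b)

theorem tinv : Tendsto (fun x : ℕ => ((x : ℂ))⁻¹) atTop (𝓝 0) :=
  tendsto_inv_atTop_nhds_zero_nat (𝕜 := ℂ)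

theorem ev_ne : ∀ᶠ x : ℕ in atTop, (x : ℂ) ≠ 0 := by
  filter_upwards [eventually_gt_atTop 0] with x hx
  exact_mod_cast hx.ne'

theorem As.lead {f : ℂ → ℂ} {N : ℤ} {a b : ℂ} (h : As f N a b) :
    Tendsto (fun x : ℕ => f x * (x : ℂ) ^ (-N)) atTop (𝓝 a) := by
  have h1 := (tinv.mul h).add_const a
  rw [zero_mul, zero_add] at h1
  apply h1.congr'
  filter_upwards [ev_ne] with x hx
  rw [← mul_assoc, inv_mul_cancel₀ hx, one_mul, sub_add_cancel]

theorem As.congr {f g : ℂ → ℂ} {N : ℤ} {a b : ℂ} (h : As f N a b)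
    (hfg : ∀ᶠ x : ℕ in atTop, f x = g x) : As g N a b := by
  unfold As at h ⊢
  apply h.congr'
  filter_upwards [hfg] with x hx
  rw [hx]

theorem As.add {f g : ℂ → ℂ} {N : ℤ} {a b a' b' : ℂ} (h : As f N a b) (h' : As g N a' b') :
    As (fun q => f q + g q) N (a + a') (b + b') := by
  have h1 := Tendsto.add h h'
  unfold As
  apply h1.congr
  intro x
  ring

theorem As.zero (N : ℤ) : As (fun _ => 0) N 0 0 := by
  unfold As
  simp

theorem As.sum {ι : Type*} (s : Finset ι) {f : ι → ℂ → ℂ} {N : ℤ} {a b : ι → ℂ}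
    (h : ∀ i ∈ s, As (f i) N (a i) (b i)) :
    As (fun q => ∑ i ∈ s, f i q) N (∑ i ∈ s, a i) (∑ i ∈ s, b i) := by
  classical
  induction s using Finset.induction_on with
  | empty => simpa using As.zero N
  | insert i s hi ih =>
    simp only [Finset.sum_insert hi]
    exact (h i (Finset.mem_insert_self i s)).add
      (ih fun j hj => h j (Finset.mem_insert_of_mem hj))

theorem As.mul {f g : ℂ → ℂ} {N M : ℤ} {a b a' b' : ℂ} (h : As f N a b) (h' : As g M a' b') :
    As (fun q => f q * g q) (N + M) (a * a') (b * a' + a * b') := by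
  have h1 := (Tendsto.mul h h'.lead).add (Tendsto.const_mul a h')
  unfold As
  apply h1.congr'
  filter_upwards [ev_ne] with x hx
  rw [neg_add, zpow_add₀ hx]
  ring

theorem As.const_mul (c : ℂ) {f : ℂ → ℂ} {N : ℤ} {a b : ℂ} (h : As f N a b) :
    As (fun q => c * f q) N (c * a) (c * b) := by
  have h1 := Tendsto.const_mul c h
  unfold As
  apply h1.congr
  intro x
  ring

theorem As.one : As (fun _ => 1) 0 1 0 := by
  unfold As
  simp

theorem As.prod {ι : Type*} (s : Finset ι) {f : ι → ℂ → ℂ} {N : ι → ℤ} {b : ι → ℂ}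
    (h : ∀ i ∈ s, As (f i) (N i) 1 (b i)) :
    As (fun q => ∏ i ∈ s, f i q) (∑ i ∈ s, N i) 1 (∑ i ∈ s, b i) := by
  classical
  induction s using Finset.induction_on with
  | empty => simpa using As.one
  | insert i s hi ih =>
    simp only [Finset.prod_insert hi, Finset.sum_insert hi]
    have h1 := (h i (Finset.mem_insert_self i s)).mul
      (ih fun j hj => h j (Finset.mem_insert_of_mem hj))
    simpa using h1

theorem As.pow {f : ℂ → ℂ} {N : ℤ} {b : ℂ} (h : As f N 1 b) (e : ℕ) :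
    As (fun q => f q ^ e) (e * N) 1 (e * b) := by
  have h1 := As.prod (Finset.range e) (f := fun _ => f) (N := fun _ => N) (b := fun _ => b)
    (fun _ _ => h)
  simpa using h1

theorem As.inv {f : ℂ → ℂ} {N : ℤ} {b : ℂ} (h : As f N 1 b) :
    As (fun q => (f q)⁻¹) (-N) 1 (-b) := by
  have h0 := h.lead
  have h1 : Tendsto (fun x : ℕ => (f x * (x : ℂ) ^ (-N))⁻¹) atTop (𝓝 (1 : ℂ)) := by
    have := h0.inv₀ one_ne_zero
    rwa [inv_one] at this
  have h2 : ∀ᶠ x : ℕ in atTop, f x * (x : ℂ) ^ (-N) ≠ 0 :=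
    h0.eventually_ne one_ne_zero
  have h3 := (Tendsto.mul h h1).neg
  rw [mul_one] at h3
  unfold As
  apply h3.congr'
  filter_upwards [ev_ne, h2] with x hx hx2
  have h4 : (f x)⁻¹ * (x : ℂ) ^ (-(-N)) = (f x * (x : ℂ) ^ (-N))⁻¹ := by
    rw [mul_inv, neg_neg, zpow_neg, inv_inv]
  rw [h4]
  set G := f x * (x : ℂ) ^ (-N)
  field_simp
  ring

theorem As.div {f g : ℂ → ℂ} {N M : ℤ} {b b' : ℂ} (h : As f N 1 b) (h' : As g M 1 b') :
    As (fun q => f q / g q) (N - M) 1 (b - b') := by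
  have h1 := h.mul h'.inv
  simp only [mul_one, one_mul, ← sub_eq_add_neg] at h1
  exact h1

theorem As.lower {f : ℂ → ℂ} {N N' : ℤ} {a b : ℂ} (h : As f N a b) (hN : N + 2 ≤ N') :
    As f N' 0 0 := by
  obtain ⟨k, hk⟩ : ∃ k : ℕ, N' = N + 1 + ((k : ℤ) + 1) := ⟨(N' - N - 2).toNat, by omega⟩
  have h1 := h.lead.mul (tinv.pow (k + 1))
  rw [zero_pow (Nat.succ_ne_zero k), mul_zero] at h1
  unfold As
  apply h1.congr'
  filter_upwards [ev_ne] with x hx
  rw [sub_zero, hk, neg_add, neg_add, zpow_add₀ hx, zpow_add₀ hx, zpow_neg_one,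
    show (-((k : ℤ) + 1)) = -(((k + 1 : ℕ) : ℤ)) from by push_cast; ring, zpow_neg (x : ℂ)
      ((k + 1 : ℕ) : ℤ), zpow_natCast, inv_pow]
  field_simp

theorem As.sub_pow {j k : ℕ} (hjk : j < k) :
    As (fun q => q ^ k - q ^ j) k 1 (if k = j + 1 then -1 else 0) := by
  obtain ⟨t, rfl⟩ : ∃ t, k = j + 1 + t := ⟨k - j - 1, by omega⟩
  have h1 := (tinv.pow t).neg
  have h2 : -((0 : ℂ) ^ t) = if j + 1 + t = j + 1 then -1 else 0 := by
    rcases Nat.eq_zero_or_pos t with h | h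
    · subst h
      simp
    · rw [zero_pow h.ne', neg_zero, if_neg (by omega)]
  rw [h2] at h1
  unfold As
  apply h1.congr'
  filter_upwards [ev_ne] with x hx
  have h3 : (x : ℂ) ^ (j + 1 + t) ≠ 0 := pow_ne_zero _ hx
  rw [zpow_neg, zpow_natCast, inv_pow]
  have h4 : (x : ℂ) ^ (j + 1 + t) = x ^ j * x * x ^ t := by rw [pow_add, pow_add, pow_one]
  have h5 : (x : ℂ) ^ j ≠ 0 := pow_ne_zero _ hx
  have h6 : (x : ℂ) ^ t ≠ 0 := pow_ne_zero _ hx
  rw [h4]
  field_simp
  ring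

theorem As.id_pow (k : ℕ) : As (fun q => q ^ k) k 1 0 := by
  unfold As
  apply tendsto_const_nhds.congr'
  filter_upwards [ev_ne] with x hx
  rw [zpow_neg, zpow_natCast, mul_inv_cancel₀ (pow_ne_zero _ hx), sub_self, mul_zero]

end Vale.Agent.P275.H452
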