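import Vale.Agent.P275.H452.Adj
import Vale.Agent.P275.H452.Hopf

/-!
# The Leibniz rule for the adjoint operators
-/

set_option linter.style.haveILetI false
set_option linter.unusedSectionVars false
set_option linter.unusedVariables false

namespace Vale.Agent.P275.H452

open scoped BigOperators MatrixGroups
open Module Matrix Vale.Agent.P275.H85

variable {F : Type} [Field F] [Fintype F] [DecidableEq F]

/-- the coproduct of a family -/
def Cop {ι : Type} (I : Finset ι) (h : CF F) (h' h'' : ι → CF F) : Prop :=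
  ∀ (V E : Type) [AddCommGroup V] [Module F V] [FiniteDimensional F V]
    [AddCommGroup E] [Module F E] [FiniteDimensional F E] (a : E →ₗ[F] E) (x : V →ₗ[F] V),
    del h a x = ∑ i ∈ I, h' i E a * h'' i V x

theorem cop_dl {ι : Type} {I : Finset ι} {h : CF F} {h' h'' : ι → CF F} (hc : Cop I h h' h'') :
    Cop I (dl h) (fun i => dl (h' i)) (fun i => dl (h'' i)) := by
  intro V E _ _ _ _ _ _ a x
  by_cases ha : IsUnit a
  · by_cases hx : IsUnit x
    · obtain ⟨a', ha1, ha2⟩ := exists_inv ha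
      obtain ⟨x', hx1, hx2⟩ := exists_inv hx
      rw [del_dl h ha1 ha2 hx1 hx2, hc]
      apply Finset.sum_congr rfl
      intro i _
      show _ = dl (h' i) E a * dl (h'' i) V x
      rw [dl_of _ ha1 ha2, dl_of _ hx1 hx2]
    · rw [del_uz (fun V _ _ _ φ hφ => dl_not h hφ) (Or.inr hx), Finset.sum_eq_zero]
      intro i _
      show dl (h' i) E a * dl (h'' i) V x = 0
      rw [dl_not _ hx, mul_zero]
  · rw [del_uz (fun V _ _ _ φ hφ => dl_not h hφ) (Or.inl ha), Finset.sum_eq_zero]
    intro i _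
    show dl (h' i) E a * dl (h'' i) V x = 0
    rw [dl_not _ ha, zero_mul]

theorem pair_mul {ι : Type} {I : Finset ι} {e : ℕ} {H : CF F} {H' H'' : ι → CF F}
    {e' e'' : ι → ℕ} (hH : IsoInv H) (hc : Cop I H H' H'') (s' : ∀ i ∈ I, Supp (e' i) (H' i))
    (he : ∀ i ∈ I, e'' i + e' i = e) {f g : CF F} (hf : IsoInv f) (hg : IsoInv g) :
    (Fintype.card (GL (Fin e) F) : ℂ)⁻¹ * ∑ a : (Fin e → F) →ₗ[F] (Fin e → F),
        H _ a * mul f g _ a =
      ∑ i ∈ I, ((Fintype.card (GL (Fin (e' i)) F) : ℂ)⁻¹ *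
        ∑ a : (Fin (e' i) → F) →ₗ[F] (Fin (e' i) → F), H' i _ a * f _ a) *
        ((Fintype.card (GL (Fin (e'' i)) F) : ℂ)⁻¹ *
        ∑ a : (Fin (e'' i) → F) →ₗ[F] (Fin (e'' i) → F), H'' i _ a * g _ a) := by
  classical
  set S' : ι → ℂ := fun i => ∑ a : (Fin (e' i) → F) →ₗ[F] (Fin (e' i) → F), H' i _ a * f _ a
    with hS'
  set S'' : ι → ℂ := fun i => ∑ a : (Fin (e'' i) → F) →ₗ[F] (Fin (e'' i) → F), H'' i _ a * g _ a
    with hS''
  have e1 : ∑ a : (Fin e → F) →ₗ[F] (Fin e → F), H _ a * mul f g _ a =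
      ∑ K : Submodule F (Fin e → F), ∑ a : (Fin e → F) →ₗ[F] (Fin e → F),
        term f g a K * H _ a := by
    rw [Finset.sum_comm]
    apply Finset.sum_congr rfl
    intro a _
    unfold mul
    rw [Finset.mul_sum]
    apply Finset.sum_congr rfl
    intro K _
    ring
  have e2 : ∀ K : Submodule F (Fin e → F), ∑ a : (Fin e → F) →ₗ[F] (Fin e → F),
        term f g a K * H _ a = ∑ i ∈ I, if finrank F K = e' i then
          ((Fintype.card F : ℂ) ^ (e'' i * e' i) * (S' i * S'' i)) else 0 := by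
    intro K
    obtain ⟨d, hd⟩ : ∃ d, d + finrank F K = e := by
      have := Submodule.finrank_quotient_add_finrank K
      rw [Module.finrank_fin_fun] at this
      exact ⟨_, this⟩
    obtain ⟨k, hk⟩ : ∃ k, k = finrank F K := ⟨_, rfl⟩
    rw [← hk] at hd
    rw [sum_stab (V := Fin d → F) (E := Fin k → F) hf hg hH K (by simp [hk]) (by simp [← hd])]
    have e3 : ∀ (a : (Fin k → F) →ₗ[F] (Fin k → F)) (x : (Fin d → F) →ₗ[F] (Fin d → F)),
        ∑ X : (Fin d → F) →ₗ[F] (Fin k → F), f _ a * g _ x * H _ (blk a X x) =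
        (Fintype.card F : ℂ) ^ (d * k) * ∑ i ∈ I, (H' i _ a * f _ a) * (H'' i _ x * g _ x) := by
      intro a x
      have h1 := hc (Fin d → F) (Fin k → F) a x
      unfold del at h1
      rw [card_hom] at h1
      have hq : ((Fintype.card F : ℂ) ^ (d * k)) ≠ 0 :=
        pow_ne_zero _ (by exact_mod_cast (Fintype.card_ne_zero : Fintype.card F ≠ 0))
      push_cast at h1
      rw [inv_mul_eq_iff_eq_mul₀ hq] at h1
      rw [← Finset.mul_sum, h1, mul_left_comm]
      congr 1
      rw [Finset.mul_sum]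
      apply Finset.sum_congr rfl
      intro i _
      ring
    simp only [e3]
    simp only [← Finset.mul_sum]
    have e4 : ∑ a : (Fin k → F) →ₗ[F] (Fin k → F), ∑ x : (Fin d → F) →ₗ[F] (Fin d → F),
        ∑ i ∈ I, (H' i _ a * f _ a) * (H'' i _ x * g _ x) =
        ∑ i ∈ I, (∑ a : (Fin k → F) →ₗ[F] (Fin k → F), H' i _ a * f _ a) *
          ∑ x : (Fin d → F) →ₗ[F] (Fin d → F), H'' i _ x * g _ x := by
      rw [Finset.sum_congr rfl (fun a _ => Finset.sum_comm)]
      rw [Finset.sum_comm]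
      apply Finset.sum_congr rfl
      intro i _
      rw [Finset.sum_mul_sum]
    rw [e4, Finset.mul_sum]
    apply Finset.sum_congr rfl
    intro i hi
    by_cases h2 : k = e' i
    · rw [if_pos (by rw [← hk]; exact h2)]
      have h3 : d = e'' i := by
        have := he i hi
        omega
      subst h2 h3
      rfl
    · rw [if_neg (by rw [← hk]; exact h2)]
      have h3 : ∑ a : (Fin k → F) →ₗ[F] (Fin k → F), H' i _ a * f _ a = 0 := by
        apply Finset.sum_eq_zero
        intro a _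
        rw [s' i hi _ a (Or.inl (by rw [Module.finrank_fin_fun]; exact h2)), zero_mul]
      rw [h3, zero_mul, mul_zero]
  rw [e1, Finset.sum_congr rfl (fun K _ => e2 K), Finset.sum_comm, Finset.mul_sum]
  apply Finset.sum_congr rfl
  intro i hi
  rw [← Finset.sum_filter, Finset.sum_const, nsmul_eq_mul]
  have e5 := card_split (F := F) (V' := Fin e → F) (e' i) (e'' i) e (he i hi) (by simp)
  have e6 : (Fintype.card (GL (Fin e) F) : ℂ) = (grc F (Fin e → F) (e' i) : ℂ) *
      ((Fintype.card (GL (Fin (e' i)) F) : ℂ) * (Fintype.card (GL (Fin (e'' i)) F) : ℂ) *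
        (Fintype.card F : ℂ) ^ (e'' i * e' i)) := by
    rw [e5]
    push_cast
    ring
  have e7 : (Fintype.card (GL (Fin e) F) : ℂ) ≠ 0 := Irr.card_ne
  have e8 : (Fintype.card (GL (Fin (e' i)) F) : ℂ) ≠ 0 := Irr.card_ne
  have e9 : (Fintype.card (GL (Fin (e'' i)) F) : ℂ) ≠ 0 := Irr.card_ne
  have e10 : ((Finset.univ.filter fun K : Submodule F (Fin e → F) => finrank F K = e' i).card : ℂ)
      = grc F (Fin e → F) (e' i) := by
    unfold grc
    congr!
  rw [e10]
  rw [inv_mul_eq_iff_eq_mul₀ e7]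
  rw [e6]
  field_simp
  ring

/-- the averaged restriction with fixed quotient part -/
noncomputable def slice (f : CF F) {V : Type} [AddCommGroup V] [Module F V]
    [FiniteDimensional F V] (x : V →ₗ[F] V) : CF F := fun _ _ _ _ a => del f a x

theorem slice_apply (f : CF F) {V : Type} [AddCommGroup V] [Module F V]
    [FiniteDimensional F V] (x : V →ₗ[F] V) (E : Type) [AddCommGroup E] [Module F E]
    [FiniteDimensional F E] (a : E →ₗ[F] E) : slice f x E a = del f a x := rfl

theorem inv_slice {f : CF F} (hf : IsoInv f) {V : Type} [AddCommGroup V] [Module F V]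
    [FiniteDimensional F V] (x : V →ₗ[F] V) : IsoInv (slice f x) :=
  fun _ _ _ _ _ _ _ _ e _ _ h => del_iso hf (LinearEquiv.refl F V) e (fun _ => rfl) h

/-- the Leibniz rule -/
theorem leib {ι : Type} {I : Finset ι} {e : ℕ} {h : CF F} {h' h'' : ι → CF F}
    {e' e'' : ι → ℕ} (hh : IsoInv h) (hc : Cop I h h' h'') (s' : ∀ i ∈ I, Supp (e' i) (h' i))
    (he : ∀ i ∈ I, e'' i + e' i = e) (P Q : RF F) :
    Dh e h (P * Q) = ∑ i ∈ I, Dh (e' i) (h' i) P * Dh (e'' i) (h'' i) Q := by
  classical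
  apply RF.ext'
  intro V _ _ _ x
  rw [v_sum, CF_sum, v_Dh]
  have e1 : ∀ a : (Fin e → F) →ₗ[F] (Fin e → F), del (P * Q).v a x =
      ∑ K : Submodule F V, if hK : K ≤ K.comap x then
        mul (slice P.v (x.restrict hK)) (slice Q.v (K.mapQ K x hK)) _ a else 0 := by
    intro a
    rw [v_mul, hopf P.inv Q.inv, Finset.sum_comm]
    apply Finset.sum_congr rfl
    intro K _
    by_cases hK : K ≤ K.comap x
    · rw [dif_pos hK]
      unfold mul
      apply Finset.sum_congr rfl
      intro E₁ _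
      by_cases hE : E₁ ≤ E₁.comap a
      · rw [dif_pos ⟨hE, hK⟩, term_of hE]
        rfl
      · rw [dif_neg (fun h => hE h.1), term_of_not hE]
    · rw [dif_neg hK]
      apply Finset.sum_eq_zero
      intro E₁ _
      rw [dif_neg (fun h => hK h.2)]
  simp only [e1, Finset.mul_sum]
  rw [Finset.sum_comm (s := (Finset.univ : Finset ((Fin e → F) →ₗ[F] (Fin e → F))))
    (t := (Finset.univ : Finset (Submodule F V)))]
  have e2 : ∀ i ∈ I, (Dh (e' i) (h' i) P * Dh (e'' i) (h'' i) Q).v V x =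
      ∑ K : Submodule F V, term (Dh (e' i) (h' i) P).v (Dh (e'' i) (h'' i) Q).v x K :=
    fun _ _ => rfl
  rw [Finset.sum_congr rfl e2, Finset.sum_comm (s := I)]
  apply Finset.sum_congr rfl
  intro K _
  by_cases hK : K ≤ K.comap x
  · simp only [dif_pos hK, term_of hK]
    rw [← Finset.mul_sum]
    have h3 := pair_mul (e := e) (inv_dl hh) (cop_dl hc) (e' := e') (e'' := e'')
      (fun i hi => supp_dl (s' i hi)) he
      (inv_slice P.inv (x.restrict hK)) (inv_slice Q.inv (K.mapQ K x hK))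
    rw [h3]
    rfl
  · simp only [dif_neg hK, term_of_not hK, mul_zero, Finset.sum_const_zero]

end Vale.Agent.P275.H452
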