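import Vale.Agent.P275.H510.Comm
import Vale.Agent.P275.H85.B12

/-!
# The ring of finitely supported class functions of all the groups `GL_n`
-/

set_option linter.style.haveILetI false
set_option linter.unusedSectionVars false
set_option linter.unusedVariables false

namespace Vale.Agent.P275.H452

open scoped BigOperators MatrixGroups
open Module Matrix Vale.Agent.P275.H85

variable {F : Type} [Field F] [Fintype F]

theorem CF_ext0 {f g : CF F} (h : ∀ (V : Type) [AddCommGroup V] [Module F V]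
    [FiniteDimensional F V] (φ : V →ₗ[F] V), f V φ = g V φ) : f = g := by
  funext V _ _ _ φ
  exact h V φ

noncomputable instance instAddCF : Add (CF F) := ⟨fun f g V _ _ _ φ => f V φ + g V φ⟩
noncomputable instance instZeroCF : Zero (CF F) := ⟨fun _ _ _ _ _ => 0⟩
noncomputable instance instNegCF : Neg (CF F) := ⟨fun f V _ _ _ φ => - f V φ⟩
noncomputable instance instSMulCF : SMul ℂ (CF F) := ⟨fun c f V _ _ _ φ => c * f V φ⟩

noncomputable instance instACG : AddCommGroup (CF F) where
  add_assoc f g h := CF_ext0 fun V _ _ _ φ => add_assoc _ _ _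
  zero_add f := CF_ext0 fun V _ _ _ φ => zero_add _
  add_zero f := CF_ext0 fun V _ _ _ φ => add_zero _
  add_comm f g := CF_ext0 fun V _ _ _ φ => add_comm _ _
  neg_add_cancel f := CF_ext0 fun V _ _ _ φ => neg_add_cancel _
  nsmul := nsmulRec
  zsmul := zsmulRec

noncomputable instance instMod : Module ℂ (CF F) where
  one_smul f := CF_ext0 fun V _ _ _ φ => one_mul _
  mul_smul c d f := CF_ext0 fun V _ _ _ φ => mul_assoc _ _ _
  smul_zero c := CF_ext0 fun V _ _ _ φ => mul_zero _
  smul_add c f g := CF_ext0 fun V _ _ _ φ => mul_add _ _ _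
  add_smul c d f := CF_ext0 fun V _ _ _ φ => add_mul _ _ _
  zero_smul f := CF_ext0 fun V _ _ _ φ => zero_mul _

theorem CF_add (f g : CF F) (V : Type) [AddCommGroup V] [Module F V] [FiniteDimensional F V]
    (φ : V →ₗ[F] V) : (f + g) V φ = f V φ + g V φ := rfl

theorem CF_smul (c : ℂ) (f : CF F) (V : Type) [AddCommGroup V] [Module F V]
    [FiniteDimensional F V] (φ : V →ₗ[F] V) : (c • f) V φ = c * f V φ := rfl

theorem CF_zero (V : Type) [AddCommGroup V] [Module F V] [FiniteDimensional F V]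
    (φ : V →ₗ[F] V) : (0 : CF F) V φ = 0 := rfl

/-- invariant families with finite support, supported on the automorphisms -/
def RFs (F : Type) [Field F] [Fintype F] : Submodule ℂ (CF F) where
  carrier := {f | IsoInv f ∧
    (∀ (V : Type) [AddCommGroup V] [Module F V] [FiniteDimensional F V] (φ : V →ₗ[F] V),
      ¬ IsUnit φ → f V φ = 0) ∧
    ∃ N : ℕ, ∀ (V : Type) [AddCommGroup V] [Module F V] [FiniteDimensional F V]
      (φ : V →ₗ[F] V), N < finrank F V → f V φ = 0}
  add_mem' := by
    rintro f g ⟨hf1, hf2, N, hf3⟩ ⟨hg1, hg2, M, hg3⟩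
    refine ⟨?_, ?_, max N M, ?_⟩
    · intro V W _ _ _ _ _ _ e φ ψ h
      rw [CF_add, CF_add, hf1 V W e φ ψ h, hg1 V W e φ ψ h]
    · intro V _ _ _ φ h
      rw [CF_add, hf2 V φ h, hg2 V φ h, add_zero]
    · intro V _ _ _ φ h
      rw [CF_add, hf3 V φ (lt_of_le_of_lt (le_max_left _ _) h),
        hg3 V φ (lt_of_le_of_lt (le_max_right _ _) h), add_zero]
  zero_mem' := ⟨fun _ _ _ _ _ _ _ _ _ _ _ _ => rfl, fun _ _ _ _ _ _ => rfl, 0,
    fun _ _ _ _ _ _ => rfl⟩
  smul_mem' := by
    rintro c f ⟨hf1, hf2, N, hf3⟩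
    refine ⟨?_, ?_, N, ?_⟩
    · intro V W _ _ _ _ _ _ e φ ψ h
      rw [CF_smul, CF_smul, hf1 V W e φ ψ h]
    · intro V _ _ _ φ h
      rw [CF_smul, hf2 V φ h, mul_zero]
    · intro V _ _ _ φ h
      rw [CF_smul, hf3 V φ h, mul_zero]

/-- the ring of finitely supported class functions of all the groups `GL_n` -/
def RF (F : Type) [Field F] [Fintype F] : Type 1 := RFs F

noncomputable instance instACGR : AddCommGroup (RF F) :=
  inferInstanceAs (AddCommGroup (RFs F))

noncomputable instance instModR : Module ℂ (RF F) :=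
  inferInstanceAs (Module ℂ (RFs F))

/-- the underlying family -/
def RF.v (x : RF F) : CF F := x.1

theorem RF.ext {x y : RF F} (h : x.v = y.v) : x = y := Subtype.ext h

theorem RF.ext' {x y : RF F} (h : ∀ (V : Type) [AddCommGroup V] [Module F V]
    [FiniteDimensional F V] (φ : V →ₗ[F] V), x.v V φ = y.v V φ) : x = y :=
  RF.ext (CF_ext0 h)

theorem RF.inv (x : RF F) : IsoInv x.v := x.2.1

theorem RF.uz (x : RF F) (V : Type) [AddCommGroup V] [Module F V] [FiniteDimensional F V]
    (φ : V →ₗ[F] V) (h : ¬ IsUnit φ) : x.v V φ = 0 := x.2.2.1 V φ h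

theorem RF.bd (x : RF F) : ∃ N : ℕ, ∀ (V : Type) [AddCommGroup V] [Module F V]
    [FiniteDimensional F V] (φ : V →ₗ[F] V), N < finrank F V → x.v V φ = 0 := x.2.2.2

theorem v_add (x y : RF F) : (x + y).v = x.v + y.v := rfl
theorem v_smul (c : ℂ) (x : RF F) : (c • x).v = c • x.v := rfl
theorem v_zero : (0 : RF F).v = 0 := rfl
theorem v_neg (x : RF F) : (-x).v = -x.v := rfl
theorem v_sub (x y : RF F) : (x - y).v = x.v - y.v := rfl

/-- the underlying family as a linear map -/
noncomputable def vL : RF F →ₗ[ℂ] CF F := (RFs F).subtype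

theorem v_sum {ι : Type*} (s : Finset ι) (x : ι → RF F) : (∑ i ∈ s, x i).v = ∑ i ∈ s, (x i).v :=
  map_sum (vL (F := F)) x s

/-- evaluation as a linear map -/
noncomputable def evL (V : Type) [AddCommGroup V] [Module F V] [FiniteDimensional F V]
    (φ : V →ₗ[F] V) : CF F →ₗ[ℂ] ℂ where
  toFun f := f V φ
  map_add' _ _ := rfl
  map_smul' _ _ := rfl

theorem CF_sum {ι : Type*} (s : Finset ι) (f : ι → CF F) (V : Type) [AddCommGroup V] [Module F V]
    [FiniteDimensional F V] (φ : V →ₗ[F] V) : (∑ i ∈ s, f i) V φ = ∑ i ∈ s, f i V φ :=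
  map_sum (evL V φ) f s

variable [DecidableEq F]

theorem mul_add_left (f f' g : CF F) : mul (f + f') g = mul f g + mul f' g := by
  apply CF_ext
  intro V _ _ _ φ
  have h := mul_sum_left (Finset.univ : Finset Bool) (fun _ => 1) (fun b => if b then f else f')
    (f + f') g (fun W _ _ _ ψ => by
      rw [CF_add]; simp) φ
  rw [h, CF_add]
  simp

theorem mul_smul_left (c : ℂ) (f g : CF F) : mul (c • f) g = c • mul f g := by
  apply CF_ext
  intro V _ _ _ φ
  have h := mul_sum_left (Finset.univ : Finset Unit) (fun _ => c) (fun _ => f)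
    (c • f) g (fun W _ _ _ ψ => by
      rw [CF_smul]; simp) φ
  rw [h, CF_smul]
  simp

theorem mul_zero_left (g : CF F) : mul (0 : CF F) g = 0 := by
  have := mul_smul_left 0 (0 : CF F) g
  rwa [zero_smul, zero_smul] at this

theorem mem_RFs {f : CF F} : f ∈ RFs F ↔ IsoInv f ∧
    (∀ (V : Type) [AddCommGroup V] [Module F V] [FiniteDimensional F V] (φ : V →ₗ[F] V),
      ¬ IsUnit φ → f V φ = 0) ∧
    ∃ N : ℕ, ∀ (V : Type) [AddCommGroup V] [Module F V] [FiniteDimensional F V]
      (φ : V →ₗ[F] V), N < finrank F V → f V φ = 0 := Iff.rfl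

theorem good_mul {f g : CF F} (hf : f ∈ RFs F) (hg : g ∈ RFs F) : mul f g ∈ RFs F := by
  rw [mem_RFs] at hf hg ⊢
  obtain ⟨hf1, hf2, N, hf3⟩ := hf
  obtain ⟨hg1, hg2, M, hg3⟩ := hg
  refine ⟨inv_mul hf1 hg1, ?_, N + M, ?_⟩
  · intro V _ _ _ φ h
    apply Finset.sum_eq_zero
    intro K _
    by_cases hK : K ≤ K.comap φ
    · rw [term_of hK]
      by_cases h1 : IsUnit (φ.restrict hK)
      · have h2 : ¬ IsUnit (K.mapQ K φ hK) := by
          intro h2
          exact h ((isUnit_stable hK).mpr ⟨h1, h2⟩)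
        rw [hg2 _ _ h2, mul_zero]
      · rw [hf2 _ _ h1, zero_mul]
    · exact term_of_not hK
  · intro V _ _ _ φ h
    apply Finset.sum_eq_zero
    intro K _
    by_cases hK : K ≤ K.comap φ
    · rw [term_of hK]
      have h1 := Submodule.finrank_quotient_add_finrank K
      by_cases h2 : N < finrank F K
      · rw [hf3 _ _ h2, zero_mul]
      · rw [hg3 _ _ (by omega), mul_zero]
    · exact term_of_not hK

theorem good_one : (H85.one : CF F) ∈ RFs F := by
  rw [mem_RFs]
  refine ⟨inv_one, ?_, 0, ?_⟩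
  · intro V _ _ _ φ h
    exact supp_one V φ (Or.inr h)
  · intro V _ _ _ φ h
    exact supp_one V φ (Or.inl (by omega))

noncomputable instance instMulR : Mul (RF F) := ⟨fun x y => ⟨mul x.v y.v, good_mul x.2 y.2⟩⟩
noncomputable instance instOneR : One (RF F) := ⟨⟨H85.one, good_one⟩⟩

theorem v_mul (x y : RF F) : (x * y).v = mul x.v y.v := rfl
theorem v_one : (1 : RF F).v = H85.one := rfl

theorem rf_mul_comm (x y : RF F) : x * y = y * x :=
  RF.ext (by rw [v_mul, v_mul]; exact H510.rcomm F _ _ x.inv y.inv)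

theorem rf_add_mul (x y z : RF F) : (x + y) * z = x * z + y * z :=
  RF.ext (by rw [v_mul, v_add, v_add, mul_add_left]; rfl)

noncomputable instance instCR : CommRing (RF F) :=
  { instACGR, instMulR, instOneR with
    mul_assoc := fun x y z => RF.ext (CF_mul_assoc x.inv y.inv z.inv)
    one_mul := fun x => RF.ext (CF_one_mul x.inv)
    mul_one := fun x => RF.ext (CF_mul_one x.inv)
    left_distrib := fun x y z => by
      show x * (y + z) = x * y + x * z
      rw [rf_mul_comm, rf_add_mul, rf_mul_comm y, rf_mul_comm z]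
    right_distrib := rf_add_mul
    zero_mul := fun x => RF.ext (mul_zero_left x.v)
    mul_zero := fun x => by
      show x * 0 = 0
      rw [rf_mul_comm]
      exact RF.ext (mul_zero_left x.v)
    mul_comm := rf_mul_comm }

theorem rf_smul_mul (c : ℂ) (x y : RF F) : (c • x) * y = c • (x * y) :=
  RF.ext (by rw [v_mul, v_smul, v_smul, mul_smul_left]; rfl)

noncomputable instance instAlg : Algebra ℂ (RF F) :=
  Algebra.ofModule rf_smul_mul (fun c x y => by
    rw [mul_comm x (c • y), rf_smul_mul, mul_comm y x])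

/-- the part of degree `m` of a family -/
noncomputable def cmp0 (m : ℕ) (f : CF F) : CF F := fun V _ _ _ φ =>
  if finrank F V = m then f V φ else 0

/-- the part of degree `m` -/
noncomputable def cmp (m : ℕ) (x : RF F) : RF F :=
  ⟨cmp0 m x.v, mem_RFs.mpr (by
    refine ⟨?_, ?_, m, ?_⟩
    · intro V W _ _ _ _ _ _ e φ ψ h
      show (if finrank F V = m then x.v V φ else 0) = if finrank F W = m then x.v W ψ else 0
      rw [x.inv V W e φ ψ h, e.finrank_eq]
    · intro V _ _ _ φ h
      show (if finrank F V = m then x.v V φ else 0) = 0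
      rw [x.uz V φ h, ite_self]
    · intro V _ _ _ φ h
      show (if finrank F V = m then x.v V φ else 0) = 0
      rw [if_neg (by omega)])⟩

theorem v_cmp (m : ℕ) (x : RF F) (V : Type) [AddCommGroup V] [Module F V]
    [FiniteDimensional F V] (φ : V →ₗ[F] V) :
    (cmp m x).v V φ = if finrank F V = m then x.v V φ else 0 := rfl

theorem supp_cmp (m : ℕ) (x : RF F) : Supp m (cmp m x).v := by
  intro V _ _ _ φ h
  rw [v_cmp]
  rcases h with h | h
  · rw [if_neg h]
  · rw [x.uz V φ h, ite_self]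

theorem sum_cmp (x : RF F) : ∃ N : ℕ, x = ∑ m ∈ Finset.range N, cmp m x := by
  obtain ⟨N, hN⟩ := x.bd
  refine ⟨N + 1, ?_⟩
  apply RF.ext'
  intro V _ _ _ φ
  rw [v_sum, CF_sum]
  simp only [v_cmp]
  rw [Finset.sum_ite_eq]
  by_cases h : finrank F V ∈ Finset.range (N + 1)
  · rw [if_pos h]
  · rw [if_neg h]
    exact hN V φ (by rw [Finset.mem_range] at h; omega)

theorem RF.induction {p : RF F → Prop} (h0 : p 0) (ha : ∀ x y, p x → p y → p (x + y))
    (hh : ∀ (n : ℕ) (x : RF F), Supp n x.v → p x) (x : RF F) : p x := by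
  obtain ⟨N, hN⟩ := sum_cmp x
  rw [hN]
  exact Finset.sum_induction _ p ha h0 fun m _ => hh m _ (supp_cmp m x)

theorem supp_mulR {x y : RF F} {e m n : ℕ} (hx : Supp e x.v) (hy : Supp m y.v) (hn : m + e = n) :
    Supp n (x * y).v := supp_mul hx hy hn

/-- a family of given degree as an element of the ring -/
def ofS {n : ℕ} (f : CF F) (h1 : IsoInv f) (h2 : Supp n f) : RF F :=
  ⟨f, mem_RFs.mpr ⟨h1, fun V _ _ _ φ h => h2 V φ (Or.inr h), n,
    fun V _ _ _ φ h => h2 V φ (Or.inl (by omega))⟩⟩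

theorem v_ofS {n : ℕ} (f : CF F) (h1 : IsoInv f) (h2 : Supp n f) : (ofS f h1 h2).v = f := rfl

end Vale.Agent.P275.H452
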