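import Vale.Agent.P275.H452.EgAs

/-!
# Row TOPG: the weights in the lowest degree
-/

set_option linter.unusedSectionVars false

namespace Vale.Agent.P275.H452

open scoped BigOperators Topology
open Filter Vale.Agent.P275.H341

/-- the square root -/
noncomputable def sy (p : ℕ) : ℂ := ((Real.sqrt p : ℝ) : ℂ)

theorem sy_sq (p : ℕ) : sy p ^ 2 = p := by
  unfold sy
  rw [← Complex.ofReal_pow, Real.sq_sqrt (Nat.cast_nonneg p), Complex.ofReal_natCast]

theorem sy_ne : ∀ᶠ p : ℕ in atTop, sy p ≠ 0 := by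
  filter_upwards [ev_ne] with p hp h
  apply hp
  rw [← sy_sq, h]
  ring

theorem tsy : Tendsto (fun p : ℕ => (sy p)⁻¹) atTop (𝓝 0) := by
  have h1 : Tendsto (fun p : ℕ => Real.sqrt (p : ℝ)) atTop atTop :=
    Real.tendsto_sqrt_atTop.comp tendsto_natCast_atTop_atTop
  have h2 : Tendsto (fun p : ℕ => (Real.sqrt (p : ℝ))⁻¹) atTop (𝓝 0) :=
    tendsto_inv_atTop_zero.comp h1
  have h3 : Tendsto (fun p : ℕ => (((Real.sqrt (p : ℝ))⁻¹ : ℝ) : ℂ)) atTop (𝓝 ((0 : ℝ) : ℂ)) :=
    (Complex.continuous_ofReal.tendsto 0).comp h2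
  rw [Complex.ofReal_zero] at h3
  refine h3.congr fun p => ?_
  unfold sy
  rw [Complex.ofReal_inv]

/-- the polynomial in the square root -/
noncomputable def Qs (h : ℕ → ℕ → ℕ) (R p : ℕ) : ℂ :=
  ∑ k ∈ Finset.range (2 * R + 1), ∑ w ∈ Finset.range (2 * k + 1),
    (-1) ^ k * (h k w : ℂ) * sy p ^ (4 * R - w)

theorem lim_shift {h : ℕ → ℕ → ℕ} {R s : ℕ} (hs : s ≤ 4 * R) (H : ∀ k w, h k w ≠ 0 → s ≤ w) :
    Tendsto (fun p => Qs h R p * (sy p)⁻¹ ^ (4 * R - s)) atTop
      (𝓝 (∑ k ∈ Finset.range (2 * R + 1), ∑ w ∈ Finset.range (2 * k + 1),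
        if w = s then (-1) ^ k * (h k w : ℂ) else 0)) := by
  have h1 : ∀ k ∈ Finset.range (2 * R + 1), ∀ w ∈ Finset.range (2 * k + 1),
      Tendsto (fun p => (-1) ^ k * (h k w : ℂ) * sy p ^ (4 * R - w) * (sy p)⁻¹ ^ (4 * R - s)) atTop
        (𝓝 (if w = s then (-1) ^ k * (h k w : ℂ) else 0)) := by
    intro k hk w hw
    rw [Finset.mem_range] at hk hw
    by_cases h0 : h k w = 0
    · rw [h0]
      simp
    · have h2 := H k w h0
      obtain ⟨t, rfl⟩ : ∃ t, w = s + t := ⟨w - s, by omega⟩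
      have h3 := ((tsy.pow t).const_mul ((-1) ^ k * (h k (s + t) : ℂ)))
      have h4 : (-1) ^ k * (h k (s + t) : ℂ) * 0 ^ t =
          if s + t = s then (-1) ^ k * (h k (s + t) : ℂ) else 0 := by
        rcases Nat.eq_zero_or_pos t with h | h
        · subst h
          simp
        · rw [zero_pow h.ne', mul_zero, if_neg (by omega)]
      rw [h4] at h3
      apply h3.congr'
      filter_upwards [sy_ne] with p hp
      obtain ⟨u, hu⟩ : ∃ u, 4 * R - s = (4 * R - (s + t)) + t ∧ u = 4 * R - (s + t) :=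
        ⟨4 * R - (s + t), by omega, rfl⟩
      rw [hu.1, ← hu.2, pow_add (sy p)⁻¹]
      have h5 : sy p ^ u * (sy p)⁻¹ ^ u = 1 := by
        rw [← mul_pow, mul_inv_cancel₀ hp, one_pow]
      linear_combination -((-1) ^ k * (h k (s + t) : ℂ) * (sy p)⁻¹ ^ t) * h5
  have h2 := tendsto_finsetSum (Finset.range (2 * R + 1)) fun k hk =>
    tendsto_finsetSum (Finset.range (2 * k + 1)) fun w hw => h1 k hk w hw
  refine h2.congr fun p => ?_
  unfold Qs
  rw [Finset.sum_mul]
  apply Finset.sum_congr rfl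
  intro k _
  rw [Finset.sum_mul]

/-- Row TOPG -/
theorem rowTopG : RowTopG := by
  classical
  intro n m g hn hm hm2 hg h H0 H1 H2 H3
  have hn0 : 0 < n := hn
  have hm0 : 0 < m := by omega
  set r := n / m with hr
  have hrm : r * m = n := Nat.div_mul_cancel hm
  have hr0 : 0 < r := Nat.div_pos (Nat.le_of_dvd hn0 hm) hm0
  have hrn : r ≤ n := Nat.div_le_self n m
  have hn2 : 2 ≤ n := hm2.trans (Nat.le_of_dvd hn0 hm)
  set G := g - 1 with hG
  have hG1 : 1 ≤ G := by omega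
  have h2G : 2 * g - 2 = 2 * G := by omega
  set D := n * (n - r) * G with hD
  set R := (n ^ 2 - 1) * G with hR
  set A := n ^ 2 * G with hA
  set Q := n * r * G with hQ
  have eD : D + Q = A := by
    rw [hD, hQ, hA, ← add_mul, ← mul_add, Nat.sub_add_cancel hrn]
    ring
  have eR : R + G = A := by
    rw [hR, hA]
    have : 1 ≤ n ^ 2 := Nat.one_le_pow _ _ hn0
    obtain ⟨t, ht⟩ : ∃ t, n ^ 2 = t + 1 := ⟨n ^ 2 - 1, by omega⟩
    rw [ht, Nat.add_sub_cancel]
    ring
  have eQ : 2 * G ≤ Q := by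
    rw [hQ]
    apply Nat.mul_le_mul_right
    calc 2 = 2 * 1 := rfl
      _ ≤ n * r := Nat.mul_le_mul hn2 hr0
  have eT : n * (n - 1) * G + G * n * (r + 1) = A + Q := by
    rw [hA, hQ]
    obtain ⟨t, ht⟩ : ∃ t, n = t + 1 := ⟨n - 1, by omega⟩
    rw [ht, Nat.add_sub_cancel]
    ring
  -- the filter
  set P : Set ℕ := {p | p.Prime ∧ p ≡ 1 [MOD 2 * n]} with hP
  set l : Filter ℕ := atTop ⊓ 𝓟 P with hl
  have : l.NeBot := frequently_mem_iff_neBot.mp
    (Nat.frequently_atTop_modEq_one (show 2 * n ≠ 0 by omega))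
  have hle : l ≤ atTop := inf_le_left
  have hmem : ∀ᶠ p in l, p ∈ P := eventually_inf_principal.mpr (Eventually.of_forall fun _ h => h)
  -- the limit
  have a1 := as_eG hn hm hm2 hg
  unfold As at a1
  have a2 : Tendsto (fun p : ℕ => (((p : ℂ) - 1) * (p : ℂ)⁻¹) ^ (2 * G) *
      (Qs h R p * (sy p)⁻¹ ^ (4 * R - (2 * D + 2)))) l (𝓝 (-((2 * G : ℕ) : ℂ))) := by
    have a3 := a1.mono_left hle
    rw [h2G] at a3
    apply a3.congr'
    filter_upwards [hmem, hle ev_ne, hle sy_ne] with p hp hp0 hs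
    have e1 := H3 p hp.1 hp.2
    rw [← e1, h2G]
    have e2' : (((n * (n - 1) * G : ℕ) : ℤ) + ((G : ℕ) : ℤ) * n *
        (((r : ℕ) : ℤ) + 1)) = ((A + Q : ℕ) : ℤ) := by
      rw [← eT, Nat.cast_add, Nat.cast_mul (G * n), Nat.cast_mul G n, Nat.cast_add r 1,
        Nat.cast_one]
    have e2 : (((n * (n - 1) * (g - 1) : ℕ) : ℤ) + ((g - 1 : ℕ) : ℤ) * n *
        (((n / m : ℕ) : ℤ) + 1)) = ((A + Q : ℕ) : ℤ) := e2'
    rw [e2, sub_zero, zpow_neg, zpow_natCast]
    show (p : ℂ) * (((p : ℂ) - 1) ^ (2 * G) * Qs h R p * ((p : ℂ) ^ (A + Q))⁻¹) = _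
    have e3 : (p : ℂ) * ((p : ℂ) ^ (A + Q))⁻¹ =
        ((p : ℂ)⁻¹) ^ (2 * G) * (sy p)⁻¹ ^ (4 * R - (2 * D + 2)) := by
      have e4 : (p : ℂ)⁻¹ = (sy p)⁻¹ ^ 2 := by rw [← sy_sq p, inv_pow]
      rw [← inv_pow, e4, ← pow_mul, ← pow_mul, ← pow_add]
      have e5 : 2 * (A + Q) = (2 * (2 * G) + (4 * R - (2 * D + 2))) + 2 := by omega
      rw [e5, pow_add _ _ 2, ← sy_sq p]
      have e6 : sy p ^ 2 * (sy p)⁻¹ ^ 2 = 1 := by
        rw [← mul_pow, mul_inv_cancel₀ hs, one_pow]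
      linear_combination ((sy p)⁻¹ ^ (2 * (2 * G) + (4 * R - (2 * D + 2)))) * e6
    rw [mul_pow]
    linear_combination (((p : ℂ) - 1) ^ (2 * G) * Qs h R p) * e3
  have a3 : Tendsto (fun p : ℕ => (((p : ℂ) - 1) * (p : ℂ)⁻¹) ^ (2 * G)) l (𝓝 1) := by
    have b1 : Tendsto (fun p : ℕ => (1 : ℂ) - (p : ℂ)⁻¹) atTop (𝓝 (1 - 0)) :=
      tendsto_const_nhds.sub tinv
    have b2 : Tendsto (fun p : ℕ => ((p : ℂ) - 1) * (p : ℂ)⁻¹) atTop (𝓝 1) := by
      rw [sub_zero] at b1
      apply b1.congr'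
      filter_upwards [ev_ne] with p hp
      rw [sub_mul, mul_inv_cancel₀ hp, one_mul]
    have b3 := (b2.pow (2 * G)).mono_left hle
    rwa [one_pow] at b3
  have a4 : Tendsto (fun p : ℕ => Qs h R p * (sy p)⁻¹ ^ (4 * R - (2 * D + 2))) l
      (𝓝 (-((2 * G : ℕ) : ℂ))) := by
    have b1 := a2.div a3 one_ne_zero
    rw [div_one] at b1
    apply b1.congr'
    have b2 : ∀ᶠ p : ℕ in l, (((p : ℂ) - 1) * (p : ℂ)⁻¹) ^ (2 * G) ≠ 0 :=
      a3.eventually_ne one_ne_zero
    filter_upwards [b2] with p hp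
    simp only [Pi.div_apply]
    rw [mul_div_cancel_left₀ _ hp]
  -- the first coefficient
  have hlow : ∀ k w, h k w ≠ 0 → 2 * D + 1 ≤ k ∧ k ≤ w ∧ w ≤ 2 * k := by
    intro k w hkw
    have b1 := H0 k w hkw
    refine ⟨?_, b1⟩
    by_contra hcon
    exact hkw (H1 k w (by omega))
  have hd1 : 2 * D + 2 ≤ 2 * R := by omega
  have c1 : (h (2 * D + 1) (2 * D + 1) : ℂ) = 0 := by
    have b1 := (lim_shift (h := h) (R := R) (s := 2 * D + 1) (by omega) (fun k w hkw => by
      have := hlow k w hkw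
      omega)).mono_left hle
    have b2 : Tendsto (fun p : ℕ => Qs h R p * (sy p)⁻¹ ^ (4 * R - (2 * D + 1))) l (𝓝 0) := by
      have b3 := a4.mul (tsy.mono_left hle)
      rw [mul_zero] at b3
      refine b3.congr fun p => ?_
      rw [show 4 * R - (2 * D + 1) = (4 * R - (2 * D + 2)) + 1 by omega, pow_succ]
      ring
    have b4 := tendsto_nhds_unique b1 b2
    rw [Finset.sum_eq_single (2 * D + 1), Finset.sum_ite_eq', if_pos
      (Finset.mem_range.mpr (by omega))] at b4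
    · have b5 : ((-1 : ℂ)) ^ (2 * D + 1) ≠ 0 := pow_ne_zero _ (by norm_num)
      exact (mul_eq_zero.mp b4).resolve_left b5
    · intro k _ hk
      rw [Finset.sum_ite_eq']
      split_ifs with hw
      · have b5 : h k (2 * D + 1) = 0 := by
          by_contra hcon
          have := hlow _ _ hcon
          omega
        rw [b5]
        simp
      · rfl
    · intro hk
      exact absurd (Finset.mem_range.mpr (by omega)) hk
  have c1' : h (2 * D + 1) (2 * D + 1) = 0 := by exact_mod_cast c1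
  have c2 : -(h (2 * D + 1) (2 * D + 2) : ℂ) + h (2 * D + 2) (2 * D + 2) =
      -((2 * G : ℕ) : ℂ) := by
    have b1 := (lim_shift (h := h) (R := R) (s := 2 * D + 2) (by omega) (fun k w hkw => by
      have b2 := hlow k w hkw
      by_contra hcon
      have b3 : w = 2 * D + 1 := by omega
      have b4 : k = 2 * D + 1 := by omega
      subst b3 b4
      exact hkw c1')).mono_left hle
    have b4 := tendsto_nhds_unique b1 a4
    rw [← b4]
    have b5 : ∀ k ∈ Finset.range (2 * R + 1), k ∉ ({2 * D + 1, 2 * D + 2} : Finset ℕ) →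
        (∑ w ∈ Finset.range (2 * k + 1), if w = 2 * D + 2 then (-1) ^ k * (h k w : ℂ) else 0)
          = 0 := by
      intro k _ hk
      rw [Finset.sum_ite_eq']
      split_ifs with hw
      · have b6 : h k (2 * D + 2) = 0 := by
          by_contra hcon
          have b7 := hlow _ _ hcon
          apply hk
          rw [Finset.mem_insert, Finset.mem_singleton]
          omega
        rw [b6]
        simp
      · rfl
    have b6 : ({2 * D + 1, 2 * D + 2} : Finset ℕ) ⊆ Finset.range (2 * R + 1) := by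
      intro k hk
      rw [Finset.mem_insert, Finset.mem_singleton] at hk
      rw [Finset.mem_range]
      omega
    rw [← Finset.sum_subset b6 b5, Finset.sum_pair (by omega), Finset.sum_ite_eq',
      Finset.sum_ite_eq', if_pos (Finset.mem_range.mpr (by omega)),
      if_pos (Finset.mem_range.mpr (by omega))]
    have b7 : ((-1 : ℂ)) ^ (2 * D + 1) = -1 := by
      rw [pow_succ, pow_mul]
      norm_num
    have b8 : ((-1 : ℂ)) ^ (2 * D + 2) = 1 := by
      rw [show 2 * D + 2 = 2 * (D + 1) by ring, pow_mul]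
      norm_num
    rw [b7, b8]
    ring
  have c3 : h (2 * D + 1) (2 * D + 2) = 2 * G + h (2 * D + 2) (2 * D + 2) := by
    have : (h (2 * D + 1) (2 * D + 2) : ℂ) = ((2 * G + h (2 * D + 2) (2 * D + 2) : ℕ) : ℂ) := by
      push_cast at c2 ⊢
      linear_combination -c2
    exact_mod_cast this
  have hr2 : 2 * D + 2 ∈ Finset.range (2 * (2 * D + 1) + 1) := Finset.mem_range.mpr (by omega)
  rw [← Finset.add_sum_erase _ _ hr2, c3, h2G] at H2
  have c4 : h (2 * D + 2) (2 * D + 2) = 0 := by omega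
  have c5 : ∑ w ∈ (Finset.range (2 * (2 * D + 1) + 1)).erase (2 * D + 2), h (2 * D + 1) w = 0 := by
    omega
  refine ⟨?_, c4⟩
  intro w
  by_cases hw : w = 2 * (D + 1)
  · rw [if_pos hw, hw, show 2 * (D + 1) = 2 * D + 2 by ring, c3, c4, h2G, add_zero]
  · rw [if_neg hw]
    by_cases hw2 : w < 2 * (2 * D + 1) + 1
    · exact Finset.sum_eq_zero_iff.mp c5 w (Finset.mem_erase.mpr
        ⟨fun h' => hw (by rw [h']; ring), Finset.mem_range.mpr hw2⟩)
    · by_contra hcon
      have := H0 _ _ hcon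
      omega

end Vale.Agent.P275.H452
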