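import Vale.Agent.P275.H452.X1b
import Vale.Agent.P275.H633.FixD

/-!
# Row X1: the model
-/

set_option linter.unusedSectionVars false

namespace Vale.Agent.P275.H452.X1

open scoped BigOperators MatrixGroups
open Module Matrix Vale.Agent.P275.H85 Vale.Agent.P275.H341 Vale.Agent.P275.H633

section T

variable {F V : Type} [Field F] [AddCommGroup V] [Module F V] {n : ℕ}

/-- the matrices of the invertible endomorphisms -/
noncomputable def TT (bas : Basis (Fin n) F V) : (Module.End F V)ˣ ≃* GL (Fin n) F :=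
  Units.mapEquiv (LinearMap.toMatrixAlgEquiv bas : (V →ₗ[F] V) ≃ₐ[F] Matrix (Fin n) (Fin n) F)

theorem TT_det (bas : Basis (Fin n) F V) (y : (Module.End F V)ˣ) :
    ((Matrix.GeneralLinearGroup.det (TT bas y) : Fˣ) : F)
      = LinearMap.det (y : Module.End F V) :=
  LinearMap.det_toMatrix bas (y : Module.End F V)

/-- the scalars -/
noncomputable def sc (V : Type) [AddCommGroup V] [Module F V] (x : Fˣ) : (Module.End F V)ˣ :=
  Units.map (algebraMap F (Module.End F V)).toMonoidHom x

theorem TT_sc (bas : Basis (Fin n) F V) (x : Fˣ) :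
    TT bas (sc V x) = Matrix.GeneralLinearGroup.scalar (Fin n) x := by
  apply Units.ext
  show LinearMap.toMatrixAlgEquiv bas (algebraMap F (Module.End F V) (x : F)) = _
  rw [AlgEquiv.commutes]
  rfl

end T

/-- Row X1 -/
theorem rowX1 : RowX1 := by
  classical
  intro F E _ _ _ _ _ _ _ φ e r n ω β he hr hn hφ hω hβ
  haveI : FiniteDimensional F E := Module.Finite.of_finite
  have he0 : 0 < e := he
  have hdim : finrank F (Fin e → Fin r → E) = n := by
    rw [Module.finrank_pi_fintype, Finset.sum_const, Module.finrank_pi_fintype, Finset.sum_const,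
      Finset.card_univ, Finset.card_univ, Fintype.card_fin, Fintype.card_fin, smul_eq_mul,
      smul_eq_mul, hn]
    ring
  let bas : Basis (Fin n) F (Fin e → Fin r → E) := Module.finBasisOfFinrankEq F _ hdim
  obtain ⟨su, hsu⟩ := sft_unit (e := e) (r := r) φ
  refine ⟨TT bas (Psi F (hb e r ω β)), TT bas su, (TT bas).toMonoidHom.comp (Psi F), ?_⟩
  refine ⟨?_, ?_, ?_, ?_, ?_, ?_, ?_⟩
  · exact (TT bas).injective.comp (Psi_injective F)
  · intro x
    obtain ⟨y, rfl⟩ := (TT bas).surjective x
    rw [← map_mul, ← map_mul, (TT bas).injective.eq_iff, cen_unit hφ he0 hω hβ]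
    constructor
    · rintro ⟨b, hb⟩
      exact ⟨b, by rw [← hb]; rfl⟩
    · rintro ⟨b, hb⟩
      exact ⟨b, (TT bas).injective hb⟩
  · rw [← TT_sc bas, ← map_mul, ← map_mul, ← map_mul]
    congr 1
    apply Units.ext
    rw [Units.val_mul, Units.val_mul, Units.val_mul, hsu]
    apply LinearMap.ext
    intro v
    funext i
    show sft φ (hop e r ω β v) i = ((ω : F) • hop e r ω β (sft φ v)) i
    rw [Pi.smul_apply, hop_apply]
    by_cases h : (i : ℕ) + 1 < e
    · rw [sft_pos φ _ h, sft_pos φ _ h, hop_apply]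
      show (algebraMap F E ((ω : F) ^ ((i : ℕ) + 1)) * (β : E)) • _ = _
      rw [← algebraMap_smul E (ω : F), smul_smul, ← mul_assoc, ← map_mul, ← pow_succ']
    · rw [sft_neg φ _ h, sft_neg φ _ h]
      funext k
      show φ (hop e r ω β v ⟨0, _⟩ k) = ((ω : F) • (algebraMap F E ((ω : F) ^ (i : ℕ)) * (β : E)) •
        fun k => φ (v ⟨0, _⟩ k)) k
      rw [hop_apply, ← algebraMap_smul E (ω : F), smul_smul, ← mul_assoc, ← map_mul, ← pow_succ']
      have hi : (i : ℕ) + 1 = e := by have := i.2; omega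
      rw [hi]
      show φ ((algebraMap F E ((ω : F) ^ 0) * (β : E)) * v ⟨0, _⟩ k) = _
      rw [pow_zero, map_one, one_mul, map_mul, hβ]
      rfl
  · intro b
    rw [mul_inv_eq_iff_eq_mul]
    show TT bas su * TT bas (Psi F b) = TT bas (Psi F (shf (fr φ r) b)) * TT bas su
    rw [← map_mul, ← map_mul]
    congr 1
    apply Units.ext
    rw [Units.val_mul, Units.val_mul, hsu, Psi_val, Psi_val]
    apply LinearMap.ext
    intro v
    funext i
    show sft φ (blk F (fun i => (b i : Matrix (Fin r) (Fin r) E)) v) i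
      = blk F (fun i => ((shf (fr φ r) b i : GL (Fin r) E) : Matrix (Fin r) (Fin r) E))
        (sft φ v) i
    rw [blk_apply]
    by_cases h : (i : ℕ) + 1 < e
    · rw [sft_pos φ _ h, sft_pos φ _ h, blk_apply]
      have h1 : shf (fr φ r) b i = b ⟨i + 1, h⟩ := dif_pos h
      rw [h1]
    · rw [sft_neg φ _ h, sft_neg φ _ h]
      have h1 : shf (fr φ r) b i = fr φ r (b ⟨0, lt_of_le_of_lt (Nat.zero_le _) i.2⟩) := dif_neg h
      rw [h1]
      funext k
      rw [blk_apply]
      show φ (∑ l, (b ⟨0, _⟩ : Matrix (Fin r) (Fin r) E) k l * v ⟨0, _⟩ l)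
        = ∑ l, φ ((b ⟨0, _⟩ : Matrix (Fin r) (Fin r) E) k l) * φ (v ⟨0, _⟩ l)
      rw [map_sum]
      apply Finset.sum_congr rfl
      intro l _
      rw [map_mul]
  · intro x
    rw [← TT_sc bas]
    show TT bas _ = TT bas _
    congr 1
    apply Units.ext
    rw [Psi_val]
    apply LinearMap.ext
    intro v
    funext i
    rw [blk_apply, sc_mulVec]
    show (algebraMap F E (x : F)) • v i = (x : F) • v i
    rw [algebraMap_smul]
  · intro b
    apply Units.ext
    show ((Matrix.GeneralLinearGroup.det (TT bas (Psi F b)) : Fˣ) : F) = _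
    rw [TT_det, Psi_val, det_blk, Units.coe_prod]
    rfl
  · obtain ⟨c, hc⟩ := fix_gen hφ (x := (β : E) ^ (e * finrank F E)) (by
      rw [map_pow, hβ, mul_pow, ← map_pow, ← pow_mul, mul_comm e (e * finrank F E), pow_mul,
        ← Units.val_pow_eq_pow_val, ← hω, pow_orderOf_eq_one, Units.val_one, one_pow, map_one,
        one_mul])
    have hc0 : c ≠ 0 := by
      rintro rfl
      rw [map_zero] at hc
      exact pow_ne_zero _ (Units.ne_zero β) hc.symm
    refine ⟨Units.mk0 c hc0, ?_, Units.ext hc⟩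
    rw [← map_pow, ← TT_sc bas]
    congr 1
    apply Units.ext
    rw [Units.val_pow_eq_pow_val]
    apply LinearMap.ext
    intro v
    funext i
    show (hop (F := F) e r ω β ^ (e * finrank F E)) v i = c • v i
    rw [hop_pow, mul_pow, ← map_pow, ← pow_mul, mul_comm (i : ℕ), pow_mul,
      ← Units.val_pow_eq_pow_val, ← hω, pow_orderOf_eq_one, Units.val_one, one_pow, map_one,
      one_mul, hω, ← hc, algebraMap_smul]

end Vale.Agent.P275.H452.X1
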