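import Vale.Agent.P275.H341.Rows5

/-!
# Row X1, part 1: blockwise multiplication and the twisted shift
-/

set_option linter.unusedSectionVars false

namespace Vale.Agent.P275.H452.X1

open scoped BigOperators MatrixGroups
open Module Matrix Vale.Agent.P275.H341

section gen

variable {F E : Type} [Field F] [Fintype F] [Field E] [Fintype E] [Algebra F E]

theorem pow_act {φ : E ≃ₐ[F] E} {ω : Fˣ} {β : Eˣ} {e : ℕ}
    (hβ : φ β = algebraMap F E ((ω : F) ^ e) * β) (k : ℕ) :
    (φ ^ k) (β : E) = algebraMap F E ((ω : F) ^ (e * k)) * β := by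
  induction k with
  | zero => simp
  | succ k ih =>
    rw [pow_succ', AlgEquiv.mul_apply, ih, map_mul, φ.commutes, hβ, ← mul_assoc, ← map_mul,
      ← pow_add, Nat.mul_succ]

theorem adj_top {φ : E ≃ₐ[F] E} (hφ : orderOf φ = finrank F E) {ω : Fˣ} {β : Eˣ} {e : ℕ}
    (he : 0 < e) (hω : orderOf ω = e * finrank F E)
    (hβ : φ β = algebraMap F E ((ω : F) ^ e) * β) :
    IntermediateField.adjoin F {(β : E)} = ⊤ := by
  haveI : FiniteDimensional F E := Module.Finite.of_finite
  rw [← IsGalois.fixedField_fixingSubgroup (IntermediateField.adjoin F {(β : E)})]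
  have h1 : (IntermediateField.adjoin F {(β : E)}).fixingSubgroup = ⊥ := by
    rw [eq_bot_iff]
    intro σ hσ
    have h2 : σ (β : E) = β := by
      rw [IntermediateField.mem_fixingSubgroup_iff] at hσ
      exact hσ _ (IntermediateField.subset_adjoin F _ (Set.mem_singleton _))
    have h3 : Subgroup.zpowers φ = ⊤ := by
      apply Subgroup.eq_top_of_card_eq
      rw [Nat.card_zpowers, hφ]
      exact (IsGalois.card_aut_eq_finrank F E).symm
    have h4 : σ ∈ Subgroup.zpowers φ := by rw [h3]; exact Subgroup.mem_top _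
    rw [← mem_powers_iff_mem_zpowers] at h4
    obtain ⟨k, hk⟩ := h4
    have hk' : φ ^ k = σ := hk
    rw [← hk', pow_act hβ] at h2
    have h5 : algebraMap F E ((ω : F) ^ (e * k)) = 1 := by
      have h6 : algebraMap F E ((ω : F) ^ (e * k)) * β = 1 * β := by rw [h2, one_mul]
      exact mul_right_cancel₀ (Units.ne_zero β) h6
    have h6 : (ω : F) ^ (e * k) = 1 := (algebraMap F E).injective (by rw [h5, map_one])
    have h7 : ω ^ (e * k) = 1 := by
      apply Units.ext
      rw [Units.val_pow_eq_pow_val, h6, Units.val_one]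
    have h8 := orderOf_dvd_of_pow_eq_one h7
    rw [hω] at h8
    have h9 : finrank F E ∣ k := Nat.dvd_of_mul_dvd_mul_left he h8
    rw [Subgroup.mem_bot, ← hk']
    rw [← hφ] at h9
    exact orderOf_dvd_iff_pow_eq_one.mp h9
  rw [h1]
  exact IntermediateField.fixedField_bot

end gen

section lin

variable (F : Type) {E : Type} [Field F] [Field E] [Algebra F E] {e r : ℕ}

/-- blockwise multiplication, linear over the large field -/
noncomputable def blkE (b : Fin e → Matrix (Fin r) (Fin r) E) :
    (Fin e → Fin r → E) →ₗ[E] (Fin e → Fin r → E) :=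
  LinearMap.pi fun i => (Matrix.toLin' (b i)).comp (LinearMap.proj i)

/-- blockwise multiplication -/
noncomputable def blk (b : Fin e → Matrix (Fin r) (Fin r) E) :
    (Fin e → Fin r → E) →ₗ[F] (Fin e → Fin r → E) := (blkE b).restrictScalars F

theorem blk_apply (b : Fin e → Matrix (Fin r) (Fin r) E) (v : Fin e → Fin r → E) (i : Fin e) :
    blk F b v i = (b i).mulVec (v i) := rfl

theorem blk_mul (b b' : Fin e → Matrix (Fin r) (Fin r) E) :
    blk F (fun i => b i * b' i) = blk F b * blk F b' := by
  apply LinearMap.ext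
  intro v
  funext i
  show (b i * b' i).mulVec (v i) = (b i).mulVec ((b' i).mulVec (v i))
  rw [Matrix.mulVec_mulVec]

theorem blk_one : blk F (fun _ : Fin e => (1 : Matrix (Fin r) (Fin r) E)) = 1 := by
  apply LinearMap.ext
  intro v
  funext i
  show (1 : Matrix (Fin r) (Fin r) E).mulVec (v i) = v i
  rw [Matrix.one_mulVec]

theorem blk_inj {b b' : Fin e → Matrix (Fin r) (Fin r) E} (h : blk F b = blk F b') : b = b' := by
  funext i
  ext k l
  have h1 := congrFun (congrFun (LinearMap.congr_fun h (fun _ => Pi.single l 1)) i) k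
  rw [blk_apply, blk_apply, Matrix.mulVec_single_one, Matrix.mulVec_single_one] at h1
  exact h1

/-- the blockwise action of the invertible matrices -/
noncomputable def Psi0 : (Fin e → GL (Fin r) E) →* Module.End F (Fin e → Fin r → E) where
  toFun b := blk F fun i => (b i : Matrix (Fin r) (Fin r) E)
  map_one' := blk_one F
  map_mul' b b' := blk_mul F _ _

/-- the blockwise action of the invertible matrices, as units -/
noncomputable def Psi : (Fin e → GL (Fin r) E) →* (Module.End F (Fin e → Fin r → E))ˣ :=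
  (Psi0 F).toHomUnits

theorem Psi_val (b : Fin e → GL (Fin r) E) :
    ((Psi F b : (Module.End F (Fin e → Fin r → E))ˣ) : Module.End F (Fin e → Fin r → E))
      = blk F fun i => (b i : Matrix (Fin r) (Fin r) E) := rfl

theorem Psi_injective : Function.Injective (Psi F : (Fin e → GL (Fin r) E) →* _) := by
  intro b b' h
  have h1 := congrArg Units.val h
  rw [Psi_val, Psi_val] at h1
  have h2 := blk_inj F h1
  funext i
  exact Units.ext (congrFun h2 i)

theorem det_blk (b : Fin e → Matrix (Fin r) (Fin r) E) :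
    LinearMap.det (blk F b) = ∏ i, Algebra.norm F (b i).det := by
  unfold blk
  rw [LinearMap.det_restrictScalars, ← map_prod]
  congr 1
  unfold blkE
  rw [LinearMap.det_pi]
  apply Finset.prod_congr rfl
  intro i _
  exact LinearMap.det_toLin' (b i)

variable {F}

/-- the twisted shift -/
def sft (φ : E ≃ₐ[F] E) : (Fin e → Fin r → E) →ₗ[F] (Fin e → Fin r → E) where
  toFun v i := if h : (i : ℕ) + 1 < e then v ⟨i + 1, h⟩
    else fun k => φ (v ⟨0, lt_of_le_of_lt (Nat.zero_le _) i.2⟩ k)
  map_add' v w := by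
    funext i
    by_cases h : (i : ℕ) + 1 < e
    · simp only [dif_pos h, Pi.add_apply]
    · simp only [dif_neg h, Pi.add_apply, map_add]
      rfl
  map_smul' c v := by
    funext i
    by_cases h : (i : ℕ) + 1 < e
    · simp only [dif_pos h, Pi.smul_apply, RingHom.id_apply]
    · simp only [dif_neg h, Pi.smul_apply, RingHom.id_apply, map_smul]
      rfl

theorem sft_pos (φ : E ≃ₐ[F] E) (v : Fin e → Fin r → E) {i : Fin e} (h : (i : ℕ) + 1 < e) :
    sft φ v i = v ⟨i + 1, h⟩ := dif_pos h

theorem sft_neg (φ : E ≃ₐ[F] E) (v : Fin e → Fin r → E) {i : Fin e} (h : ¬ (i : ℕ) + 1 < e) :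
    sft φ v i = fun k => φ (v ⟨0, lt_of_le_of_lt (Nat.zero_le _) i.2⟩ k) := dif_neg h

theorem sft_unit [Finite E] (φ : E ≃ₐ[F] E) :
    IsUnit (sft (e := e) (r := r) φ : Module.End F (Fin e → Fin r → E)) := by
  haveI : FiniteDimensional F E := Module.Finite.of_finite
  rw [LinearMap.isUnit_iff_ker_eq_bot, LinearMap.ker_eq_bot']
  intro v hv
  funext i
  obtain ⟨i, hi⟩ := i
  rcases Nat.eq_zero_or_pos i with rfl | h0
  · have h1 : ¬ (e - 1) + 1 < e := by omega
    have h2 := congrFun hv ⟨e - 1, by omega⟩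
    rw [sft_neg φ v (i := ⟨e - 1, by omega⟩) h1] at h2
    funext k
    have h3 := congrFun h2 k
    exact (map_eq_zero_iff φ φ.injective).mp h3
  · have h1 : (i - 1) + 1 < e := by omega
    have h2 := congrFun hv ⟨i - 1, by omega⟩
    rw [sft_pos φ v (i := ⟨i - 1, by omega⟩) h1] at h2
    have h3 : (⟨i - 1 + 1, h1⟩ : Fin e) = ⟨i, hi⟩ := Fin.ext (by show i - 1 + 1 = i; omega)
    have h4 : v ⟨i - 1 + 1, h1⟩ = v ⟨i, hi⟩ := congrArg v h3
    rw [← h4]
    exact h2

end lin

end Vale.Agent.P275.H452.X1
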