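import Vale.Agent.P275.H452.X1a

/-!
# Row X1, part 2: the centraliser
-/

set_option linter.unusedSectionVars false

namespace Vale.Agent.P275.H452.X1

open scoped BigOperators MatrixGroups
open Module Matrix Vale.Agent.P275.H341

section cen

variable {F E : Type} [Field F] [Fintype F] [Field E] [Fintype E] [Algebra F E]

theorem fix_gen {φ : E ≃ₐ[F] E} (hφ : orderOf φ = finrank F E) {x : E} (hx : φ x = x) :
    ∃ c : F, algebraMap F E c = x := by
  haveI : FiniteDimensional F E := Module.Finite.of_finite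
  have h3 : Subgroup.zpowers φ = ⊤ := by
    apply Subgroup.eq_top_of_card_eq
    rw [Nat.card_zpowers, hφ]
    exact (IsGalois.card_aut_eq_finrank F E).symm
  have h1 : x ∈ (⊥ : IntermediateField F E) := by
    rw [IsGalois.mem_bot_iff_fixed]
    intro σ
    have h4 : σ ∈ Subgroup.zpowers φ := by rw [h3]; exact Subgroup.mem_top _
    rw [← mem_powers_iff_mem_zpowers] at h4
    obtain ⟨k, hk⟩ := h4
    have hk' : φ ^ k = σ := hk
    rw [← hk']
    clear hk hk'
    induction k with
    | zero => rfl
    | succ k ih => rw [pow_succ', AlgEquiv.mul_apply, ih, hx]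
  rw [IntermediateField.mem_bot] at h1
  exact h1

theorem sc_mulVec {r : ℕ} (c : Eˣ) (w : Fin r → E) :
    ((Matrix.GeneralLinearGroup.scalar (Fin r) c : GL (Fin r) E) :
      Matrix (Fin r) (Fin r) E).mulVec w = (c : E) • w := by
  funext k
  show (Matrix.scalar (Fin r) (c : E)).mulVec w k = _
  rw [Matrix.scalar_apply, Matrix.mulVec_diagonal]
  rfl

/-- the element `h` blockwise -/
def hb (e r : ℕ) (ω : Fˣ) (β : Eˣ) : Fin e → GL (Fin r) E := fun i =>
  Matrix.GeneralLinearGroup.scalar (Fin r) (inc E (ω ^ (i : ℕ)) * β)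

/-- the element `h` as a linear map -/
noncomputable def hop (e r : ℕ) (ω : Fˣ) (β : Eˣ) : Module.End F (Fin e → Fin r → E) :=
  blk F fun i => (hb e r ω β i : Matrix (Fin r) (Fin r) E)

theorem hop_apply {e r : ℕ} (ω : Fˣ) (β : Eˣ) (v : Fin e → Fin r → E) (i : Fin e) :
    hop (F := F) e r ω β v i = (algebraMap F E ((ω : F) ^ (i : ℕ)) * (β : E)) • v i := by
  unfold hop
  rw [blk_apply]
  unfold hb
  rw [sc_mulVec]
  congr 1

theorem hop_pow {e r : ℕ} (ω : Fˣ) (β : Eˣ) (k : ℕ) (v : Fin e → Fin r → E) (i : Fin e) :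
    (hop (F := F) e r ω β ^ k) v i = (algebraMap F E ((ω : F) ^ (i : ℕ)) * (β : E)) ^ k • v i := by
  induction k with
  | zero => rw [pow_zero, pow_zero, one_smul]; rfl
  | succ k ih =>
    rw [pow_succ', Module.End.mul_apply, hop_apply, ih, smul_smul, ← pow_succ']

theorem cen_aux {φ : E ≃ₐ[F] E} (hφ : orderOf φ = finrank F E) {ω : Fˣ} {β : Eˣ} {e r : ℕ}
    (he : 0 < e) (hω : orderOf ω = e * finrank F E)
    (hβ : φ β = algebraMap F E ((ω : F) ^ e) * β)
    (y : Module.End F (Fin e → Fin r → E)) (hy : y * hop e r ω β = hop e r ω β * y) :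
    ∃ B : Fin e → Matrix (Fin r) (Fin r) E, blk F B = y := by
  classical
  haveI : FiniteDimensional F E := Module.Finite.of_finite
  have hδ : 0 < finrank F E := Module.finrank_pos
  set δ := finrank F E with hδdef
  -- the scalars
  obtain ⟨d, hd⟩ : ∃ d : F, algebraMap F E d = (β : E) ^ δ := by
    apply fix_gen hφ
    rw [map_pow, hβ, mul_pow, ← map_pow, ← pow_mul, ← Units.val_pow_eq_pow_val, ← hω,
      pow_orderOf_eq_one, Units.val_one, map_one, one_mul]
  have hd0 : d ≠ 0 := by
    rintro rfl
    rw [map_zero] at hd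
    exact pow_ne_zero _ (Units.ne_zero β) hd.symm
  -- the blocks
  have hA : ∀ (i j : Fin e) (w : Fin r → E), i ≠ j → y (Pi.single j w) i = 0 := by
    intro i j w hij
    have h1 : y * hop e r ω β ^ δ = hop e r ω β ^ δ * y := (Commute.pow_right hy δ).eq
    have h2 : ∀ i : Fin e, (algebraMap F E ((ω : F) ^ (i : ℕ)) * (β : E)) ^ δ
        = algebraMap F E ((ω : F) ^ ((i : ℕ) * δ) * d) := by
      intro i
      rw [mul_pow, ← map_pow, ← pow_mul, ← hd, map_mul]
    have h3 : (hop (F := F) e r ω β ^ δ) (Pi.single j w)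
        = ((ω : F) ^ ((j : ℕ) * δ) * d) • (Pi.single j w : Fin e → Fin r → E) := by
      funext l
      rw [hop_pow, h2]
      by_cases hl : l = j
      · subst hl
        rw [Pi.smul_apply, Pi.single_eq_same, algebraMap_smul]
      · rw [Pi.smul_apply, Pi.single_eq_of_ne hl, smul_zero, smul_zero]
    have h4 := congrFun (LinearMap.congr_fun h1 (Pi.single j w)) i
    rw [Module.End.mul_apply, Module.End.mul_apply, h3, map_smul, Pi.smul_apply, hop_pow, h2,
      algebraMap_smul] at h4
    have h5 : ((ω : F) ^ ((j : ℕ) * δ) * d - (ω : F) ^ ((i : ℕ) * δ) * d) •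
        (y (Pi.single j w) i) = 0 := by
      rw [sub_smul, h4, sub_self]
    rcases smul_eq_zero.mp h5 with h6 | h6
    · exfalso
      apply hij
      have h7 : (ω : F) ^ ((j : ℕ) * δ) = (ω : F) ^ ((i : ℕ) * δ) :=
        mul_right_cancel₀ hd0 (sub_eq_zero.mp h6)
      have h8 : ω ^ ((j : ℕ) * δ) = ω ^ ((i : ℕ) * δ) := by
        apply Units.ext
        rw [Units.val_pow_eq_pow_val, Units.val_pow_eq_pow_val, h7]
      have hj : (j : ℕ) * δ < orderOf ω := by
        rw [hω]
        exact Nat.mul_lt_mul_of_pos_right j.2 hδ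
      have hi : (i : ℕ) * δ < orderOf ω := by
        rw [hω]
        exact Nat.mul_lt_mul_of_pos_right i.2 hδ
      have h9 := pow_injOn_Iio_orderOf (Set.mem_Iio.mpr hj) (Set.mem_Iio.mpr hi) h8
      exact (Fin.ext (Nat.eq_of_mul_eq_mul_right hδ h9)).symm
    · exact h6
  -- linearity over the large field
  have hB : ∀ (i : Fin e) (c : E) (w : Fin r → E),
      y (Pi.single i (c • w)) i = c • y (Pi.single i w) i := by
    intro i c
    have hc : c ∈ IntermediateField.adjoin F {(β : E)} := by
      rw [adj_top hφ he hω hβ]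
      exact IntermediateField.mem_top
    have hsm : ∀ (a : F) (w : Fin r → E),
        y (Pi.single i (a • w)) i = a • y (Pi.single i w) i := by
      intro a w
      have h1 : (Pi.single i (a • w) : Fin e → Fin r → E) = a • Pi.single i w := by
        funext l
        by_cases hl : l = i
        · subst hl
          rw [Pi.smul_apply, Pi.single_eq_same, Pi.single_eq_same]
        · rw [Pi.smul_apply, Pi.single_eq_of_ne hl, Pi.single_eq_of_ne hl, smul_zero]
      rw [h1, map_smul, Pi.smul_apply]
    refine IntermediateField.adjoin_induction (F := F)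
      (p := fun c _ => ∀ w : Fin r → E, y (Pi.single i (c • w)) i = c • y (Pi.single i w) i)
      ?_ ?_ ?_ ?_ ?_ hc
    · intro x hx w
      rw [Set.mem_singleton_iff] at hx
      subst hx
      have h1 := congrFun (LinearMap.congr_fun hy (Pi.single i w)) i
      rw [Module.End.mul_apply, Module.End.mul_apply, hop_apply] at h1
      have h2 : hop (F := F) e r ω β (Pi.single i w)
          = Pi.single i (((ω : F) ^ (i : ℕ)) • ((β : E) • w)) := by
        funext l
        rw [hop_apply]
        by_cases hl : l = i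
        · subst hl
          rw [Pi.single_eq_same, Pi.single_eq_same, mul_smul, algebraMap_smul]
        · rw [Pi.single_eq_of_ne hl, Pi.single_eq_of_ne hl, smul_zero]
      rw [h2, hsm, mul_smul, algebraMap_smul] at h1
      have h3 : ((ω : F) ^ (i : ℕ)) ≠ 0 := pow_ne_zero _ (Units.ne_zero ω)
      exact smul_right_injective _ h3 h1
    · intro a w
      rw [algebraMap_smul, algebraMap_smul]
      exact hsm a w
    · intro a b _ _ ha hb w
      rw [add_smul, add_smul, Pi.single_add, map_add, Pi.add_apply, ha, hb]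
    · intro a _ ha w
      by_cases h0 : a = 0
      · rw [h0, _root_.inv_zero, zero_smul, zero_smul, Pi.single_zero, map_zero]
        rfl
      · have h1 := ha (a⁻¹ • w)
        rw [smul_inv_smul₀ h0] at h1
        rw [h1, inv_smul_smul₀ h0]
    · intro a b _ _ ha hb w
      rw [mul_smul, ha, hb, mul_smul]
  let g : Fin e → ((Fin r → E) →ₗ[E] (Fin r → E)) := fun i =>
    { toFun := fun w => y (Pi.single i w) i
      map_add' := by
        intro a b
        rw [Pi.single_add, map_add, Pi.add_apply]
      map_smul' := hB i }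
  refine ⟨fun i => LinearMap.toMatrix' (g i), ?_⟩
  apply LinearMap.ext
  intro v
  funext i
  have h1 : blk F (fun i => LinearMap.toMatrix' (g i)) v i
      = Matrix.toLin' (LinearMap.toMatrix' (g i)) (v i) := rfl
  rw [h1, Matrix.toLin'_toMatrix']
  show y (Pi.single i (v i)) i = y v i
  have h2 : y v = ∑ j, y (Pi.single j (v j)) := by
    rw [← map_sum]
    congr 1
    exact (Finset.univ_sum_single v).symm
  rw [h2, Finset.sum_apply, Finset.sum_eq_single i]
  · intro j _ hj
    exact hA i j _ (Ne.symm hj)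
  · intro h
    exact absurd (Finset.mem_univ i) h

theorem cen_unit {φ : E ≃ₐ[F] E} (hφ : orderOf φ = finrank F E) {ω : Fˣ} {β : Eˣ} {e r : ℕ}
    (he : 0 < e) (hω : orderOf ω = e * finrank F E)
    (hβ : φ β = algebraMap F E ((ω : F) ^ e) * β)
    (y : (Module.End F (Fin e → Fin r → E))ˣ) :
    y * Psi F (hb e r ω β) = Psi F (hb e r ω β) * y ↔ ∃ b, Psi F b = y := by
  constructor
  · intro hy
    have h1 : (y : Module.End F (Fin e → Fin r → E)) * hop e r ω β = hop e r ω β * y :=
      congrArg Units.val hy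
    have h2 : ((y⁻¹ : (Module.End F (Fin e → Fin r → E))ˣ) : Module.End F (Fin e → Fin r → E)) *
        hop e r ω β = hop e r ω β * (y⁻¹ : (Module.End F (Fin e → Fin r → E))ˣ) := by
      have h3 : y⁻¹ * Psi F (hb e r ω β) = Psi F (hb e r ω β) * y⁻¹ := by
        rw [inv_mul_eq_iff_eq_mul, ← mul_assoc, hy, mul_inv_cancel_right]
      exact congrArg Units.val h3
    obtain ⟨B, hB⟩ := cen_aux hφ he hω hβ _ h1
    obtain ⟨B', hB'⟩ := cen_aux hφ he hω hβ _ h2
    have h3 : (fun i => B i * B' i) = fun _ => (1 : Matrix (Fin r) (Fin r) E) := by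
      apply blk_inj F
      rw [blk_mul, hB, hB', blk_one, Units.mul_inv]
    have h4 : (fun i => B' i * B i) = fun _ => (1 : Matrix (Fin r) (Fin r) E) := by
      apply blk_inj F
      rw [blk_mul, hB, hB', blk_one, Units.inv_mul]
    refine ⟨fun i => ⟨B i, B' i, congrFun h3 i, congrFun h4 i⟩, ?_⟩
    apply Units.ext
    rw [Psi_val]
    exact hB
  · rintro ⟨b, rfl⟩
    rw [← map_mul, ← map_mul]
    congr 1
    funext i
    show b i * hb e r ω β i = hb e r ω β i * b i
    apply Units.ext
    exact ((Matrix.scalar_commute _ (fun r' => Commute.all _ _) _).eq).symm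

end cen

end Vale.Agent.P275.H452.X1
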