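import Vale.Agent.P275.H633.FixD

/-!
# Row X6: Schur's lemma
-/

set_option linter.unusedSectionVars false

namespace Vale.Agent.P275.H452.X6

open scoped BigOperators MatrixGroups
open Module Matrix Vale.Agent.P275.H633

theorem comm_one {C T : Type} [Group C] [CommGroup T] (D : C →* T) {k : ℕ} (a b : C)
    (A B : Fin k → C) :
    D (a * b * a⁻¹ * b⁻¹ * (List.ofFn fun i => A i * B i * (A i)⁻¹ * (B i)⁻¹).prod) = 1 := by
  have h : ∀ x y : C, D (x * y * x⁻¹ * y⁻¹) = 1 := by
    intro x y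
    rw [map_mul, map_mul, map_mul, map_inv, map_inv, mul_comm (D x) (D y), mul_inv_cancel_right,
      mul_inv_cancel]
  rw [map_mul, h, one_mul, map_list_prod, List.map_ofFn]
  apply List.prod_eq_one
  intro t ht
  rw [List.mem_ofFn] at ht
  obtain ⟨i, rfl⟩ := ht
  exact h _ _

section K

variable {K : Type} [Field K] {n : ℕ}

/-- the action on the vectors -/
noncomputable def lin (g : GL (Fin n) K) : (Fin n → K) →ₗ[K] (Fin n → K) :=
  Matrix.toLinAlgEquiv' (g : Matrix (Fin n) (Fin n) K)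

theorem lin_one : lin (1 : GL (Fin n) K) = 1 := by
  unfold lin
  rw [Units.val_one, map_one]

theorem lin_mul (g h : GL (Fin n) K) : lin (g * h) = lin g * lin h := by
  unfold lin
  rw [Units.val_mul, map_mul]

theorem schurK {k : ℕ} [IsAlgClosed K] (hn : 1 ≤ n) (ζ : Kˣ) (hζ : orderOf ζ = n)
    (a b : GL (Fin n) K) (A B : Fin k → GL (Fin n) K)
    (hrel : a * b * a⁻¹ * b⁻¹ * (List.ofFn fun i => A i * B i * (A i)⁻¹ * (B i)⁻¹).prod
      = Matrix.GeneralLinearGroup.scalar (Fin n) ζ)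
    (X : GL (Fin n) K) (ha : a * X = X * a) (hb : b * X = X * b)
    (hA : ∀ i, A i * X = X * A i ∧ B i * X = X * B i) :
    ∃ c : K, ∀ v, lin X v = c • v := by
  haveI : Nonempty (Fin n) := ⟨⟨0, hn⟩⟩
  haveI : Nontrivial (Fin n → K) := inferInstance
  obtain ⟨c, hc⟩ := Module.End.exists_eigenvalue (lin X)
  refine ⟨c, ?_⟩
  set W := Module.End.eigenspace (lin X) c with hW
  have hst : ∀ g : Subgroup.centralizer ({X} : Set (GL (Fin n) K)), ∀ v ∈ W, lin g.1 v ∈ W := by
    intro g v hv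
    rw [hW, Module.End.mem_eigenspace_iff] at hv ⊢
    have hg : g.1 * X = X * g.1 := (Subgroup.mem_centralizer_singleton_iff.mp g.2)
    have h1 : lin X (lin g.1 v) = lin g.1 (lin X v) := by
      rw [← Module.End.mul_apply, ← Module.End.mul_apply, ← lin_mul, ← lin_mul, hg]
    rw [h1, hv, map_smul]
  let D0 : Subgroup.centralizer ({X} : Set (GL (Fin n) K)) →* (W →ₗ[K] W) :=
    { toFun := fun g => (lin g.1).restrict (hst g)
      map_one' := by
        ext v
        show (lin (1 : GL (Fin n) K) v : Fin n → K) _ = _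
        rw [lin_one]
        rfl
      map_mul' := by
        intro g h
        ext v
        show (lin (g.1 * h.1) v : Fin n → K) _ = _
        rw [lin_mul]
        rfl }
  let D : Subgroup.centralizer ({X} : Set (GL (Fin n) K)) →* Kˣ :=
    (LinearMap.det.comp D0).toHomUnits
  have hsc : Matrix.GeneralLinearGroup.scalar (Fin n) ζ ∈
      Subgroup.centralizer ({X} : Set (GL (Fin n) K)) := by
    rw [Subgroup.mem_centralizer_singleton_iff]
    apply Units.ext
    exact (Matrix.scalar_commute (ζ : K) (fun r' => Commute.all _ _) _).eq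
  have hDsc : (D ⟨_, hsc⟩ : K) = (ζ : K) ^ finrank K W := by
    show LinearMap.det (D0 ⟨_, hsc⟩) = _
    have h1 : D0 ⟨_, hsc⟩ = (ζ : K) • LinearMap.id := by
      ext v i
      show (lin (Matrix.GeneralLinearGroup.scalar (Fin n) ζ) v : Fin n → K) i = (ζ : K) * v.1 i
      unfold lin
      show (Matrix.scalar (Fin n) (ζ : K)).mulVec v.1 i = _
      rw [Matrix.scalar_apply, Matrix.mulVec_diagonal]
    rw [h1, LinearMap.det_smul, LinearMap.det_id, mul_one]
  have hmem : ∀ g : GL (Fin n) K, g * X = X * g →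
      g ∈ Subgroup.centralizer ({X} : Set (GL (Fin n) K)) := fun g hg =>
    Subgroup.mem_centralizer_singleton_iff.mpr hg
  have h2 := comm_one D ⟨a, hmem a ha⟩ ⟨b, hmem b hb⟩ (fun i => ⟨A i, hmem _ (hA i).1⟩)
    (fun i => ⟨B i, hmem _ (hA i).2⟩)
  have h3 : (⟨a, hmem a ha⟩ : Subgroup.centralizer ({X} : Set (GL (Fin n) K))) *
      ⟨b, hmem b hb⟩ * (⟨a, hmem a ha⟩)⁻¹ * (⟨b, hmem b hb⟩)⁻¹ *
      (List.ofFn fun i => (⟨A i, hmem _ (hA i).1⟩ : Subgroup.centralizer ({X} : Set _)) *
        ⟨B i, hmem _ (hA i).2⟩ * (⟨A i, hmem _ (hA i).1⟩)⁻¹ * (⟨B i, hmem _ (hA i).2⟩)⁻¹).prod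
      = ⟨_, hsc⟩ := by
    apply Subtype.ext
    show _ = Matrix.GeneralLinearGroup.scalar (Fin n) ζ
    rw [← hrel, Subgroup.coe_mul, Subgroup.val_list_prod, List.map_ofFn]
    rfl
  rw [h3] at h2
  have h4 : (ζ : K) ^ finrank K W = 1 := by
    rw [← hDsc, h2, Units.val_one]
  have h5 : orderOf ζ ∣ finrank K W := by
    apply orderOf_dvd_of_pow_eq_one
    apply Units.ext
    rw [Units.val_pow_eq_pow_val, h4, Units.val_one]
  rw [hζ] at h5
  have h6 : 0 < finrank K W := by
    have : Nontrivial W := (Submodule.nontrivial_iff_ne_bot).mpr hc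
    exact Module.finrank_pos
  have h7 : n ≤ finrank K W := Nat.le_of_dvd h6 h5
  have h8 : W = ⊤ := by
    apply Submodule.eq_top_of_finrank_eq
    apply le_antisymm (Submodule.finrank_le W)
    rw [Module.finrank_fin_fun]
    exact h7
  intro v
  have h9 : v ∈ W := by rw [h8]; exact Submodule.mem_top
  rwa [hW, Module.End.mem_eigenspace_iff] at h9

end K

/-- Row X6 -/
theorem rowX6 : RowX6 := by
  classical
  intro F _ _ _ n k ζ hn hζ a b A B hrel X ha hb hA
  let K := AlgebraicClosure F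
  let f : F →+* K := algebraMap F K
  have hf : Function.Injective f := f.injective
  let ρ : GL (Fin n) F →* GL (Fin n) K := Matrix.GeneralLinearGroup.map f
  have hsc : ρ (Matrix.GeneralLinearGroup.scalar (Fin n) ζ)
      = Matrix.GeneralLinearGroup.scalar (Fin n) (Units.map (f : F →* K) ζ) := by
    apply Units.ext
    ext i j
    show f (Matrix.scalar (Fin n) (ζ : F) i j) = Matrix.scalar (Fin n) (f (ζ : F)) i j
    rw [Matrix.scalar_apply, Matrix.scalar_apply, Matrix.diagonal_apply, Matrix.diagonal_apply]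
    split_ifs
    · rfl
    · exact map_zero f
  have hord : orderOf (Units.map (f : F →* K) ζ) = n := by
    rw [← hζ]
    exact orderOf_injective (Units.map (f : F →* K)) (Units.map_injective hf) ζ
  have hrel' : ρ a * ρ b * (ρ a)⁻¹ * (ρ b)⁻¹ *
      (List.ofFn fun i => ρ (A i) * ρ (B i) * (ρ (A i))⁻¹ * (ρ (B i))⁻¹).prod
      = Matrix.GeneralLinearGroup.scalar (Fin n) (Units.map (f : F →* K) ζ) := by
    rw [← hsc, ← hrel, map_mul, map_mul, map_mul, map_mul, map_inv, map_inv, map_list_prod,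
      List.map_ofFn]
    congr 2
    congr 1
    funext i
    show _ = ρ (A i * B i * (A i)⁻¹ * (B i)⁻¹)
    rw [map_mul, map_mul, map_mul, map_inv, map_inv]
  obtain ⟨c, hc⟩ := schurK hn _ hord (ρ a) (ρ b) (fun i => ρ (A i)) (fun i => ρ (B i)) hrel' (ρ X)
    (by rw [← map_mul, ha, map_mul]) (by rw [← map_mul, hb, map_mul])
    (fun i => ⟨by rw [← map_mul, (hA i).1, map_mul], by rw [← map_mul, (hA i).2, map_mul]⟩)
  have hent : ∀ i j, f (X i j) = if i = j then c else 0 := by
    intro i j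
    have h1 := congrFun (hc (Pi.single j 1)) i
    have h2 : lin (ρ X) (Pi.single j 1) i = f (X i j) := by
      unfold lin
      show ((ρ X : GL (Fin n) K) : Matrix (Fin n) (Fin n) K).mulVec (Pi.single j 1) i = _
      rw [Matrix.mulVec_single_one]
      rfl
    rw [h2] at h1
    rw [h1, Pi.smul_apply, Pi.single_apply, smul_eq_mul, mul_ite, mul_one, mul_zero]
  have hc0 : c ≠ 0 := by
    rintro rfl
    have h1 : (X : Matrix (Fin n) (Fin n) F) = 0 := by
      ext i j
      have := hent i j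
      rw [ite_self] at this
      exact hf (by rw [this]; exact (map_zero f).symm)
    have h2 : (X : Matrix (Fin n) (Fin n) F) * ((X⁻¹ : GL (Fin n) F) : Matrix _ _ F) = 1 := by
      rw [← Units.val_mul, mul_inv_cancel, Units.val_one]
    rw [h1, zero_mul] at h2
    have h3 := congrFun (congrFun h2 ⟨0, hn⟩) ⟨0, hn⟩
    rw [Matrix.zero_apply, Matrix.one_apply_eq] at h3
    exact zero_ne_one h3
  have h00 : f (X ⟨0, hn⟩ ⟨0, hn⟩) = c := by rw [hent, if_pos rfl]
  have hx0 : X ⟨0, hn⟩ ⟨0, hn⟩ ≠ 0 := by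
    intro h
    rw [h, map_zero] at h00
    exact hc0 h00.symm
  refine ⟨Units.mk0 _ hx0, ?_⟩
  apply Units.ext
  ext i j
  show X i j = Matrix.scalar (Fin n) (X ⟨0, hn⟩ ⟨0, hn⟩) i j
  rw [Matrix.scalar_apply, Matrix.diagonal_apply]
  apply hf
  rw [hent]
  split_ifs
  · exact h00.symm
  · exact (map_zero f).symm

end Vale.Agent.P275.H452.X6
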